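import Crest.Agent.R167.Basic

/-!
Row 167: cones of continuous functions, positive semidefinite kernels and the abstract Ginibre
inequality.
-/

set_option autoImplicit false
open MeasureTheory Filter Topology

namespace Crest.Agent.R167

/-- A class of continuous functions containing the non-negative constants and closed under sums,
products and bounded pointwise limits. -/
structure Cone (X : Type) [TopologicalSpace X] where
  /-- membership -/
  P : (X → ℝ) → Prop
  cont : ∀ {f : X → ℝ}, P f → Continuous f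
  const : ∀ {c : ℝ}, 0 ≤ c → P fun _ => c
  add : ∀ {f g : X → ℝ}, P f → P g → P fun x => f x + g x
  mul : ∀ {f g : X → ℝ}, P f → P g → P fun x => f x * g x
  lim : ∀ {F : ℕ → X → ℝ} {f : X → ℝ} (C : ℝ), (∀ n, P (F n)) → Continuous f →
    (∀ n x, |F n x| ≤ C) → (∀ x, Tendsto (fun n => F n x) atTop (𝓝 (f x))) → P f

theorem exists_abs_le {X : Type} [TopologicalSpace X] [CompactSpace X] {f : X → ℝ}
    (hf : Continuous f) : ∃ C, 0 ≤ C ∧ ∀ x, |f x| ≤ C := by
  obtain ⟨C, hC⟩ := (isCompact_univ (X := X)).exists_bound_of_continuousOn hf.continuousOn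
  exact ⟨max C 0, le_max_right _ _, fun x => (hC x trivial).trans (le_max_left _ _)⟩

namespace Cone
variable {X Y : Type} [TopologicalSpace X] [TopologicalSpace Y] (K : Cone X)

theorem congr {f g : X → ℝ} (hf : K.P f) (h : ∀ x, f x = g x) : K.P g := by
  rwa [← funext h]

theorem smul {c : ℝ} (hc : 0 ≤ c) {f : X → ℝ} (hf : K.P f) : K.P fun x => c * f x :=
  K.mul (K.const hc) hf

theorem sum {κ : Type} (S : Finset κ) {F : κ → X → ℝ} (hF : ∀ i ∈ S, K.P (F i)) :
    K.P fun x => ∑ i ∈ S, F i x := by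
  classical
  induction S using Finset.induction_on with
  | empty => simpa using K.const le_rfl
  | insert a S ha ih =>
    refine K.congr (K.add (hF a (Finset.mem_insert_self _ _))
      (ih fun i hi => hF i (Finset.mem_insert_of_mem hi))) fun x => ?_
    rw [Finset.sum_insert ha]

theorem pow {f : X → ℝ} (hf : K.P f) (n : ℕ) : K.P fun x => f x ^ n := by
  induction n with
  | zero => simpa using K.const zero_le_one
  | succ n ih => exact K.congr (K.mul ih hf) fun x => (pow_succ _ _).symm

theorem expm1 [CompactSpace X] {f : X → ℝ} (hf : K.P f) : K.P fun x => Real.exp (f x) - 1 := by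
  obtain ⟨C, hC0, hC⟩ := exists_abs_le (K.cont hf)
  have hc := K.cont hf
  refine K.lim (F := fun n x => ∑ k ∈ Finset.range (n + 1), f x ^ k / (k.factorial : ℝ) - 1)
    (Real.exp C + 1) (fun n => ?_) (by fun_prop) (fun n x => ?_) fun x => ?_
  · refine K.congr (K.sum (Finset.range n)
      (F := fun k x => (((k + 1).factorial : ℝ))⁻¹ * f x ^ (k + 1))
      fun k _ => K.smul (by positivity) (K.pow hf _)) fun x => ?_
    rw [Finset.sum_range_succ']
    simp [div_eq_inv_mul]
  · refine (abs_sub _ _).trans ?_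
    rw [abs_one]
    gcongr
    refine (Finset.abs_sum_le_sum_abs _ _).trans
      (le_trans (Finset.sum_le_sum fun k _ => ?_) (Real.sum_le_exp_of_nonneg hC0 (n + 1)))
    rw [abs_div, abs_pow, Nat.abs_cast]
    gcongr
    exact hC x
  · refine Tendsto.sub_const ?_ 1
    have h := (NormedSpace.expSeries_div_hasSum_exp (f x)).tendsto_sum_nat
    rw [← Real.exp_eq_exp_ℝ] at h
    exact h.comp (tendsto_add_atTop_nat 1)

theorem exp [CompactSpace X] {f : X → ℝ} (hf : K.P f) : K.P fun x => Real.exp (f x) :=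
  K.congr (K.add (K.expm1 hf) (K.const zero_le_one)) fun x => by ring

/-- The functions whose sum and difference at two replicas belong to `K`. -/
def pair (p q : X → Y) (_hp : Continuous p) (_hq : Continuous q) : Cone Y where
  P f := Continuous f ∧ (K.P fun x => f (p x) + f (q x)) ∧ K.P fun x => f (p x) - f (q x)
  cont h := h.1
  const hc := ⟨continuous_const, K.add (K.const hc) (K.const hc), by simpa using K.const le_rfl⟩
  add hf hg := ⟨hf.1.add hg.1, K.congr (K.add hf.2.1 hg.2.1) fun x => by ring,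
    K.congr (K.add hf.2.2 hg.2.2) fun x => by ring⟩
  mul hf hg := ⟨hf.1.mul hg.1,
    K.congr (K.smul (c := 1 / 2) (by norm_num) (K.add (K.mul hf.2.1 hg.2.1) (K.mul hf.2.2 hg.2.2)))
      fun x => by ring,
    K.congr (K.smul (c := 1 / 2) (by norm_num) (K.add (K.mul hf.2.1 hg.2.2) (K.mul hf.2.2 hg.2.1)))
      fun x => by ring⟩
  lim C hF hf hC hl := ⟨hf,
    K.lim (C + C) (fun n => (hF n).2.1) (by fun_prop)
      (fun n x => (abs_add_le _ _).trans (add_le_add (hC _ _) (hC _ _)))
      fun x => (hl _).add (hl _),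
    K.lim (C + C) (fun n => (hF n).2.2) (by fun_prop)
      (fun n x => (abs_sub _ _).trans (add_le_add (hC _ _) (hC _ _)))
      fun x => (hl _).sub (hl _)⟩

/-- The functions all of whose fibres belong to `K`. -/
def fibre (Y : Type) [TopologicalSpace Y] : Cone (X × Y) where
  P f := Continuous f ∧ ∀ y, K.P fun x => f (x, y)
  cont h := h.1
  const hc := ⟨continuous_const, fun _ => K.const hc⟩
  add hf hg := ⟨hf.1.add hg.1, fun y => K.add (hf.2 y) (hg.2 y)⟩
  mul hf hg := ⟨hf.1.mul hg.1, fun y => K.mul (hf.2 y) (hg.2 y)⟩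
  lim C hF hf hC hl := ⟨hf, fun y => K.lim C (fun n => (hF n).2 y) (by fun_prop)
    (fun _ _ => hC _ _) fun _ => hl _⟩

end Cone

/-! ### Positive semidefinite kernels -/

/-- Limits of sums of kernels `G x * G y`. -/
inductive Psd {Ω : Type} [TopologicalSpace Ω] : (Ω × Ω → ℝ) → Prop
  | sq {G : Ω → ℝ} : Continuous G → Psd fun p => G p.1 * G p.2
  | add {f g : Ω × Ω → ℝ} : Psd f → Psd g → Psd fun p => f p + g p
  | lim {F : ℕ → Ω × Ω → ℝ} {f : Ω × Ω → ℝ} (C : ℝ) : (∀ n, Psd (F n)) → Continuous f →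
    (∀ n x, |F n x| ≤ C) → (∀ x, Tendsto (fun n => F n x) atTop (𝓝 (f x))) → Psd f

namespace Psd
variable {Ω : Type} [TopologicalSpace Ω]

theorem congr {f g : Ω × Ω → ℝ} (hf : Psd f) (h : ∀ x, f x = g x) : Psd g := by
  rwa [← funext h]

theorem cont {f : Ω × Ω → ℝ} (hf : Psd f) : Continuous f := by
  induction hf with
  | sq h => fun_prop
  | add _ _ h1 h2 => exact h1.add h2
  | lim _ _ h => exact h

theorem lim_mul [CompactSpace Ω] {F : ℕ → Ω × Ω → ℝ} {f m : Ω × Ω → ℝ} (C : ℝ)
    (hm : Continuous m) (hF : ∀ n, Psd fun p => F n p * m p) (hf : Continuous f)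
    (hC : ∀ n x, |F n x| ≤ C) (hl : ∀ x, Tendsto (fun n => F n x) atTop (𝓝 (f x))) :
    Psd fun p => f p * m p := by
  obtain ⟨D, hD0, hD⟩ := exists_abs_le hm
  refine Psd.lim (C * D) hF (hf.mul hm) (fun n x => ?_) fun x => (hl x).mul_const _
  rw [abs_mul]
  exact mul_le_mul (hC n x) (hD x) (abs_nonneg _) ((abs_nonneg _).trans (hC n x))

theorem mul_sq [CompactSpace Ω] {f : Ω × Ω → ℝ} (hf : Psd f) {G : Ω → ℝ} (hG : Continuous G) :
    Psd fun p => f p * (G p.1 * G p.2) := by
  induction hf with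
  | sq h => exact (Psd.sq (h.mul hG)).congr fun p => by simp only [Pi.mul_apply]; ring
  | add _ _ h1 h2 => exact (h1.add h2).congr fun p => by ring
  | lim C _ hf hC hl ih => exact lim_mul C (by fun_prop) ih hf hC hl

theorem mul [CompactSpace Ω] {f g : Ω × Ω → ℝ} (hf : Psd f) (hg : Psd g) :
    Psd fun p => f p * g p := by
  induction hf with
  | sq h => exact (hg.mul_sq h).congr fun p => by ring
  | add _ _ h1 h2 => exact (h1.add h2).congr fun p => by ring
  | lim C _ hf hC hl ih => exact lim_mul C hg.cont ih hf hC hl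

theorem csq {c : ℝ} (hc : 0 ≤ c) {G : Ω → ℝ} (hG : Continuous G) :
    Psd fun p : Ω × Ω => c * (G p.1 * G p.2) :=
  (Psd.sq (G := fun x => √c * G x) (by fun_prop)).congr fun p => by
    have := Real.mul_self_sqrt hc
    linear_combination (G p.1 * G p.2) * this

/-- Positivity of the quadratic forms of a kernel. -/
theorem sum_nonneg {Y κ : Type} [TopologicalSpace Y] [CompactSpace Y] [MeasurableSpace Y]
    [BorelSpace Y] [SecondCountableTopology Y] (ν : Measure Y) [IsFiniteMeasure ν] [Fintype κ]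
    (c : κ → ℝ) {φ : κ → Y → Ω} (hφ : ∀ i, Continuous (φ i)) {f : Ω × Ω → ℝ} (hf : Psd f) :
    0 ≤ ∑ i, ∑ j, c i * c j * ∫ p : Y × Y, f (φ i p.1, φ j p.2) ∂ν.prod ν := by
  induction hf with
  | @sq G h =>
    have e : ∀ i j, ∫ p : Y × Y, G (φ i p.1) * G (φ j p.2) ∂ν.prod ν =
        (∫ x, G (φ i x) ∂ν) * ∫ x, G (φ j x) ∂ν := fun i j =>
      integral_prod_mul (fun x => G (φ i x)) fun x => G (φ j x)
    simp only [e]
    have : ∑ i, ∑ j, c i * c j * ((∫ x, G (φ i x) ∂ν) * ∫ x, G (φ j x) ∂ν) =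
        (∑ i, c i * ∫ x, G (φ i x) ∂ν) * ∑ i, c i * ∫ x, G (φ i x) ∂ν := by
      rw [Finset.sum_mul_sum]
      exact Finset.sum_congr rfl fun i _ => Finset.sum_congr rfl fun j _ => by ring
    rw [this]
    exact mul_self_nonneg _
  | @add f g hf hg h1 h2 =>
    have hf' := hf.cont
    have hg' := hg.cont
    refine (add_nonneg h1 h2).trans_eq ?_
    rw [← Finset.sum_add_distrib]
    refine Finset.sum_congr rfl fun i _ => ?_
    rw [← Finset.sum_add_distrib]
    refine Finset.sum_congr rfl fun j _ => ?_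
    have := hφ i
    have := hφ j
    rw [integral_add (cint (by fun_prop)) (cint (by fun_prop))]
    ring
  | @lim F f C hF hf hC hl ih =>
    refine ge_of_tendsto' (f := fun n => ∑ i, ∑ j, c i * c j *
      ∫ p : Y × Y, F n (φ i p.1, φ j p.2) ∂ν.prod ν) (x := atTop) ?_ ih
    refine tendsto_finsetSum _ fun i _ => tendsto_finsetSum _ fun j _ => Tendsto.const_mul _ ?_
    have := hφ i
    have := hφ j
    refine tendsto_integral_filter_of_norm_le_const (Eventually.of_forall fun n => ?_)
      ⟨C, Eventually.of_forall fun n => Eventually.of_forall fun p => hC _ _⟩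
      (Eventually.of_forall fun p => hl _)
    have := (hF n).cont
    exact Continuous.aestronglyMeasurable (by fun_prop)

theorem integral_nonneg [CompactSpace Ω] [MeasurableSpace Ω]
    [BorelSpace Ω] [SecondCountableTopology Ω] (ν : Measure Ω) [IsFiniteMeasure ν]
    {f : Ω × Ω → ℝ} (hf : Psd f) : 0 ≤ ∫ p, f p ∂ν.prod ν := by
  simpa using sum_nonneg ν (κ := Unit) (fun _ => 1) (φ := fun _ x => x)
    (fun _ => continuous_id) hf

end Psd

/-- The cone of positive semidefinite kernels. -/
def psdCone (Ω : Type) [TopologicalSpace Ω] [CompactSpace Ω] : Cone (Ω × Ω) where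
  P := Psd
  cont := Psd.cont
  const hc := (Psd.csq hc (G := fun _ => 1) continuous_const).congr fun _ => by ring
  add := Psd.add
  mul := Psd.mul
  lim := Psd.lim

/-! ### The abstract Ginibre inequality -/

/-- A cone with Griffiths' two inequalities. -/
structure Gin {Y : Type} [TopologicalSpace Y] [MeasurableSpace Y] (ν : Measure Y) (Q : Cone Y) :
    Prop where
  one : ∀ {f : Y → ℝ}, Q.P f → 0 ≤ ∫ y, f y ∂ν
  two : ∀ {f g U : Y → ℝ}, Q.P f → Q.P g → Q.P U →
    (∫ y, f y * Real.exp (U y) ∂ν) * ∫ y, g y * Real.exp (U y) ∂ν ≤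
      (∫ y, Real.exp (U y) ∂ν) * ∫ y, f y * g y * Real.exp (U y) ∂ν

section Gin
variable {X Y : Type} [TopologicalSpace X] [CompactSpace X] [MeasurableSpace X] [BorelSpace X]
  [TopologicalSpace Y] [CompactSpace Y] [MeasurableSpace Y] [BorelSpace Y]

omit [BorelSpace X] in
theorem gin_pair [SecondCountableTopology Y] {μ : Measure X} {ν : Measure Y}
    [IsProbabilityMeasure ν] (K : Cone X)
    (hK : ∀ f, K.P f → 0 ≤ ∫ x, f x ∂μ) {p q : X → Y} (hp : Continuous p) (hq : Continuous q)
    (hpq : MeasurePreserving (fun x => (p x, q x)) μ (ν.prod ν)) :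
    Gin ν (K.pair p q hp hq) := by
  have key : ∀ {k : Y × Y → ℝ}, Continuous k → (K.P fun x => k (p x, q x)) →
      0 ≤ ∫ z, k z ∂ν.prod ν := by
    intro k hk h
    have := hK _ h
    rwa [← hpq.map_eq, integral_map hpq.measurable.aemeasurable hk.aestronglyMeasurable]
  constructor
  · intro f hf
    have hc := hf.1
    have h := key (k := fun z => f z.1 + f z.2) (by fun_prop) hf.2.1
    rw [integral_add (cint (by fun_prop)) (cint (by fun_prop)), integral_fun_fst, integral_fun_snd]
      at h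
    simp only [probReal_univ, one_smul] at h
    linarith
  · intro f g U hf hg hU
    have hf' := hf.1
    have hg' := hg.1
    have hU' := hU.1
    have h := key (k := fun z => (f z.1 - f z.2) * (g z.1 - g z.2) * Real.exp (U z.1 + U z.2))
      (by fun_prop) (K.mul (K.mul hf.2.2 hg.2.2) (K.exp hU.2.1))
    have e : ∀ z : Y × Y, (f z.1 - f z.2) * (g z.1 - g z.2) * Real.exp (U z.1 + U z.2) =
        (f z.1 * g z.1 * Real.exp (U z.1) * Real.exp (U z.2) +
          Real.exp (U z.1) * (f z.2 * g z.2 * Real.exp (U z.2))) -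
        (f z.1 * Real.exp (U z.1) * (g z.2 * Real.exp (U z.2)) +
          g z.1 * Real.exp (U z.1) * (f z.2 * Real.exp (U z.2))) := fun z => by
      rw [Real.exp_add]; ring
    simp only [e] at h
    rw [integral_sub (cint (by fun_prop)) (cint (by fun_prop)),
      integral_add (cint (by fun_prop)) (cint (by fun_prop)),
      integral_add (cint (by fun_prop)) (cint (by fun_prop)),
      integral_prod_mul (fun y => f y * g y * Real.exp (U y)) fun y => Real.exp (U y),
      integral_prod_mul (fun y => Real.exp (U y)) fun y => f y * g y * Real.exp (U y),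
      integral_prod_mul (fun y => f y * Real.exp (U y)) fun y => g y * Real.exp (U y),
      integral_prod_mul (fun y => g y * Real.exp (U y)) fun y => f y * Real.exp (U y)] at h
    linarith

omit [BorelSpace Y] in
theorem Gin.nonneg {ν : Measure Y} {Q : Cone Y} (h : Gin ν Q) {f U : Y → ℝ} (hf : Q.P f)
    (hU : Q.P U) : 0 ≤ ∫ y, f y * Real.exp (U y) ∂ν :=
  h.one (Q.mul hf (Q.exp hU))

theorem Gin.lattice {ν : Measure Y} [IsFiniteMeasure ν] {Q : Cone Y} (h : Gin ν Q)
    {f g U U₁ U₂ V : Y → ℝ} (hf : Q.P f) (hg : Q.P g) (hU : Q.P U)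
    (h₁ : Q.P fun y => U₁ y - U y) (h₂ : Q.P fun y => U₂ y - U y)
    (hV : Q.P fun y => V y + U y - U₁ y - U₂ y) :
    (∫ y, f y * Real.exp (U₁ y) ∂ν) * ∫ y, g y * Real.exp (U₂ y) ∂ν ≤
      (∫ y, Real.exp (U y) ∂ν) * ∫ y, f y * g y * Real.exp (V y) ∂ν := by
  have hF := Q.mul hf (Q.exp h₁)
  have hG := Q.mul hg (Q.exp h₂)
  have h2 := h.two hF hG hU
  have e1 : ∀ (a : ℝ) (W : Y → ℝ) (y : Y),
      a * Real.exp (W y - U y) * Real.exp (U y) = a * Real.exp (W y) := fun a W y => by
    rw [mul_assoc, ← Real.exp_add]; congr 2; ring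
  simp only [e1 _ U₁, e1 _ U₂] at h2
  refine h2.trans (mul_le_mul_of_nonneg_left ?_ (integral_nonneg fun y => (Real.exp_pos _).le))
  have hA := Q.mul (Q.mul hF hG) (Q.exp hU)
  have hB := Q.mul hA (Q.expm1 hV)
  have h3 := h.one hB
  have e2 : ∀ y, f y * g y * Real.exp (V y) =
      f y * Real.exp (U₁ y - U y) * (g y * Real.exp (U₂ y - U y)) * Real.exp (U y) +
      f y * Real.exp (U₁ y - U y) * (g y * Real.exp (U₂ y - U y)) * Real.exp (U y) *
        (Real.exp (V y + U y - U₁ y - U₂ y) - 1) := fun y => by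
    have : Real.exp (V y) = Real.exp (U₁ y - U y) * Real.exp (U₂ y - U y) * Real.exp (U y) *
        Real.exp (V y + U y - U₁ y - U₂ y) := by
      simp only [← Real.exp_add]; congr 1; ring
    rw [this]; ring
  simp only [e2]
  rw [integral_add (cint (Q.cont hA)) (cint (Q.cont hB))]
  linarith

end Gin

end Crest.Agent.R167
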