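import Crest.Agent.R167.Basic
import Crest.Agent.R167.ConeAux

/-!
Row 167: Griffiths and Ginibre inequalities, positive definiteness of twisted partition functions.
-/

set_option autoImplicit false
open MeasureTheory

namespace Crest.Agent.R167

variable {ι ε : Type}

/-- Polynomials in the Ising spins with non-negative coefficients. -/
inductive PosI : (Isg ι → ℝ) → Prop
  | const {c : ℝ} : 0 ≤ c → PosI fun _ => c
  | spin (v : ι) : PosI fun e => sgn (e v)
  | add {f g : Isg ι → ℝ} : PosI f → PosI g → PosI fun e => f e + g e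
  | mul {f g : Isg ι → ℝ} : PosI f → PosI g → PosI fun e => f e * g e

/-- Polynomials in the cosines of the angles with non-negative coefficients. -/
inductive PosA : (Ang ι → ℝ) → Prop
  | const {c : ℝ} : 0 ≤ c → PosA fun _ => c
  | cos (v : ι) : PosA fun θ => (θ v).cos
  | add {f g : Ang ι → ℝ} : PosA f → PosA g → PosA fun θ => f θ + g θ
  | mul {f g : Ang ι → ℝ} : PosA f → PosA g → PosA fun θ => f θ * g θ

theorem PosI.continuous {f : Isg ι → ℝ} (hf : PosI f) : Continuous f := by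
  induction hf <;> fun_prop

theorem PosA.continuous {f : Ang ι → ℝ} (hf : PosA f) : Continuous f := by
  induction hf <;> fun_prop

variable [Fintype ι] [Fintype ε] (s t : ε → ι)

/-- Ising energy. -/
def Uis (K : ε → ℝ) (H : ι → ℝ) (e : Isg ι) : ℝ :=
  ∑ a, K a * (sgn (e (s a)) * sgn (e (t a))) + ∑ v, H v * sgn (e v)

/-- Plane rotor energy. -/
noncomputable def Uxy (K : ε → ℝ) (θ : Ang ι) : ℝ := ∑ a, K a * (θ (s a) - θ (t a)).cos

theorem angle_cos_sub (a b : Real.Angle) : (a - b).cos = a.cos * b.cos + a.sin * b.sin := by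
  rw [sub_eq_add_neg, Real.Angle.cos_add, Real.Angle.cos_neg, Real.Angle.sin_neg]; ring

/-! ### The Ising cone -/

section IsingCone
variable (ι)

/-- The Ginibre cone of the Ising model. -/
def coneI : Cone (Isg ι) :=
  ((psdCone (Isg ι)).fibre (Isg ι)).pair (fun x => x.1.1 + x.1.2) (fun x => x.1.1 + x.1.2 + x.2)
    (by fun_prop) (by fun_prop)

theorem gin_coneI : Gin (μI ι) (coneI ι) := by
  refine gin_pair (μ := ((μI ι).prod (μI ι)).prod (μI ι)) _ (fun f hf => ?_) _ _ ?_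
  · rw [integral_prod_symm _ (cint hf.1)]
    exact integral_nonneg fun y => Psd.integral_nonneg (μI ι) (hf.2 y)
  · let φ : (Isg ι × Isg ι) × Isg ι →+ Isg ι × Isg ι :=
      { toFun := fun x => (x.1.1 + x.1.2, x.1.1 + x.1.2 + x.2)
        map_zero' := by simp
        map_add' := fun x y => by
          ext <;> simp only [Prod.fst_add, Prod.snd_add, Pi.add_apply] <;> abel }
    have h1 : ((μI ι).prod (μI ι)).IsAddHaarMeasure := Measure.prod.instIsAddHaarMeasure _ _
    have h2 : (((μI ι).prod (μI ι)).prod (μI ι)).IsAddHaarMeasure :=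
      Measure.prod.instIsAddHaarMeasure _ _
    have hc : Continuous fun x : (Isg ι × Isg ι) × Isg ι =>
      (x.1.1 + x.1.2, x.1.1 + x.1.2 + x.2) := by fun_prop
    refine AddMonoidHom.measurePreserving (f := φ) hc ?_ (by simp)
    rintro ⟨x, y⟩
    exact ⟨((x, 0), y - x), by simp [φ]⟩

variable {ι}

theorem coneI_spin (v : ι) : (coneI ι).P fun e => sgn (e v) := by
  refine ⟨by fun_prop, ⟨by fun_prop, fun τ => ?_⟩, ⟨by fun_prop, fun τ => ?_⟩⟩
  · refine (Psd.csq (c := 1 + sgn (τ v)) ?_ (G := fun e : Isg ι => sgn (e v))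
      (by fun_prop)).congr fun p => ?_
    · rcases zmod2_cases (τ v) with h | h <;> simp [h]
    · simp only [Pi.add_apply, sgn_add]; ring
  · refine (Psd.csq (c := 1 - sgn (τ v)) ?_ (G := fun e : Isg ι => sgn (e v))
      (by fun_prop)).congr fun p => ?_
    · rcases zmod2_cases (τ v) with h | h <;> simp [h]
    · simp only [Pi.add_apply, sgn_add]; ring

theorem PosI.mem {f : Isg ι → ℝ} (hf : PosI f) : (coneI ι).P f := by
  induction hf with
  | const h => exact (coneI ι).const h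
  | spin v => exact coneI_spin v
  | add _ _ h1 h2 => exact (coneI ι).add h1 h2
  | mul _ _ h1 h2 => exact (coneI ι).mul h1 h2

theorem Uis_mem {K : ε → ℝ} {H : ι → ℝ} (hK : ∀ a, 0 ≤ K a) (hH : ∀ v, 0 ≤ H v) :
    (coneI ι).P (Uis s t K H) :=
  (coneI ι).add
    ((coneI ι).sum _ fun a _ => (coneI ι).smul (hK a)
      ((coneI ι).mul (coneI_spin (s a)) (coneI_spin (t a))))
    ((coneI ι).sum _ fun v _ => (coneI ι).smul (hH v) (coneI_spin v))

end IsingCone

/-! ### The plane rotor cone -/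

section RotorCone
variable (ι)

/-- The Ginibre cone of the plane rotor model. -/
noncomputable def coneA : Cone (Ang ι) :=
  (psdCone (Ang ι)).pair (fun x => x.1 - x.2) (fun x => x.1 + x.2) (by fun_prop) (by fun_prop)

theorem angle_half (θ : Real.Angle) : ∃ φ : Real.Angle, φ + φ = θ := by
  induction θ using Real.Angle.induction_on with
  | h r => exact ⟨((r / 2 : ℝ) : Real.Angle), by rw [← Real.Angle.coe_add]; congr 1; ring⟩

theorem gin_coneA : Gin (μA ι) (coneA ι) := by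
  refine gin_pair (μ := (μA ι).prod (μA ι)) _ (fun f hf => Psd.integral_nonneg (μA ι) hf) _ _ ?_
  let φ : Ang ι × Ang ι →+ Ang ι × Ang ι :=
    { toFun := fun x => (x.1 - x.2, x.1 + x.2)
      map_zero' := by simp
      map_add' := fun x y => by
        ext <;> simp only [Prod.fst_add, Prod.snd_add, Pi.add_apply, Pi.sub_apply] <;> abel }
  have h1 : ((μA ι).prod (μA ι)).IsAddHaarMeasure := Measure.prod.instIsAddHaarMeasure _ _
  have hc : Continuous fun x : Ang ι × Ang ι => (x.1 - x.2, x.1 + x.2) := by fun_prop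
  refine AddMonoidHom.measurePreserving (f := φ) hc ?_ rfl
  rintro ⟨x, y⟩
  choose a ha using fun v => angle_half (x v + y v)
  refine ⟨(a, a - x), ?_⟩
  ext v
  · simp [φ]
  · change a v + (a v - x v) = y v
    rw [← add_sub_assoc, ha]; abel

variable {ι}

theorem coneA_cos {χ : Ang ι → Real.Angle} (hc : Continuous χ) (h1 : ∀ a b, χ (a - b) = χ a - χ b)
    (h2 : ∀ a b, χ (a + b) = χ a + χ b) : (coneA ι).P fun θ => (χ θ).cos := by
  refine ⟨by fun_prop, ?_, ?_⟩
  · refine (Psd.csq (c := 2) zero_le_two (G := fun θ : Ang ι => (χ θ).cos)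
      (by fun_prop)).congr fun p => ?_
    simp only [h1, h2, Real.Angle.cos_add, angle_cos_sub]; ring
  · refine (Psd.csq (c := 2) zero_le_two (G := fun θ : Ang ι => (χ θ).sin)
      (by fun_prop)).congr fun p => ?_
    simp only [h1, h2, Real.Angle.cos_add, angle_cos_sub]; ring

theorem PosA.mem {f : Ang ι → ℝ} (hf : PosA f) : (coneA ι).P f := by
  induction hf with
  | const h => exact (coneA ι).const h
  | cos v => exact coneA_cos (χ := fun θ => θ v) (by fun_prop) (fun _ _ => rfl) fun _ _ => rfl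
  | add _ _ h1 h2 => exact (coneA ι).add h1 h2
  | mul _ _ h1 h2 => exact (coneA ι).mul h1 h2

theorem Uxy_mem {K : ε → ℝ} (hK : ∀ a, 0 ≤ K a) : (coneA ι).P (Uxy s t K) :=
  (coneA ι).sum _ fun a _ => (coneA ι).smul (hK a)
    (coneA_cos (χ := fun θ => θ (s a) - θ (t a)) (by fun_prop)
      (fun _ _ => by simp only [Pi.sub_apply]; abel) fun _ _ => by simp only [Pi.add_apply]; abel)

end RotorCone

theorem ising_nonneg {K : ε → ℝ} {H : ι → ℝ} (hK : ∀ a, 0 ≤ K a) (hH : ∀ v, 0 ≤ H v)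
    {f : Isg ι → ℝ} (hf : PosI f) : 0 ≤ ∫ e, f e * Real.exp (Uis s t K H e) ∂μI ι := by
  exact (gin_coneI ι).nonneg hf.mem (Uis_mem s t hK hH)

theorem ising_lattice {K₁ K₂ Ki Ks : ε → ℝ} {H₁ H₂ Hi Hs : ι → ℝ} (hK : ∀ a, 0 ≤ Ki a)
    (hK₁ : ∀ a, Ki a ≤ K₁ a) (hK₂ : ∀ a, Ki a ≤ K₂ a) (hKs : ∀ a, K₁ a + K₂ a ≤ Ki a + Ks a)
    (hH : ∀ v, 0 ≤ Hi v) (hH₁ : ∀ v, Hi v ≤ H₁ v) (hH₂ : ∀ v, Hi v ≤ H₂ v)
    (hHs : ∀ v, H₁ v + H₂ v ≤ Hi v + Hs v) {f g : Isg ι → ℝ} (hf : PosI f) (hg : PosI g) :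
    (∫ e, f e * Real.exp (Uis s t K₁ H₁ e) ∂μI ι) * ∫ e, g e * Real.exp (Uis s t K₂ H₂ e) ∂μI ι ≤
      (∫ e, Real.exp (Uis s t Ki Hi e) ∂μI ι) *
        ∫ e, f e * g e * Real.exp (Uis s t Ks Hs e) ∂μI ι := by
  refine (gin_coneI ι).lattice hf.mem hg.mem (Uis_mem s t hK hH)
    ((coneI ι).congr (Uis_mem s t (K := fun a => K₁ a - Ki a) (H := fun v => H₁ v - Hi v)
      (fun a => sub_nonneg.2 (hK₁ a)) fun v => sub_nonneg.2 (hH₁ v)) fun e => ?_)
    ((coneI ι).congr (Uis_mem s t (K := fun a => K₂ a - Ki a) (H := fun v => H₂ v - Hi v)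
      (fun a => sub_nonneg.2 (hK₂ a)) fun v => sub_nonneg.2 (hH₂ v)) fun e => ?_)
    ((coneI ι).congr (Uis_mem s t (K := fun a => Ks a + Ki a - K₁ a - K₂ a)
      (H := fun v => Hs v + Hi v - H₁ v - H₂ v)
      (fun a => by linarith [hKs a]) fun v => by linarith [hHs v]) fun e => ?_)
  all_goals
    simp only [Uis, sub_mul, add_mul, Finset.sum_sub_distrib, Finset.sum_add_distrib]
    ring

theorem xy_nonneg {K : ε → ℝ} (hK : ∀ a, 0 ≤ K a) {f : Ang ι → ℝ} (hf : PosA f) :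
    0 ≤ ∫ θ, f θ * Real.exp (Uxy s t K θ) ∂μA ι := by
  exact (gin_coneA ι).nonneg hf.mem (Uxy_mem s t hK)

theorem xy_lattice {K₁ K₂ Ki Ks : ε → ℝ} (hK : ∀ a, 0 ≤ Ki a)
    (hK₁ : ∀ a, Ki a ≤ K₁ a) (hK₂ : ∀ a, Ki a ≤ K₂ a) (hKs : ∀ a, K₁ a + K₂ a ≤ Ki a + Ks a)
    {f g : Ang ι → ℝ} (hf : PosA f) (hg : PosA g) :
    (∫ θ, f θ * Real.exp (Uxy s t K₁ θ) ∂μA ι) * ∫ θ, g θ * Real.exp (Uxy s t K₂ θ) ∂μA ι ≤
      (∫ θ, Real.exp (Uxy s t Ki θ) ∂μA ι) * ∫ θ, f θ * g θ * Real.exp (Uxy s t Ks θ) ∂μA ι := by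
  refine (gin_coneA ι).lattice hf.mem hg.mem (Uxy_mem s t hK)
    ((coneA ι).congr (Uxy_mem s t (K := fun a => K₁ a - Ki a)
      (fun a => sub_nonneg.2 (hK₁ a))) fun e => ?_)
    ((coneA ι).congr (Uxy_mem s t (K := fun a => K₂ a - Ki a)
      (fun a => sub_nonneg.2 (hK₂ a))) fun e => ?_)
    ((coneA ι).congr (Uxy_mem s t (K := fun a => Ks a + Ki a - K₁ a - K₂ a)
      (fun a => by linarith [hKs a])) fun e => ?_)
  all_goals
    simp only [Uxy, sub_mul, add_mul, Finset.sum_sub_distrib, Finset.sum_add_distrib]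

/-- The plane rotor partition function with a twist `a * g` and a field. -/
noncomputable def Ztw (K : ε → ℝ) (A : ι → ℝ) (g : ε → ℝ) (a : ℝ) : ℝ :=
  ∫ θ, Real.exp (∑ e, K e * (θ (s e) - θ (t e) + ((a * g e : ℝ) : Real.Angle)).cos +
    ∑ v, A v * (θ v).cos) ∂μA ι

theorem psd_cos {Ω : Type} [TopologicalSpace Ω] {χ : Ω → Real.Angle} (hc : Continuous χ) :
    Psd fun p : Ω × Ω => (χ p.1 - χ p.2).cos :=
  ((Psd.sq (G := fun x => (χ x).cos) (by fun_prop)).add
    (Psd.sq (G := fun x => (χ x).sin) (by fun_prop))).congr fun p => by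
      rw [angle_cos_sub]

/-- The twisted partition function is positive definite. -/
theorem Ztw_pd {K : ε → ℝ} {A : ι → ℝ} (hK : ∀ a, 0 ≤ K a) (hA : ∀ v, 0 ≤ A v) (g : ε → ℝ)
    {κ : Type} [Fintype κ] (c a : κ → ℝ) :
    0 ≤ ∑ i, ∑ j, c i * c j * Ztw s t K A g (a i - a j) := by
  let Q := psdCone (Ang ε × Ang ι)
  have hk : Q.P fun p => Real.exp (∑ e, K e * (p.1.1 e - p.2.1 e).cos +
      ∑ v, A v * (p.1.2 v - p.2.2 v).cos) :=
    Q.exp (Q.add
      (Q.sum _ fun e _ => Q.smul (hK e) (psd_cos (χ := fun x : Ang ε × Ang ι => x.1 e) (by fun_prop)))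
      (Q.sum _ fun v _ => Q.smul (hA v) (psd_cos (χ := fun x : Ang ε × Ang ι => x.2 v) (by fun_prop))))
  have h := Psd.sum_nonneg (μA ι) c
    (φ := fun i x => ((fun e => x (s e) - x (t e) + ((a i * g e : ℝ) : Real.Angle), x) :
      Ang ε × Ang ι)) (fun i => by fun_prop) hk
  refine h.trans_eq (Finset.sum_congr rfl fun i _ => Finset.sum_congr rfl fun j _ => ?_)
  congr 1
  let φ : Ang ι × Ang ι →+ Ang ι :=
    { toFun := fun x => x.1 - x.2
      map_zero' := by simp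
      map_add' := fun x y => by simp only [Prod.fst_add, Prod.snd_add]; abel }
  have h1 : ((μA ι).prod (μA ι)).IsAddHaarMeasure := Measure.prod.instIsAddHaarMeasure _ _
  have hc : Continuous fun x : Ang ι × Ang ι => x.1 - x.2 := by fun_prop
  have hφ : MeasurePreserving φ ((μA ι).prod (μA ι)) (μA ι) :=
    AddMonoidHom.measurePreserving (f := φ) hc (fun x => ⟨(x, 0), by simp [φ]⟩) (by simp)
  have key : ∀ F : Ang ι → ℝ, Continuous F → ∫ θ, F θ ∂μA ι = ∫ p, F (φ p) ∂(μA ι).prod (μA ι) := by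
    intro F hF
    rw [← integral_map hφ.measurable.aemeasurable hF.aestronglyMeasurable, hφ.map_eq]
  rw [Ztw, key _ (by fun_prop)]
  refine integral_congr_ae (Filter.Eventually.of_forall fun p => ?_)
  simp only [φ, AddMonoidHom.coe_mk, ZeroHom.coe_mk, Pi.sub_apply, sub_mul, Real.Angle.coe_sub]
  congr 2
  refine Finset.sum_congr rfl fun e _ => ?_
  congr 2
  abel

/-- Two consequences of positive definiteness. -/
theorem xy_pd {K : ε → ℝ} {A : ι → ℝ} (hK : ∀ a, 0 ≤ K a) (hA : ∀ v, 0 ≤ A v) (g : ε → ℝ) (a : ℝ) :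
    0 ≤ 2 * Ztw s t K A g 0 - Ztw s t K A g a - Ztw s t K A g (-a) ∧
    2 * Ztw s t K A g 0 - Ztw s t K A g (2 * a) - Ztw s t K A g (-(2 * a)) ≤
      4 * (2 * Ztw s t K A g 0 - Ztw s t K A g a - Ztw s t K A g (-a)) := by
  constructor
  · have h := Ztw_pd s t hK hA g (κ := Fin 2) ![1, -1] ![0, a]
    simp [Fin.sum_univ_two] at h
    linarith
  · have h := Ztw_pd s t hK hA g (κ := Fin 3) ![1, -2, 1] ![0, a, 2 * a]
    simp only [Fin.sum_univ_three, Matrix.cons_val_zero, Matrix.cons_val_one, Matrix.cons_val_two,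
      Matrix.head_cons, Matrix.tail_cons, sub_self, zero_sub, sub_zero,
      show a - 2 * a = -a by ring, show 2 * a - a = a by ring] at h
    linarith

end Crest.Agent.R167
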