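import Crest.Agent.R167.Sphere
import Crest.Agent.R167.Cone

/-!
Row 167: the stiffness form is non-negative and controls the cost of reversing a boundary field.
-/

set_option autoImplicit false
open MeasureTheory Filter Topology

namespace Crest.Agent.R167

namespace TwistAux

/-- Symmetric second difference quotient. -/
theorem second_diff {F F' : ℝ → ℝ} {c : ℝ} (h1 : ∀ x, HasDerivAt F (F' x) x)
    (h2 : HasDerivAt F' c 0) :
    Tendsto (fun x => (2 * F 0 - F x - F (-x)) / x ^ 2) (𝓝[>] 0) (𝓝 (-c)) := by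
  have hneg : ∀ x, HasDerivAt (fun x => F (-x)) (-F' (-x)) x := by
    intro x
    have := (h1 (-x)).comp x (hasDerivAt_neg x)
    rw [mul_neg_one] at this
    exact this
  have hd : ∀ x, HasDerivAt (fun x => 2 * F 0 - F x - F (-x)) (F' (-x) - F' x) x := by
    intro x
    have := ((hasDerivAt_const x (2 * F 0)).sub (h1 x)).sub (hneg x)
    rw [show 0 - F' x - -F' (-x) = F' (-x) - F' x by ring] at this
    exact this
  have hg : ∀ x : ℝ, HasDerivAt (fun x : ℝ => x ^ 2) (2 * x) x := by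
    intro x
    simpa using hasDerivAt_pow 2 x
  have h3 : HasDerivAt (fun x => F' (-x) - F' x) (-c - c) 0 := by
    have h4 : HasDerivAt F' c (-0) := by simpa using h2
    have h5 : HasDerivAt (fun x => F' (-x)) (-c) 0 := by
      have := h4.comp (0 : ℝ) (hasDerivAt_neg (0 : ℝ))
      rw [mul_neg_one] at this
      exact this
    exact h5.sub h2
  refine HasDerivAt.lhopital_zero_nhdsGT (f' := fun x => F' (-x) - F' x) (g' := fun x => 2 * x)
    (Eventually.of_forall hd) (Eventually.of_forall hg) ?_ ?_ ?_ ?_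
  · filter_upwards [self_mem_nhdsWithin] with x hx
    have : (0 : ℝ) < x := hx
    positivity
  · have := (hd 0).continuousAt.tendsto.mono_left (nhdsWithin_le_nhds (s := Set.Ioi 0))
    have e : 2 * F 0 - F 0 - F (-0) = 0 := by rw [neg_zero]; ring
    rwa [e] at this
  · have := (hg 0).continuousAt.tendsto.mono_left (nhdsWithin_le_nhds (s := Set.Ioi 0))
    simpa using this
  · have := h3.tendsto_slope_zero_right.div_const 2
    have e : (-c - c) / 2 = -c := by ring
    rw [e] at this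
    refine this.congr fun x => ?_
    simp only [zero_add, neg_zero, sub_self, sub_zero, smul_eq_mul]
    ring

theorem second_nonpos {F F' : ℝ → ℝ} {c : ℝ} (h1 : ∀ x, HasDerivAt F (F' x) x)
    (h2 : HasDerivAt F' c 0) (h3 : ∀ a, 0 ≤ 2 * F 0 - F a - F (-a)) : 0 ≤ -c :=
  ge_of_tendsto' (second_diff h1 h2) fun x => div_nonneg (h3 x) (sq_nonneg x)

theorem second_bound {F F' : ℝ → ℝ} {c : ℝ} (h1 : ∀ x, HasDerivAt F (F' x) x)
    (h2 : HasDerivAt F' c 0)
    (h3 : ∀ a, 2 * F 0 - F (2 * a) - F (-(2 * a)) ≤ 4 * (2 * F 0 - F a - F (-a)))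
    {x : ℝ} (hx : 0 < x) : 2 * F 0 - F x - F (-x) ≤ x ^ 2 * (-c) := by
  have hk : ∀ k : ℕ, 2 * F 0 - F x - F (-x) ≤
      4 ^ k * (2 * F 0 - F (x * (1 / 2) ^ k) - F (-(x * (1 / 2) ^ k))) := by
    intro k
    induction k with
    | zero => simp
    | succ k ih =>
      refine ih.trans ?_
      have := h3 (x * (1 / 2) ^ (k + 1))
      have e : 2 * (x * (1 / 2) ^ (k + 1)) = x * (1 / 2) ^ k := by ring
      rw [e] at this
      rw [pow_succ (4 : ℝ), mul_assoc]
      exact mul_le_mul_of_nonneg_left this (by positivity)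
  have ht : Tendsto (fun k : ℕ => x * (1 / 2) ^ k) atTop (𝓝[>] 0) := by
    rw [tendsto_nhdsWithin_iff]
    constructor
    · simpa using (tendsto_pow_atTop_nhds_zero_of_lt_one (r := (1 / 2 : ℝ)) (by norm_num)
        (by norm_num)).const_mul x
    · exact Eventually.of_forall fun k => by
        show 0 < x * (1 / 2) ^ k
        positivity
  have := ((second_diff h1 h2).comp ht).const_mul (x ^ 2)
  refine ge_of_tendsto' this fun k => (hk k).trans (le_of_eq ?_)
  simp only [Function.comp]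
  have e : (4 : ℝ) ^ k * ((1 / 2) ^ k) ^ 2 = 1 := by
    rw [← pow_mul, mul_comm k 2, pow_mul, ← mul_pow]; norm_num
  have hp : (0 : ℝ) < (1 / 2) ^ k := by positivity
  field_simp
  linear_combination (2 * F 0 - F (x * (1 / 2) ^ k) - F (-(x * (1 / 2) ^ k))) * e

variable {ι ε : Type} [Fintype ι] [Fintype ε] (s t : ε → ι) (J : ε → ℝ) (h : ι → ℝ)
  (π : Equiv.Perm (Fin 3)) (g : ε → ℝ)

/-- In-plane scalar product. -/
def PP (e : ε) (σ : Cfg ι) : ℝ :=
  crd σ (s e) (π 0) * crd σ (t e) (π 0) + crd σ (s e) (π 1) * crd σ (t e) (π 1)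

/-- In-plane cross product. -/
def QQ (e : ε) (σ : Cfg ι) : ℝ :=
  crd σ (s e) (π 0) * crd σ (t e) (π 1) - crd σ (s e) (π 1) * crd σ (t e) (π 0)

/-- The twisted energy. -/
noncomputable def H0 (a : ℝ) (σ : Cfg ι) : ℝ :=
  ∑ e, J e * (Real.cos (a * g e) * PP s t π e σ + Real.sin (a * g e) * QQ s t π e σ +
    crd σ (s e) (π 2) * crd σ (t e) (π 2)) + ∑ v, h v * crd σ v 2

/-- Its first derivative. -/
noncomputable def H1 (a : ℝ) (σ : Cfg ι) : ℝ :=
  ∑ e, J e * (-Real.sin (a * g e) * g e * PP s t π e σ + Real.cos (a * g e) * g e * QQ s t π e σ)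

/-- Its second derivative. -/
noncomputable def H2 (a : ℝ) (σ : Cfg ι) : ℝ :=
  ∑ e, J e * (-(Real.cos (a * g e) * g e) * g e * PP s t π e σ +
    -Real.sin (a * g e) * g e * g e * QQ s t π e σ)

@[fun_prop] theorem continuous_H0 {X : Type} [TopologicalSpace X] {a : X → ℝ} {σ : X → Cfg ι}
    (ha : Continuous a) (hσ : Continuous σ) : Continuous fun p => H0 s t J h π g (a p) (σ p) := by
  unfold H0 PP QQ; fun_prop

omit [Fintype ι] in
@[fun_prop] theorem continuous_H1 {X : Type} [TopologicalSpace X] {a : X → ℝ} {σ : X → Cfg ι}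
    (ha : Continuous a) (hσ : Continuous σ) : Continuous fun p => H1 s t J π g (a p) (σ p) := by
  unfold H1 PP QQ; fun_prop

omit [Fintype ι] in
@[fun_prop] theorem continuous_H2 {X : Type} [TopologicalSpace X] {a : X → ℝ} {σ : X → Cfg ι}
    (ha : Continuous a) (hσ : Continuous σ) : Continuous fun p => H2 s t J π g (a p) (σ p) := by
  unfold H2 PP QQ; fun_prop

theorem hasDerivAt_H0 (a : ℝ) (σ : Cfg ι) :
    HasDerivAt (fun a => H0 s t J h π g a σ) (H1 s t J π g a σ) a := by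
  unfold H0 H1
  refine HasDerivAt.add_const _ (HasDerivAt.fun_sum fun e _ => HasDerivAt.const_mul _ ?_)
  have h1 : HasDerivAt (fun a : ℝ => a * g e) (g e) a := by
    simpa using (hasDerivAt_id a).mul_const (g e)
  exact HasDerivAt.add_const _ ((h1.cos.mul_const _).add (h1.sin.mul_const _))

omit [Fintype ι] in
theorem hasDerivAt_H1 (a : ℝ) (σ : Cfg ι) :
    HasDerivAt (fun a => H1 s t J π g a σ) (H2 s t J π g a σ) a := by
  unfold H1 H2
  refine HasDerivAt.fun_sum fun e _ => HasDerivAt.const_mul _ ?_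
  have h1 : HasDerivAt (fun a : ℝ => a * g e) (g e) a := by
    simpa using (hasDerivAt_id a).mul_const (g e)
  exact ((h1.sin.neg.mul_const _).mul_const _).add ((h1.cos.mul_const _).mul_const _)

/-- The twisted partition function. -/
noncomputable def F0 (a : ℝ) : ℝ := ∫ σ, Real.exp (H0 s t J h π g a σ) ∂ref ι

/-- Its first derivative. -/
noncomputable def F1 (a : ℝ) : ℝ :=
  ∫ σ, Real.exp (H0 s t J h π g a σ) * H1 s t J π g a σ ∂ref ι

/-- Its second derivative. -/
noncomputable def F2 (a : ℝ) : ℝ :=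
  ∫ σ, (Real.exp (H0 s t J h π g a σ) * H1 s t J π g a σ * H1 s t J π g a σ +
    Real.exp (H0 s t J h π g a σ) * H2 s t J π g a σ) ∂ref ι

theorem hasDerivAt_F0 (a : ℝ) : HasDerivAt (F0 s t J h π g) (F1 s t J h π g a) a :=
  hasDerivAt_cint (G := fun a σ => Real.exp (H0 s t J h π g a σ))
    (G' := fun a σ => Real.exp (H0 s t J h π g a σ) * H1 s t J π g a σ)
    (fun _ => by fun_prop) (by fun_prop) (fun a σ => (hasDerivAt_H0 s t J h π g a σ).exp) a

theorem hasDerivAt_F1 (a : ℝ) : HasDerivAt (F1 s t J h π g) (F2 s t J h π g a) a :=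
  hasDerivAt_cint (G := fun a σ => Real.exp (H0 s t J h π g a σ) * H1 s t J π g a σ)
    (G' := fun a σ => Real.exp (H0 s t J h π g a σ) * H1 s t J π g a σ * H1 s t J π g a σ +
      Real.exp (H0 s t J h π g a σ) * H2 s t J π g a σ)
    (fun _ => by fun_prop) (by fun_prop)
    (fun a σ => (hasDerivAt_H0 s t J h π g a σ).exp.mul (hasDerivAt_H1 s t J π g a σ)) a

theorem H0_zero (σ : Cfg ι) : H0 s t J h π g 0 σ = ham s t J h σ := by
  unfold H0 ham PP
  congr 1
  refine Finset.sum_congr rfl fun e _ => ?_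
  rw [sum_perm π]
  simp

theorem F0_zero : F0 s t J h π g 0 = Zf s t J h := by
  simp only [F0, Zf, H0_zero]

theorem qf_gam (b c : Fin 3) : qf (Gam s t J h b c) g =
    Ex s t J h fun σ => (∑ e, g e * cur s t J b c e σ) ^ 2 := by
  have : (fun σ => (∑ e, g e * cur s t J b c e σ) ^ 2) = fun σ =>
      ∑ e, ∑ e', (g e * g e') * (cur s t J b c e σ * cur s t J b c e' σ) := by
    funext σ
    rw [sq, Finset.sum_mul_sum]
    refine Finset.sum_congr rfl fun e _ => Finset.sum_congr rfl fun e' _ => by ring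
  rw [this, Ex_sum _ _ _ _ _ fun e => by fun_prop]
  refine Finset.sum_congr rfl fun e _ => ?_
  rw [Ex_sum _ _ _ _ _ fun e => by fun_prop]
  refine Finset.sum_congr rfl fun e' _ => ?_
  rw [Ex_const_mul, Gam, mul_comm]

theorem F2_zero : F2 s t J h π g 0 = (qf (Gam s t J h (π 0) (π 1)) g -
    ∑ e, (uu s t J h (π 0) e + uu s t J h (π 1) e) * g e ^ 2) * Zf s t J h := by
  have h1 : ∑ e, (uu s t J h (π 0) e + uu s t J h (π 1) e) * g e ^ 2 =
      Ex s t J h fun σ => ∑ e, g e ^ 2 * (J e * (crd σ (s e) (π 0) * crd σ (t e) (π 0)) +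
        J e * (crd σ (s e) (π 1) * crd σ (t e) (π 1))) := by
    rw [Ex_sum _ _ _ _ _ fun e => by fun_prop]
    refine Finset.sum_congr rfl fun e _ => ?_
    rw [Ex_const_mul, Ex_add _ _ _ _ (by fun_prop) (by fun_prop), mul_comm]
    rfl
  rw [h1, qf_gam, ← Ex_sub _ _ _ _ (by fun_prop) (by fun_prop), Ex,
    div_mul_cancel₀ _ (Zf_pos s t J h).ne', wI, F2]
  refine integral_congr_ae (Eventually.of_forall fun σ => ?_)
  have e1 : H1 s t J π g 0 σ = ∑ e, g e * cur s t J (π 0) (π 1) e σ := by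
    unfold H1 QQ cur
    refine Finset.sum_congr rfl fun e _ => ?_
    simp only [zero_mul, Real.sin_zero, Real.cos_zero]
    ring
  have e2 : H2 s t J π g 0 σ = -∑ e, g e ^ 2 * (J e * (crd σ (s e) (π 0) * crd σ (t e) (π 0)) +
        J e * (crd σ (s e) (π 1) * crd σ (t e) (π 1))) := by
    unfold H2 PP
    rw [← Finset.sum_neg_distrib]
    refine Finset.sum_congr rfl fun e _ => ?_
    simp only [zero_mul, Real.sin_zero, Real.cos_zero]
    ring
  simp only [H0_zero, e1, e2]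
  ring

/-- The twisted energy in cylindrical coordinates. -/
theorem H0_par (hπ : π 0 = 2 ∨ π 2 = 2) (hh : ∀ v, 0 ≤ h v) (b : ι → unitInterval) (z : Isg ι) :
    ∃ (W : ℝ) (A : ι → ℝ), (∀ v, 0 ≤ A v) ∧ ∀ (a : ℝ) (θ : Ang ι),
      H0 s t J h π g a (fun v => par π (b v) (z v) (θ v)) = W +
        (∑ e, (J e * (rad (b (s e)) * rad (b (t e)))) *
          (θ (s e) - θ (t e) + ((a * g e : ℝ) : Real.Angle)).cos + ∑ v, A v * (θ v).cos) := by
  have key : ∀ (a : ℝ) (θ : Ang ι),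
      ∑ e, J e * (Real.cos (a * g e) * PP s t π e (fun v => par π (b v) (z v) (θ v)) +
        Real.sin (a * g e) * QQ s t π e (fun v => par π (b v) (z v) (θ v)) +
        crd (fun v => par π (b v) (z v) (θ v)) (s e) (π 2) *
          crd (fun v => par π (b v) (z v) (θ v)) (t e) (π 2)) =
      ∑ e, J e * (sgn (z (s e)) * b (s e) * (sgn (z (t e)) * b (t e))) +
      ∑ e, (J e * (rad (b (s e)) * rad (b (t e)))) *
          (θ (s e) - θ (t e) + ((a * g e : ℝ) : Real.Angle)).cos := by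
    intro a θ
    rw [← Finset.sum_add_distrib]
    refine Finset.sum_congr rfl fun e _ => ?_
    simp only [PP, QQ, crd, par_0, par_1, par_2, sub_eq_add_neg (θ (s e)), Real.Angle.cos_add,
      Real.Angle.sin_add, Real.Angle.cos_neg, Real.Angle.sin_neg, Real.Angle.cos_coe,
      Real.Angle.sin_coe]
    ring
  rcases hπ with hπ | hπ
  · refine ⟨∑ e, J e * (sgn (z (s e)) * b (s e) * (sgn (z (t e)) * b (t e))),
      fun v => h v * rad (b v), fun v => mul_nonneg (hh v) (rad_nonneg _), fun a θ => ?_⟩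
    rw [H0, key, add_assoc]
    congr 2
    refine Finset.sum_congr rfl fun v _ => ?_
    rw [← hπ, crd, par_0, mul_assoc]
  · refine ⟨∑ e, J e * (sgn (z (s e)) * b (s e) * (sgn (z (t e)) * b (t e))) +
      ∑ v, h v * (sgn (z v) * b v), fun _ => 0, fun _ => le_rfl, fun a θ => ?_⟩
    rw [H0, key]
    have : ∑ v, h v * crd (fun v => par π (b v) (z v) (θ v)) v 2 =
        ∑ v, h v * (sgn (z v) * b v) := by
      refine Finset.sum_congr rfl fun v _ => ?_
      conv_lhs => rw [← hπ]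
      rw [crd, par_2]
    rw [this]
    simp only [zero_mul, Finset.sum_const_zero]
    ring

/-- Linear inequalities for the rotor partition functions pass to the `O(3)` model. -/
theorem transfer (hπ : π 0 = 2 ∨ π 2 = 2) (hJ : ∀ e, 0 ≤ J e) (hh : ∀ v, 0 ≤ h v) {κ : Type}
    [Fintype κ] (c a : κ → ℝ)
    (H : ∀ (K : ε → ℝ) (A : ι → ℝ), (∀ e, 0 ≤ K e) → (∀ v, 0 ≤ A v) →
      0 ≤ ∑ i, c i * Ztw s t K A g (a i)) :
    0 ≤ ∑ i, c i * F0 s t J h π g (a i) := by
  obtain ⟨ν, hν, hrep⟩ := exists_rep π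
  have h1 : ∑ i, c i * F0 s t J h π g (a i) =
      ∫ σ, ∑ i, c i * Real.exp (H0 s t J h π g (a i) σ) ∂ref ι := by
    rw [integral_finsetSum _ fun i _ => cint (by fun_prop)]
    refine Finset.sum_congr rfl fun i _ => ?_
    rw [integral_const_mul, F0]
  rw [h1, hrep ι _ (by fun_prop)]
  refine integral_nonneg fun b => integral_nonneg fun z => ?_
  obtain ⟨W, A, hA, hW⟩ := H0_par s t J h π g hπ hh b z
  have h2 := H (fun e => J e * (rad (b (s e)) * rad (b (t e)))) A
    (fun e => mul_nonneg (hJ e) (mul_nonneg (rad_nonneg _) (rad_nonneg _))) hA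
  simp only [hW, Real.exp_add W]
  rw [integral_finsetSum _ fun i _ => cint (by fun_prop)]
  refine le_of_le_of_eq (mul_nonneg (Real.exp_pos W).le h2) ?_
  rw [Finset.mul_sum]
  refine Finset.sum_congr rfl fun i _ => ?_
  rw [integral_const_mul, integral_const_mul, Ztw]
  ring

theorem F0_pd (hπ : π 0 = 2 ∨ π 2 = 2) (hJ : ∀ e, 0 ≤ J e) (hh : ∀ v, 0 ≤ h v) (a : ℝ) :
    0 ≤ 2 * F0 s t J h π g 0 - F0 s t J h π g a - F0 s t J h π g (-a) := by
  have := transfer s t J h π g hπ hJ hh ![2, -1, -1] ![0, a, -a] fun K A hK hA => by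
    have := (xy_pd s t hK hA g a).1
    simp only [Fin.sum_univ_three, Matrix.cons_val]
    linarith
  simp only [Fin.sum_univ_three, Matrix.cons_val] at this
  linarith

theorem F0_pd' (hπ : π 0 = 2 ∨ π 2 = 2) (hJ : ∀ e, 0 ≤ J e) (hh : ∀ v, 0 ≤ h v) (a : ℝ) :
    2 * F0 s t J h π g 0 - F0 s t J h π g (2 * a) - F0 s t J h π g (-(2 * a)) ≤
      4 * (2 * F0 s t J h π g 0 - F0 s t J h π g a - F0 s t J h π g (-a)) := by
  have := transfer s t J h π g hπ hJ hh ![6, -4, -4, 1, 1] ![0, a, -a, 2 * a, -(2 * a)]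
    fun K A hK hA => by
      have := (xy_pd s t hK hA g a).2
      simp only [Fin.sum_univ_five, Matrix.cons_val]
      linarith
  simp only [Fin.sum_univ_five, Matrix.cons_val] at this
  linarith

theorem pd_perm (hπ : π 0 = 2 ∨ π 2 = 2) (hJ : ∀ e, 0 ≤ J e) (hh : ∀ v, 0 ≤ h v) :
    qf (Gam s t J h (π 0) (π 1)) g ≤ ∑ e, (uu s t J h (π 0) e + uu s t J h (π 1) e) * g e ^ 2 := by
  have := second_nonpos (hasDerivAt_F0 s t J h π g) (hasDerivAt_F1 s t J h π g 0)
    (F0_pd s t J h π g hπ hJ hh)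
  rw [F2_zero, ← neg_mul] at this
  have := nonneg_of_mul_nonneg_left this (Zf_pos s t J h)
  linarith

theorem gam_swap (b c : Fin 3) : Gam s t J h b c = Gam s t J h c b := by
  funext e e'
  unfold Gam cur
  congr 1
  funext σ
  ring

/-- Undoing a gradient twist by a rotation of the spins. -/
theorem F0_grad (hπ : π 0 = 2) (φ : ι → ℝ) (a : ℝ) (h' : ι → ℝ)
    (hc : ∀ v, h v * Real.cos (a * φ v) = h' v) (hs : ∀ v, h v * Real.sin (a * φ v) = 0) :
    F0 s t J h π (fun e => φ (t e) - φ (s e)) a = Zf s t J h' := by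
  rw [F0, ← integral_rot π (fun _ => 0) (fun v => ((a * φ v : ℝ) : Real.Angle)) (by fun_prop), Zf]
  refine integral_congr_ae (Eventually.of_forall fun σ => ?_)
  simp only [H0, ham]
  congr 2
  · refine Finset.sum_congr rfl fun e _ => ?_
    rw [sum_perm π]
    simp only [PP, QQ, crd, rot_0, rot_1, rot_2, Real.Angle.cos_coe, Real.Angle.sin_coe, mul_sub,
      Real.cos_sub, Real.sin_sub, sgn_zero]
    have h1 := Real.cos_sq_add_sin_sq (a * φ (s e))
    have h2 := Real.cos_sq_add_sin_sq (a * φ (t e))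
    congr 1
    generalize Real.cos (a * φ (s e)) = cs at *
    generalize Real.sin (a * φ (s e)) = ss at *
    generalize Real.cos (a * φ (t e)) = ct at *
    generalize Real.sin (a * φ (t e)) = st at *
    generalize (σ (s e) : Euc 3) (π 0) = x0
    generalize (σ (s e) : Euc 3) (π 1) = x1
    generalize (σ (t e) : Euc 3) (π 0) = y0
    generalize (σ (t e) : Euc 3) (π 1) = y1
    linear_combination (x0 * y0 + x1 * y1) * (ct ^ 2 + st ^ 2) * h1 + (x0 * y0 + x1 * y1) * h2
  · refine Finset.sum_congr rfl fun v _ => ?_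
    rw [← hπ]
    simp only [crd, rot_0, Real.Angle.cos_coe, Real.Angle.sin_coe]
    linear_combination (σ v : Euc 3) (π 0) * hc v - (σ v : Euc 3) (π 1) * hs v

end TwistAux

open TwistAux

variable {ι ε : Type} [Fintype ι] [Fintype ε] (s t : ε → ι) (J : ε → ℝ)

theorem pd_gam {h : ι → ℝ} {b c : Fin 3} (hbc : b ≠ c) (hJ : ∀ e, 0 ≤ J e) (hh : ∀ v, 0 ≤ h v)
    (g : ε → ℝ) :
    qf (Gam s t J h b c) g ≤ ∑ e, (uu s t J h b e + uu s t J h c e) * g e ^ 2 := by
  have key : ∀ b c : Fin 3, b ≠ c → c ≠ 2 →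
      qf (Gam s t J h b c) g ≤ ∑ e, (uu s t J h b e + uu s t J h c e) * g e ^ 2 := by
    intro b c hbc hc
    obtain ⟨π, rfl, rfl⟩ := exists_perm' hbc
    refine pd_perm s t J h π g ?_ hJ hh
    obtain ⟨j, hj⟩ := π.surjective 2
    fin_cases j
    · exact Or.inl hj
    · exact absurd hj hc
    · exact Or.inr hj
  by_cases hc : c = 2
  · rw [gam_swap]
    simp only [add_comm (uu s t J h b _)]
    exact key c b hbc.symm (fun hb => hbc (hb.trans hc.symm))
  · exact key b c hbc hc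

theorem twist {h₁ h₂ : ι → ℝ} (hJ : ∀ e, 0 ≤ J e) (hh₁ : ∀ v, 0 ≤ h₁ v) (hh₂ : ∀ v, 0 ≤ h₂ v)
    (φ : ι → ℝ) (hφ₁ : ∀ v, h₁ v ≠ 0 → φ v = 1) (hφ₂ : ∀ v, h₂ v ≠ 0 → φ v = 0) :
    Zf s t J (h₁ + h₂) - Zf s t J (h₁ - h₂) ≤
      Real.pi ^ 2 / 2 * (∑ e, (uu s t J (h₁ + h₂) 2 e + uu s t J (h₁ + h₂) 0 e) *
          (φ (t e) - φ (s e)) ^ 2 -
        qf (Gam s t J (h₁ + h₂) 2 0) fun e => φ (t e) - φ (s e)) * Zf s t J (h₁ + h₂) := by
  obtain ⟨π, hπ0, hπ1⟩ := exists_perm' (show (2 : Fin 3) ≠ 0 by decide)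
  have hh : ∀ v, 0 ≤ (h₁ + h₂) v := fun v => add_nonneg (hh₁ v) (hh₂ v)
  have hb := second_bound (hasDerivAt_F0 s t J (h₁ + h₂) π fun e => φ (t e) - φ (s e))
    (hasDerivAt_F1 s t J (h₁ + h₂) π _ 0) (F0_pd' s t J (h₁ + h₂) π _ (Or.inl hπ0) hJ hh)
    Real.pi_pos
  have hF : ∀ a : ℝ, Real.cos a = -1 → Real.sin a = 0 →
      F0 s t J (h₁ + h₂) π (fun e => φ (t e) - φ (s e)) a = Zf s t J (h₁ - h₂) := by
    intro a hca hsa
    rw [← Zf_neg s t J (h₁ - h₂)]
    refine F0_grad s t J _ π hπ0 φ a _ (fun v => ?_) (fun v => ?_)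
    · by_cases h1 : h₁ v = 0
      · by_cases h2 : h₂ v = 0
        · simp [h1, h2]
        · simp [h1, hφ₂ v h2]
      · have h2 : h₂ v = 0 := by
          by_contra h2
          have := (hφ₁ v h1).symm.trans (hφ₂ v h2)
          norm_num at this
        simp [h2, hφ₁ v h1, hca]
    · by_cases h1 : h₁ v = 0
      · by_cases h2 : h₂ v = 0
        · simp [h1, h2]
        · simp [hφ₂ v h2]
      · simp [hφ₁ v h1, hsa]
  rw [hF _ Real.cos_pi Real.sin_pi, hF (-Real.pi) (by simp) (by simp), F0_zero, F2_zero, hπ0,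
    hπ1] at hb
  linarith

end Crest.Agent.R167
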