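import Crest.Agent.R167.Sphere

/-!
Row 167: local Ward identities.
-/

set_option autoImplicit false
open MeasureTheory MvPolynomial

namespace Crest.Agent.R167

/-! ### An abstract second-order integration by parts -/

section Abstract
variable {A M : Type} [CommRing A] [Algebra ℝ A] [Fintype M] (E : A →ₗ[ℝ] ℝ)
  (D : M → Derivation ℝ A A) (w Φ : M → A)

theorem div_mul (hD : ∀ m f, E (D m f) = E (f * w m)) (F : A) :
    E ((∑ m, (Φ m * w m - D m (Φ m))) * F) = ∑ m, E (Φ m * D m F) := by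
  rw [Finset.sum_mul, map_sum]
  refine Finset.sum_congr rfl fun m _ => ?_
  have h := hD m (Φ m * F)
  rw [Derivation.leibniz, smul_eq_mul, smul_eq_mul, map_add] at h
  rw [sub_mul, map_sub, show Φ m * w m * F = Φ m * F * w m by ring, ← h, mul_comm (D m (Φ m)) F]
  ring

theorem div_sq (hD : ∀ m f, E (D m f) = E (f * w m)) (hc : ∀ m l f, D m (D l f) = D l (D m f)) :
    E ((∑ m, (Φ m * w m - D m (Φ m))) * ∑ m, (Φ m * w m - D m (Φ m))) =
      E (∑ m, ∑ l, Φ m * Φ l * D m (w l)) + E (∑ m, ∑ l, D l (Φ m) * D m (Φ l)) := by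
  rw [div_mul E D w Φ hD]
  simp only [map_sum, ← Finset.sum_add_distrib, Finset.mul_sum]
  refine Finset.sum_congr rfl fun m _ => Finset.sum_congr rfl fun l _ => ?_
  have h := hD l (Φ m * D m (Φ l))
  rw [Derivation.leibniz, smul_eq_mul, smul_eq_mul, map_add, ← hc m l] at h
  rw [map_sub, Derivation.leibniz, smul_eq_mul, smul_eq_mul, mul_sub, mul_add, map_sub, map_add,
    show Φ m * (w l * D m (Φ l)) = Φ m * D m (Φ l) * w l by ring, ← h,
    mul_comm (D m (Φ l)) (D l (Φ m)), mul_assoc]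
  ring

end Abstract

/-! ### Polynomial observables and local rotations -/

variable {ι ε : Type}

/-- Polynomials in the spin coordinates. -/
abbrev Pol (ι : Type) : Type := MvPolynomial (ι × Fin 3) ℝ

/-- Evaluation at a configuration. -/
noncomputable def ev (σ : Cfg ι) : Pol ι →ₐ[ℝ] ℝ := aeval fun p => crd σ p.1 p.2

@[simp] theorem ev_X (σ : Cfg ι) (v : ι) (k : Fin 3) : ev σ (X (v, k)) = crd σ v k := by simp [ev]
@[simp] theorem ev_C (σ : Cfg ι) (r : ℝ) : ev σ (C r) = r := by simp [ev]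

@[fun_prop] theorem continuous_ev {Y : Type} [TopologicalSpace Y] {σ : Y → Cfg ι}
    (hσ : Continuous σ) (f : Pol ι) : Continuous fun y => ev (σ y) f := by
  induction f using MvPolynomial.induction_on with
  | C r => simpa using continuous_const
  | add f g hf hg => simp only [map_add]; exact hf.add hg
  | mul_X f p hf =>
    obtain ⟨v, k⟩ := p
    simp only [map_mul, ev_X]
    exact hf.mul (continuous_crd hσ v k)

/-- The infinitesimal rotation in the plane `p, q` with angle `φ v` at `v`. -/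
noncomputable def Dr (p q : Fin 3) (φ : ι → ℝ) : Derivation ℝ (Pol ι) (Pol ι) :=
  mkDerivation ℝ fun w => if w.2 = p then -(C (φ w.1) * X (w.1, q))
    else if w.2 = q then C (φ w.1) * X (w.1, p) else 0

theorem Dr_p (p q : Fin 3) (φ : ι → ℝ) (v : ι) : Dr p q φ (X (v, p)) = -(C (φ v) * X (v, q)) := by
  simp [Dr]

theorem Dr_q {p q : Fin 3} (h : p ≠ q) (φ : ι → ℝ) (v : ι) :
    Dr p q φ (X (v, q)) = C (φ v) * X (v, p) := by
  simp [Dr, h.symm]

theorem Dr_o {p q k : Fin 3} (hp : p ≠ k) (hq : q ≠ k) (φ : ι → ℝ) (v : ι) :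
    Dr p q φ (X (v, k)) = 0 := by
  simp [Dr, hp.symm, hq.symm]

theorem Dr_C (p q : Fin 3) (φ : ι → ℝ) (r : ℝ) : Dr p q φ (C r) = 0 := derivation_C _ _

theorem Dr_mul (p q : Fin 3) (φ : ι → ℝ) (f g : Pol ι) :
    Dr p q φ (f * g) = f * Dr p q φ g + g * Dr p q φ f := by
  rw [Derivation.leibniz, smul_eq_mul, smul_eq_mul]

theorem Dr_comm {p q : Fin 3} (h : p ≠ q) (φ ψ : ι → ℝ) (f : Pol ι) :
    Dr p q φ (Dr p q ψ f) = Dr p q ψ (Dr p q φ f) := by
  induction f using MvPolynomial.induction_on with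
  | C r => simp only [Dr_C, map_zero]
  | add f g hf hg => simp only [map_add, hf, hg]
  | mul_X f w hf =>
    obtain ⟨v, k⟩ := w
    have : Dr p q φ (Dr p q ψ (X (v, k))) = Dr p q ψ (Dr p q φ (X (v, k))) := by
      by_cases hp : p = k
      · subst hp
        simp only [Dr_p, map_neg, Dr_mul, Dr_C, Dr_q h]; ring
      · by_cases hq : q = k
        · subst hq
          simp only [Dr_p, Dr_mul, Dr_C, Dr_q h]; ring
        · simp [Dr_o hp hq]
    simp only [Dr_mul, map_add, hf, this]
    ring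

/-- The flow of `Dr`. -/
noncomputable def flow (π : Equiv.Perm (Fin 3)) (φ : ι → ℝ) (τ : ℝ) (σ : Cfg ι) : Cfg ι :=
  fun v => rot π 0 ((φ v * τ : ℝ) : Real.Angle) (σ v)

theorem flow_zero (π : Equiv.Perm (Fin 3)) (φ : ι → ℝ) (σ : Cfg ι) : flow π φ 0 σ = σ := by
  funext v
  apply Subtype.ext
  apply euc3_ext π <;> simp [flow]

theorem continuous_flow (π : Equiv.Perm (Fin 3)) (φ : ι → ℝ) :
    Continuous fun p : ℝ × Cfg ι => flow π φ p.1 p.2 := by
  unfold flow; fun_prop

theorem hasDerivAt_flow (π : Equiv.Perm (Fin 3)) (φ : ι → ℝ) (σ : Cfg ι) (f : Pol ι) (τ : ℝ) :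
    HasDerivAt (fun τ => ev (flow π φ τ σ) f) (ev (flow π φ τ σ) (Dr (π 0) (π 1) φ f)) τ := by
  have h01 : π 0 ≠ π 1 := π.injective.ne (by decide)
  induction f using MvPolynomial.induction_on with
  | C r => simpa [Dr_C] using hasDerivAt_const τ r
  | add f g hf hg => simp only [map_add]; exact hf.add hg
  | mul_X f w hf =>
    obtain ⟨v, k⟩ := w
    have hc : HasDerivAt (fun τ => Real.cos (φ v * τ)) (-Real.sin (φ v * τ) * φ v) τ := by
      simpa using ((hasDerivAt_id τ).const_mul (φ v)).cos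
    have hs : HasDerivAt (fun τ => Real.sin (φ v * τ)) (Real.cos (φ v * τ) * φ v) τ := by
      simpa using ((hasDerivAt_id τ).const_mul (φ v)).sin
    have hX : HasDerivAt (fun τ => crd (flow π φ τ σ) v k)
        (ev (flow π φ τ σ) (Dr (π 0) (π 1) φ (X (v, k)))) τ := by
      obtain ⟨j, rfl⟩ := π.surjective k
      fin_cases j
      · simp only [Fin.zero_eta, Dr_p, map_neg, map_mul, ev_C, ev_X, crd, flow, rot_0, rot_1,
          Real.Angle.cos_coe, Real.Angle.sin_coe]
        exact ((hc.mul_const _).sub (hs.mul_const _)).congr_deriv (by ring)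
      · simp only [Fin.mk_one, Dr_q h01, map_mul, ev_C, ev_X, crd, flow, rot_0, rot_1,
          Real.Angle.cos_coe, Real.Angle.sin_coe]
        exact ((hs.mul_const _).add (hc.mul_const _)).congr_deriv (by ring)
      · have h02 : π 0 ≠ π 2 := π.injective.ne (by decide)
        have h12 : π 1 ≠ π 2 := π.injective.ne (by decide)
        simp only [Fin.reduceFinMk, Dr_o h02 h12, map_zero, crd, flow, rot_2]
        exact hasDerivAt_const _ _
    simp only [map_mul, ev_X, Dr_mul, map_add]
    exact (hf.mul hX).congr_deriv (by ring)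

variable [Fintype ι] [Fintype ε] (s t : ε → ι) (J : ε → ℝ) (h : ι → ℝ)

/-- The energy as a polynomial. -/
noncomputable def hamP : Pol ι :=
  ∑ e, C (J e) * ∑ k, X (s e, k) * X (t e, k) + ∑ v, C (h v) * X (v, 2)

theorem ev_hamP (σ : Cfg ι) : ev σ (hamP s t J h) = ham s t J h σ := by
  simp [hamP, ham, map_sum]

/-- The current as a polynomial. -/
noncomputable def curP (b c : Fin 3) (e : ε) : Pol ι :=
  C (J e) * (X (s e, b) * X (t e, c) - X (s e, c) * X (t e, b))

/-- The symmetric off-diagonal edge term. -/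
noncomputable def symP (b c : Fin 3) (e : ε) : Pol ι :=
  C (J e / 2) * (X (s e, b) * X (t e, c) + X (s e, c) * X (t e, b))

/-- The edge energy of one coordinate. -/
noncomputable def enP (a : Fin 3) (e : ε) : Pol ι := C (J e) * (X (s e, a) * X (t e, a))

/-- The divergence of the current, tested with `φ`. -/
noncomputable def WP (p q : Fin 3) (φ : ι → ℝ) : Pol ι :=
  ∑ e, C (φ (t e) - φ (s e)) * curP s t J p q e

omit [Fintype ι] [Fintype ε] in
theorem ev_curP (σ : Cfg ι) (b c : Fin 3) (e : ε) : ev σ (curP s t J b c e) = cur s t J b c e σ := by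
  simp [curP, cur]

theorem Dr_hamP {p q : Fin 3} (hpq : p ≠ q) {φ : ι → ℝ} (hφ : ∀ v, φ v ≠ 0 → h v = 0) :
    Dr p q φ (hamP s t J h) = -WP s t J p q φ := by
  obtain ⟨π, rfl, rfl⟩ := exists_perm' hpq
  have h02 : π 0 ≠ π 2 := π.injective.ne (by decide)
  have h12 : π 1 ≠ π 2 := π.injective.ne (by decide)
  have h2 : ∀ v, Dr (π 0) (π 1) φ (C (h v) * X (v, 2)) = 0 := by
    intro v
    by_cases hv : φ v = 0
    · simp [Dr, hv]
    · simp [hφ v hv]
  rw [hamP, map_add, map_sum, map_sum, Finset.sum_eq_zero fun v _ => h2 v, add_zero, WP,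
    ← Finset.sum_neg_distrib]
  refine Finset.sum_congr rfl fun e _ => ?_
  rw [← Equiv.sum_comp π, Fin.sum_univ_three]
  simp only [Dr_mul, map_add, Dr_C, Dr_p, Dr_q hpq, Dr_o h02 h12, curP, map_sub]
  ring

/-- The Gibbs state on polynomials. -/
noncomputable def EE : Pol ι →ₗ[ℝ] ℝ where
  toFun f := Ex s t J h fun σ => ev σ f
  map_add' f g := by
    simp only [map_add]
    exact Ex_add s t J h (by fun_prop) (by fun_prop)
  map_smul' r f := by
    simp only [map_smul, smul_eq_mul, RingHom.id_apply]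
    exact Ex_const_mul s t J h r _

theorem EE_apply (f : Pol ι) : EE s t J h f = Ex s t J h fun σ => ev σ f := rfl

theorem EE_C_mul (r : ℝ) (f : Pol ι) : EE s t J h (C r * f) = r * EE s t J h f := by
  rw [← smul_eq_C_mul, map_smul, smul_eq_mul]

theorem EE_mono {f g : Pol ι} (hfg : ∀ σ, ev σ f ≤ ev σ g) : EE s t J h f ≤ EE s t J h g :=
  Ex_mono s t J h (by fun_prop) (by fun_prop) hfg

theorem EE_C (r : ℝ) : EE s t J h (C r) = r := by
  simp only [EE_apply, ev_C, Ex_const]

/-- Integration by parts. -/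
theorem ibp {p q : Fin 3} (hpq : p ≠ q) {φ : ι → ℝ} (hφ : ∀ v, φ v ≠ 0 → h v = 0) (f : Pol ι) :
    EE s t J h (Dr p q φ f) = EE s t J h (f * WP s t J p q φ) := by
  have hH := Dr_hamP s t J h hpq hφ
  obtain ⟨π, rfl, rfl⟩ := exists_perm' hpq
  have hfl := continuous_flow π φ
  have hd := hasDerivAt_cint (μ := ref ι)
    (G := fun τ σ => ev (flow π φ τ σ) f * Real.exp (ev (flow π φ τ σ) (hamP s t J h)))
    (G' := fun τ σ => (ev (flow π φ τ σ) (Dr (π 0) (π 1) φ f - f * WP s t J (π 0) (π 1) φ)) *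
      Real.exp (ev (flow π φ τ σ) (hamP s t J h)))
    (fun τ => by
      have : Continuous fun σ => flow π φ τ σ := by unfold flow; fun_prop
      exact (continuous_ev this f).mul (continuous_ev this _).rexp)
    ((continuous_ev hfl _).mul (continuous_ev hfl _).rexp)
    (fun τ σ => by
      refine ((hasDerivAt_flow π φ σ f τ).mul
        (hasDerivAt_flow π φ σ (hamP s t J h) τ).exp).congr_deriv ?_
      simp only [hH, map_sub, map_mul, map_neg]
      ring) 0
  have hc : (fun τ => ∫ σ, ev (flow π φ τ σ) f * Real.exp (ev (flow π φ τ σ) (hamP s t J h)) ∂ref ι)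
      = fun _ => ∫ σ, ev σ f * Real.exp (ev σ (hamP s t J h)) ∂ref ι := by
    funext τ
    exact integral_rot π (fun _ => 0) (fun v => ((φ v * τ : ℝ) : Real.Angle))
      (F := fun σ => ev σ f * Real.exp (ev σ (hamP s t J h))) (by fun_prop)
  rw [hc] at hd
  have h0 := hd.unique (hasDerivAt_const _ _)
  simp only [flow_zero, ev_hamP] at h0
  rw [← sub_eq_zero, ← map_sub, EE_apply, Ex, wI, h0, zero_div]

section Formulas
variable {a b c : Fin 3}
omit [Fintype ι]

theorem Dr_WP_self (hab : a ≠ b) (φ ψ : ι → ℝ) : Dr a b φ (WP s t J a b ψ) =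
    ∑ e, C ((φ (t e) - φ (s e)) * (ψ (t e) - ψ (s e))) * (enP s t J a e + enP s t J b e) := by
  rw [WP, map_sum]
  refine Finset.sum_congr rfl fun e _ => ?_
  simp only [curP, enP, Dr_mul, map_sub, Dr_C, Dr_p, Dr_q hab, map_mul]
  ring

theorem Dr_WP_other (hac : a ≠ c) (hbc : b ≠ c) (φ ψ : ι → ℝ) : Dr a b φ (WP s t J a c ψ) =
    ∑ e, C (ψ (t e) - ψ (s e)) * (-(C ((φ (s e) + φ (t e)) / 2) * curP s t J b c e) +
      C (φ (t e) - φ (s e)) * symP s t J b c e) := by
  rw [WP, map_sum]
  refine Finset.sum_congr rfl fun e _ => ?_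
  have h2 : (C (2⁻¹ : ℝ) : Pol ι) * 2 = 1 := by
    rw [show (2 : Pol ι) = C 2 from rfl, ← map_mul]; simp
  simp only [curP, symP, Dr_mul, map_sub, Dr_C, Dr_p, Dr_o hac hbc, map_mul, div_eq_mul_inv, map_add]
  linear_combination (-(C (ψ (t e)) - C (ψ (s e))) * C (J e) *
    (C (φ (t e)) * X (s e, c) * X (t e, b) - C (φ (s e)) * X (s e, b) * X (t e, c))) * h2

omit [Fintype ε] in
theorem Dr_Dr_curP (hab : a ≠ b) (hac : a ≠ c) (hbc : b ≠ c) (φ ψ : ι → ℝ) (e : ε) :
    Dr a c ψ (Dr a b φ (curP s t J b c e)) =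
      C (φ (s e) * ψ (t e) - φ (t e) * ψ (s e)) * enP s t J a e +
        C (φ (t e) * ψ (t e) - φ (s e) * ψ (s e)) * enP s t J c e := by
  simp only [curP, enP, Dr_mul, map_sub, map_add, Dr_C, Dr_p, Dr_q hab, Dr_q hac, Dr_o hac hbc,
    Dr_o hab hbc.symm, map_mul, map_zero]
  ring

end Formulas

omit [Fintype ι] [Fintype ε] in
theorem abs_en_le {β : ℝ} (hJ : ∀ e, 0 ≤ J e ∧ J e ≤ β) {a b : Fin 3} (hab : a ≠ b) (σ : Cfg ι)
    (e : ε) : ev σ (enP s t J a e + enP s t J b e) ≤ β := by
  obtain ⟨π, rfl, rfl⟩ := exists_perm' hab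
  have h1 := crd_sum_sq σ (s e)
  have h2 := crd_sum_sq σ (t e)
  rw [sum_perm π] at h1 h2
  simp only [enP, map_add, map_mul, ev_C, ev_X]
  have : crd σ (s e) (π 0) * crd σ (t e) (π 0) + crd σ (s e) (π 1) * crd σ (t e) (π 1) ≤ 1 := by
    nlinarith [sq_nonneg (crd σ (s e) (π 0) - crd σ (t e) (π 0)),
      sq_nonneg (crd σ (s e) (π 1) - crd σ (t e) (π 1)), sq_nonneg (crd σ (s e) (π 2)),
      sq_nonneg (crd σ (t e) (π 2))]
  nlinarith [hJ e]

omit [Fintype ι] [Fintype ε] in
theorem abs_sym_le {β : ℝ} (hJ : ∀ e, 0 ≤ J e ∧ J e ≤ β) (b c : Fin 3) (σ : Cfg ι) (e : ε) :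
    |ev σ (symP s t J b c e)| ≤ β := by
  simp only [symP, map_add, map_mul, ev_C, ev_X]
  have h : ∀ u v i j, |crd σ u i * crd σ v j| ≤ 1 := fun u v i j => by
    rw [abs_mul]; exact mul_le_one₀ (abs_crd_le _ _ _) (abs_nonneg _) (abs_crd_le _ _ _)
  have h1 := (abs_add_le _ _).trans (add_le_add (h (s e) (t e) b c) (h (s e) (t e) c b))
  rw [abs_mul, abs_of_nonneg (by linarith [(hJ e).1])]
  nlinarith [hJ e, abs_nonneg (crd σ (s e) b * crd σ (t e) c + crd σ (s e) c * crd σ (t e) b)]

theorem EE_WP_sq_le {β : ℝ} (hJ : ∀ e, 0 ≤ J e ∧ J e ≤ β) {a c : Fin 3} (hac : a ≠ c) {ψ : ι → ℝ}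
    (hψ : ∀ v, ψ v ≠ 0 → h v = 0) :
    EE s t J h (WP s t J a c ψ * WP s t J a c ψ) ≤ β * ∑ e, (ψ (t e) - ψ (s e)) ^ 2 := by
  rw [← ibp s t J h hac hψ, Dr_WP_self s t J hac, map_sum, Finset.mul_sum]
  refine Finset.sum_le_sum fun e _ => ?_
  rw [EE_C_mul, ← sq, mul_comm β]
  refine mul_le_mul_of_nonneg_left ?_ (sq_nonneg _)
  rw [← EE_C s t J h β]
  exact EE_mono s t J h fun σ => by rw [ev_C]; exact abs_en_le s t J hJ hac σ e

theorem ward_half {a b c : Fin 3} (hab : a ≠ b) (hac : a ≠ c) (hbc : b ≠ c) {β : ℝ}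
    (hJ : ∀ e, 0 ≤ J e ∧ J e ≤ β) (K : ι → ι → ℝ) (hK : ∀ x y, K y x = -K x y)
    (hs : ∀ x y, K x y ≠ 0 → h x = 0) :
    4 * ∑ e, uu s t J h a e * kg s t K e ^ 2 ≤
      β ^ 2 * ∑ e, ∑ e', kD s t K e e' ^ 2 +
        ∑ e, ∑ e', EE s t J h
          ((-(C (kN s t K e e') * curP s t J b c e) + C (kD s t K e e') * symP s t J b c e) *
            (-(C (kN s t K e' e) * curP s t J b c e') + C (kD s t K e' e) * symP s t J b c e')) +
        qf (Gam s t J h b c) (kg s t K) := by
  classical
  let p : ι → ι → ℝ := fun z v => if v = z ∧ h z = 0 then 1 else 0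
  have hp : ∀ z v, p z v ≠ 0 → h v = 0 := by
    intro z v hv
    by_contra hh
    refine hv (if_neg ?_)
    rintro ⟨rfl, h2⟩
    exact hh h2
  have hq : ∀ z v, K z v ≠ 0 → h v = 0 := fun z v hv =>
    hs v z (by rw [hK z v]; exact neg_ne_zero.2 hv)
  have hpK : ∀ x y, ∑ z, p z x * K z y = K x y := by
    intro x y
    rw [Finset.sum_eq_single x]
    · by_cases hx : h x = 0
      · simp [p, hx]
      · have : K x y = 0 := by by_contra hh; exact hx (hs x y hh)
        simp [this]
    · intro z _ hz; simp [p, Ne.symm hz]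
    · simp
  have hK0 : ∀ x, K x x = 0 := fun x => by have := hK x x; linarith
  set Xg : Pol ι := ∑ e, C (kg s t K e) * curP s t J b c e with hXg
  set δ : Pol ι := ∑ z, (WP s t J a c (K z) * WP s t J a b (p z) -
    Dr a b (p z) (WP s t J a c (K z))) with hδ
  have hD : ∀ z f, EE s t J h (Dr a b (p z) f) = EE s t J h (f * WP s t J a b (p z)) :=
    fun z f => ibp s t J h hab (hp z) f
  have e0 : 0 ≤ EE s t J h ((δ - Xg) * (δ - Xg)) := by
    rw [← EE_C s t J h 0]
    exact EE_mono s t J h fun σ => by rw [ev_C, map_mul]; exact mul_self_nonneg _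
  have e1 : EE s t J h (Xg * Xg) = qf (Gam s t J h b c) (kg s t K) := by
    rw [hXg, Finset.sum_mul_sum, qf, map_sum]
    refine Finset.sum_congr rfl fun e _ => ?_
    rw [map_sum]
    refine Finset.sum_congr rfl fun e' _ => ?_
    rw [show C (kg s t K e) * curP s t J b c e * (C (kg s t K e') * curP s t J b c e') =
      C (kg s t K e * kg s t K e') * (curP s t J b c e * curP s t J b c e') by
        rw [map_mul]; ring, EE_C_mul, mul_comm]
    simp only [EE_apply, map_mul, ev_curP, Gam]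
  have e2 : EE s t J h (δ * Xg) = 2 * ∑ e, uu s t J h a e * kg s t K e ^ 2 := by
    rw [hδ, div_mul (EE s t J h) (fun z => Dr a b (p z)) _ _ hD]
    have : ∀ z, EE s t J h (WP s t J a c (K z) * Dr a b (p z) Xg) =
        ∑ e, kg s t K e * ((p z (s e) * K z (t e) - p z (t e) * K z (s e)) * uu s t J h a e +
          (p z (t e) * K z (t e) - p z (s e) * K z (s e)) * uu s t J h c e) := by
      intro z
      rw [mul_comm, ← ibp s t J h hac (hq z), hXg, map_sum, map_sum, map_sum]
      refine Finset.sum_congr rfl fun e _ => ?_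
      rw [Dr_mul, Dr_C, mul_zero, add_zero, Dr_mul, Dr_C, mul_zero, add_zero, EE_C_mul,
        Dr_Dr_curP s t J hab hac hbc, map_add, EE_C_mul, EE_C_mul]
      simp only [EE_apply, enP, map_mul, ev_C, ev_X, uu]
    simp only [this]
    rw [Finset.sum_comm, Finset.mul_sum]
    refine Finset.sum_congr rfl fun e _ => ?_
    rw [← Finset.mul_sum, Finset.sum_add_distrib, ← Finset.sum_mul, ← Finset.sum_mul,
      Finset.sum_sub_distrib, Finset.sum_sub_distrib, hpK, hpK, hpK, hpK, hK0, hK0,
      hK (s e) (t e), kg]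
    ring
  have e3 := div_sq (EE s t J h) (fun z => Dr a b (p z)) (fun z => WP s t J a b (p z))
    (fun z => WP s t J a c (K z)) hD (fun m l f => Dr_comm hab _ _ f)
  have e4 : ∑ m, ∑ l, WP s t J a c (K m) * WP s t J a c (K l) * Dr a b (p m) (WP s t J a b (p l)) =
      ∑ e, (enP s t J a e + enP s t J b e) *
        (WP s t J a c (fun v => K (t e) v - K (s e) v) *
          WP s t J a c fun v => K (t e) v - K (s e) v) := by
    have : ∀ e, (WP s t J a c fun v => K (t e) v - K (s e) v) =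
        ∑ m, C (p m (t e) - p m (s e)) * WP s t J a c (K m) := by
      intro e
      simp only [WP, Finset.mul_sum, ← mul_assoc, ← map_mul]
      rw [Finset.sum_comm]
      refine Finset.sum_congr rfl fun e' _ => ?_
      rw [← Finset.sum_mul, ← map_sum]
      congr 2
      simp only [sub_mul, mul_sub, Finset.sum_sub_distrib, hpK]
    simp only [this, Finset.sum_mul_sum]
    simp only [Dr_WP_self s t J hab, Finset.mul_sum]
    rw [Finset.sum_comm (s := (Finset.univ : Finset ε))]
    refine Finset.sum_congr rfl fun m _ => ?_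
    rw [Finset.sum_comm (s := (Finset.univ : Finset ε))]
    refine Finset.sum_congr rfl fun l _ => Finset.sum_congr rfl fun e _ => ?_
    rw [map_mul]; ring
  have e5 : ∑ m, ∑ l, Dr a b (p l) (WP s t J a c (K m)) * Dr a b (p m) (WP s t J a c (K l)) =
      ∑ e, ∑ e',
        (-(C (kN s t K e e') * curP s t J b c e) + C (kD s t K e e') * symP s t J b c e) *
          (-(C (kN s t K e' e) * curP s t J b c e') + C (kD s t K e' e) * symP s t J b c e') := by
    have : ∀ e e', -(C (kN s t K e e') * curP s t J b c e) + C (kD s t K e e') * symP s t J b c e =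
        ∑ l, C (K l (t e') - K l (s e')) * (-(C ((p l (s e) + p l (t e)) / 2) * curP s t J b c e) +
          C (p l (t e) - p l (s e)) * symP s t J b c e) := by
      intro e e'
      have h1 : kN s t K e e' = ∑ l, (K l (t e') - K l (s e')) * ((p l (s e) + p l (t e)) / 2) := by
        simp only [kN, ← hpK (s e), ← hpK (t e), ← Finset.sum_sub_distrib, ← Finset.sum_add_distrib,
          Finset.sum_div]
        exact Finset.sum_congr rfl fun l _ => by ring
      have h2 : kD s t K e e' = ∑ l, (K l (t e') - K l (s e')) * (p l (t e) - p l (s e)) := by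
        simp only [kD, ← hpK (s e), ← hpK (t e), ← Finset.sum_sub_distrib]
        exact Finset.sum_congr rfl fun l _ => by ring
      rw [h1, h2, map_sum, map_sum, Finset.sum_mul, Finset.sum_mul, ← Finset.sum_neg_distrib,
        ← Finset.sum_add_distrib]
      refine Finset.sum_congr rfl fun l _ => ?_
      rw [map_mul, map_mul]; ring
    simp only [this, Dr_WP_other s t J hac hbc, Finset.sum_mul_sum]
    simp only [← Fintype.sum_prod_type']
    refine Fintype.sum_equiv ⟨fun x => (x.2.2.1, x.2.2.2, x.2.1, x.1),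
      fun y => (y.2.2.2, y.2.2.1, y.1, y.2.1), fun _ => rfl, fun _ => rfl⟩ _ _ fun x => ?_
    simp only [Equiv.coe_fn_mk]
    ring
  have e6 : EE s t J h (∑ e, (enP s t J a e + enP s t J b e) *
        (WP s t J a c (fun v => K (t e) v - K (s e) v) *
          WP s t J a c fun v => K (t e) v - K (s e) v)) ≤ β ^ 2 * ∑ e, ∑ e', kD s t K e e' ^ 2 := by
    rw [map_sum, Finset.mul_sum]
    refine Finset.sum_le_sum fun e _ => ?_
    have hβ : 0 ≤ β := (hJ e).1.trans (hJ e).2
    have h1 := EE_WP_sq_le s t J h hJ hac (ψ := fun v => K (t e) v - K (s e) v) fun v hv => by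
      by_contra hh
      refine hv ?_
      have a1 : K (t e) v = 0 := by by_contra h'; exact hh (hq _ _ h')
      have a2 : K (s e) v = 0 := by by_contra h'; exact hh (hq _ _ h')
      simp [a1, a2]
    calc _ ≤ EE s t J h (C β * (WP s t J a c (fun v => K (t e) v - K (s e) v) *
          WP s t J a c fun v => K (t e) v - K (s e) v)) := by
          refine EE_mono s t J h fun σ => ?_
          rw [map_mul, map_mul (ev σ) (C β), ev_C, map_mul]
          exact mul_le_mul_of_nonneg_right (abs_en_le s t J hJ hab σ e) (mul_self_nonneg _)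
      _ ≤ β * (β * ∑ e', ((K (t e) (t e') - K (s e) (t e')) -
          (K (t e) (s e') - K (s e) (s e'))) ^ 2) := by
          rw [EE_C_mul]; exact mul_le_mul_of_nonneg_left h1 hβ
      _ = _ := by
          rw [← mul_assoc, ← sq]
          congr 1
          exact Finset.sum_congr rfl fun e' _ => by rw [kD]; ring
  rw [← hδ, e4, e5] at e3
  rw [show (δ - Xg) * (δ - Xg) = δ * δ - (δ * Xg + δ * Xg) + Xg * Xg by ring, map_add, map_sub,
    map_add, e1, e2, e3] at e0
  simp only [map_sum] at e0 e6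
  linarith

/-- The non-abelian second-order Ward inequality. -/
theorem ward {a b c : Fin 3} (hab : a ≠ b) (hac : a ≠ c) (hbc : b ≠ c) {β : ℝ}
    (hJ : ∀ e, 0 ≤ J e ∧ J e ≤ β) (K : ι → ι → ℝ) (hK : ∀ x y, K y x = -K x y)
    (hs : ∀ x y, K x y ≠ 0 → h x = 0) :
    4 * ∑ e, uu s t J h a e * kg s t K e ^ 2 ≤
      2 * β ^ 2 * ∑ e, ∑ e', kD s t K e e' ^ 2 +
        ∑ e, ∑ e', Gam s t J h b c e e' * (kN s t K e e' * kN s t K e' e) +
        qf (Gam s t J h b c) (kg s t K) := by
  have h1 := ward_half s t J h hab hac hbc hJ K hK hs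
  have h2 := ward_half s t J h hac hab hbc.symm hJ K hK hs
  have hc : ∀ e, curP s t J c b e = -curP s t J b c e := fun e => by simp only [curP]; ring
  have hy : ∀ e, symP s t J c b e = symP s t J b c e := fun e => by simp only [symP]; ring
  have hG : Gam s t J h c b = Gam s t J h b c := by
    funext e e'
    simp only [Gam, cur]
    congr 1; funext σ; ring
  rw [hG] at h2
  simp only [hc, hy] at h2
  have h3 : ∀ e e', EE s t J h
        ((-(C (kN s t K e e') * curP s t J b c e) + C (kD s t K e e') * symP s t J b c e) *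
          (-(C (kN s t K e' e) * curP s t J b c e') + C (kD s t K e' e) * symP s t J b c e')) +
      EE s t J h
        ((-(C (kN s t K e e') * -curP s t J b c e) + C (kD s t K e e') * symP s t J b c e) *
          (-(C (kN s t K e' e) * -curP s t J b c e') + C (kD s t K e' e) * symP s t J b c e')) ≤
      2 * (Gam s t J h b c e e' * (kN s t K e e' * kN s t K e' e)) +
        2 * (β ^ 2 * kD s t K e e' ^ 2) := by
    intro e e'
    have hD : kD s t K e' e = -kD s t K e e' := by
      simp only [kD, hK (t e) (t e'), hK (t e) (s e'), hK (s e) (t e'), hK (s e) (s e')]; ring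
    have hg : Gam s t J h b c e e' = EE s t J h (curP s t J b c e * curP s t J b c e') := by
      simp only [EE_apply, map_mul, ev_curP, Gam]
    rw [← map_add, hg, mul_comm (EE s t J h _), ← EE_C_mul, ← EE_C_mul,
      ← EE_C s t J h (2 * (β ^ 2 * _)), ← map_add]
    refine EE_mono s t J h fun σ => ?_
    simp only [map_add, map_mul, map_neg, ev_C, hD]
    have a1 := abs_sym_le s t J hJ b c σ e
    have a2 := abs_sym_le s t J hJ b c σ e'
    have a3 : -(ev σ (symP s t J b c e) * ev σ (symP s t J b c e')) ≤ β ^ 2 := by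
      refine (neg_le_abs _).trans ?_
      rw [abs_mul, sq]
      exact mul_le_mul a1 a2 (abs_nonneg _) ((abs_nonneg _).trans a1)
    nlinarith [mul_le_mul_of_nonneg_left a3 (sq_nonneg (kD s t K e e'))]
  have h4 := Finset.sum_le_sum fun e (_ : e ∈ Finset.univ) =>
    Finset.sum_le_sum fun e' (_ : e' ∈ Finset.univ) => h3 e e'
  simp only [Finset.sum_add_distrib, ← Finset.mul_sum] at h4
  linarith

/-- The first-order Ward identity of Aizenman and Simon. -/
theorem ward_simon (φ : ι → ℝ) {x y : ι} (hx : φ x = 1) (hy : φ y = 0) :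
    Ex s t J 0 (fun σ => crd σ x 0 * crd σ y 0) =
      ∑ e, (φ (t e) - φ (s e)) * Ex s t J 0 fun σ => crd σ x 2 * crd σ y 0 * cur s t J 0 2 e σ := by
  have h02 : (0 : Fin 3) ≠ 2 := by decide
  have h1 := ibp s t J 0 h02 (φ := φ) (fun _ _ => rfl) (X (x, 2) * X (y, 0))
  rw [Dr_mul, Dr_p, Dr_q h02, hx, hy, WP, Finset.mul_sum, map_sum] at h1
  simp only [map_zero, zero_mul, neg_zero, mul_zero, zero_add, map_one, one_mul] at h1
  calc _ = EE s t J 0 (X (y, 0) * X (x, 0)) := by
        simp only [EE_apply, map_mul, ev_X, mul_comm]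
    _ = _ := by
        rw [h1]
        refine Finset.sum_congr rfl fun e _ => ?_
        rw [mul_left_comm, EE_C_mul]
        simp only [EE_apply, map_mul, ev_X, ev_curP]

end Crest.Agent.R167
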