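import Crest.Agent.R167.Bump
import Crest.Agent.R167.Ward
import Crest.Agent.R167.Twist

/-!
Row 167: reversing the field on one side of a large annulus costs almost nothing.
-/

set_option autoImplicit false

namespace Crest.Agent.R167

namespace AnnulusAux

variable {ι ε : Type} [Fintype ι] [Fintype ε] (s t : ε → ι) (J : ε → ℝ) (h : ι → ℝ)

/-- Sum of the current correlations over the three coordinate planes. -/
noncomputable def GamT (e e' : ε) : ℝ :=
  Gam s t J h 1 2 e e' + Gam s t J h 2 0 e e' + Gam s t J h 0 1 e e'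

/-- Twice the mean edge energy. -/
noncomputable def cT (e : ε) : ℝ := 2 * (uu s t J h 0 e + uu s t J h 1 e + uu s t J h 2 e)

theorem qf_GamT (g : ε → ℝ) : qf (GamT s t J h) g =
    qf (Gam s t J h 1 2) g + qf (Gam s t J h 2 0) g + qf (Gam s t J h 0 1) g := by
  simp only [qf, GamT, add_mul, Finset.sum_add_distrib]

theorem sum_cT (g : ε → ℝ) : ∑ e, cT s t J h e * g e ^ 2 =
    ∑ e, (uu s t J h 1 e + uu s t J h 2 e) * g e ^ 2 +
    ∑ e, (uu s t J h 2 e + uu s t J h 0 e) * g e ^ 2 +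
    ∑ e, (uu s t J h 0 e + uu s t J h 1 e) * g e ^ 2 := by
  rw [← Finset.sum_add_distrib, ← Finset.sum_add_distrib]
  refine Finset.sum_congr rfl fun e _ => ?_
  unfold cT; ring

theorem gam_symm (b c : Fin 3) (e e' : ε) : Gam s t J h b c e e' = Gam s t J h b c e' e := by
  unfold Gam
  simp only [mul_comm]

theorem qf_gam_nonneg (b c : Fin 3) (g : ε → ℝ) : 0 ≤ qf (Gam s t J h b c) g := by
  rw [TwistAux.qf_gam, ← Ex_const s t J h 0]
  exact Ex_mono _ _ _ _ (by fun_prop) (by fun_prop) fun σ => sq_nonneg _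

theorem cT_le {β : ℝ} (hJ : ∀ e, 0 ≤ J e ∧ J e ≤ β) (e : ε) : cT s t J h e ≤ 2 * β := by
  unfold cT uu
  rw [← Ex_add _ _ _ _ (by fun_prop) (by fun_prop), ← Ex_add _ _ _ _ (by fun_prop) (by fun_prop)]
  refine mul_le_mul_of_nonneg_left ?_ zero_le_two
  rw [← Ex_const s t J h β]
  refine Ex_mono _ _ _ _ (by fun_prop) (by fun_prop) fun σ => ?_
  have h1 := crd_sum_sq σ (s e)
  have h2 := crd_sum_sq σ (t e)
  rw [Fin.sum_univ_three] at h1 h2
  have h3 : crd σ (s e) 0 * crd σ (t e) 0 + crd σ (s e) 1 * crd σ (t e) 1 +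
      crd σ (s e) 2 * crd σ (t e) 2 ≤ 1 := by
    nlinarith [sq_nonneg (crd σ (s e) 0 - crd σ (t e) 0), sq_nonneg (crd σ (s e) 1 - crd σ (t e) 1),
      sq_nonneg (crd σ (s e) 2 - crd σ (t e) 2)]
  have h4 := mul_le_mul_of_nonneg_left h3 (hJ e).1
  linarith [(hJ e).2]

theorem wardData {β : ℝ} (hβ : 0 < β) (hJ : ∀ e, 0 ≤ J e ∧ J e ≤ β) (hh : ∀ v, 0 ≤ h v) :
    WardData s t (3 * β) (fun v => h v = 0) (GamT s t J h) (cT s t J h) where
  symm e e' := by
    unfold GamT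
    rw [gam_symm s t J h 1 2 e, gam_symm s t J h 2 0 e, gam_symm s t J h 0 1 e]
  nonneg g := by
    rw [qf_GamT]
    exact add_nonneg (add_nonneg (qf_gam_nonneg ..) (qf_gam_nonneg ..)) (qf_gam_nonneg ..)
  le g := by
    rw [qf_GamT, sum_cT]
    have hJ' := fun e => (hJ e).1
    exact add_le_add (add_le_add (pd_gam s t J (by decide) hJ' hh g)
      (pd_gam s t J (by decide) hJ' hh g)) (pd_gam s t J (by decide) hJ' hh g)
  bound e := (cT_le s t J h hJ e).trans (by linarith)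
  ward K hK hs := by
    have h0 := ward s t J h (a := 0) (b := 1) (c := 2) (by decide) (by decide) (by decide) hJ K hK hs
    have h1 := ward s t J h (a := 1) (b := 2) (c := 0) (by decide) (by decide) (by decide) hJ K hK hs
    have h2 := ward s t J h (a := 2) (b := 0) (c := 1) (by decide) (by decide) (by decide) hJ K hK hs
    have e1 : ∑ e, cT s t J h e * kg s t K e ^ 2 = 2 * (∑ e, uu s t J h 0 e * kg s t K e ^ 2 +
        ∑ e, uu s t J h 1 e * kg s t K e ^ 2 + ∑ e, uu s t J h 2 e * kg s t K e ^ 2) := by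
      rw [← Finset.sum_add_distrib, ← Finset.sum_add_distrib, Finset.mul_sum]
      refine Finset.sum_congr rfl fun e _ => ?_
      unfold cT; ring
    have e2 : ∑ e, ∑ e', GamT s t J h e e' * (kN s t K e e' * kN s t K e' e) =
        ∑ e, ∑ e', Gam s t J h 1 2 e e' * (kN s t K e e' * kN s t K e' e) +
        ∑ e, ∑ e', Gam s t J h 2 0 e e' * (kN s t K e e' * kN s t K e' e) +
        ∑ e, ∑ e', Gam s t J h 0 1 e e' * (kN s t K e e' * kN s t K e' e) := by
      simp only [GamT, add_mul, Finset.sum_add_distrib]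
    have e3 : 0 ≤ β ^ 2 * ∑ e, ∑ e', kD s t K e e' ^ 2 :=
      mul_nonneg (sq_nonneg _) (Finset.sum_nonneg fun _ _ =>
        Finset.sum_nonneg fun _ _ => sq_nonneg _)
    rw [e1, e2, qf_GamT]
    linarith

end AnnulusAux

open AnnulusAux in
theorem annulus {β δ : ℝ} (hβ : 0 < β) (hδ : 0 < δ) :
    ∃ L : ℕ, ∀ R : ℕ, L ≤ R → ∀ {ι ε : Type} [Fintype ι] [Fintype ε] {s t : ε → ι} (E : Emb s t)
      {J : ε → ℝ}, (∀ e, 0 ≤ J e ∧ J e ≤ β) → ∀ (x₀ : ℤ × ℤ) {h₁ h₂ : ι → ℝ}, (∀ v, 0 ≤ h₁ v) →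
        (∀ v, 0 ≤ h₂ v) → (∀ v, h₁ v ≠ 0 → sd (E.pos v) x₀ ≤ R + 1) →
        (∀ v, h₂ v ≠ 0 → 2 * (R : ℤ) - 1 ≤ sd (E.pos v) x₀) →
        Zf s t J (h₁ + h₂) - Zf s t J (h₁ - h₂) ≤ δ * Zf s t J (h₁ + h₂) := by
  have hpi : 0 < Real.pi ^ 2 / 2 := by positivity
  obtain ⟨L, hL⟩ := bump (β := 3 * β) (δ := δ / (Real.pi ^ 2 / 2)) (by positivity) (by positivity)
  refine ⟨L, fun R hR ι ε _ _ s t E J hJ x₀ h₁ h₂ hh₁ hh₂ hs₁ hs₂ => ?_⟩
  have hh : ∀ v, 0 ≤ (h₁ + h₂) v := fun v => add_nonneg (hh₁ v) (hh₂ v)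
  have hJ' := fun e => (hJ e).1
  obtain ⟨φ, hφ₁, hφ₂, hst⟩ := hL R hR E (wardData s t J (h₁ + h₂) hβ hJ hh) x₀ fun v h1 h2 => by
    have a1 : h₁ v = 0 := by
      by_contra hne
      exact absurd (hs₁ v hne) (not_le.mpr h1)
    have a2 : h₂ v = 0 := by
      by_contra hne
      exact absurd (hs₂ v hne) (not_le.mpr h2)
    simp [a1, a2]
  refine (twist s t J hJ' hh₁ hh₂ φ (fun v hv => hφ₁ v (hs₁ v hv))
    (fun v hv => hφ₂ v (hs₂ v hv))).trans ?_
  refine mul_le_mul_of_nonneg_right ?_ (Zf_pos s t J _).le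
  rw [stiff, qf_GamT, sum_cT, le_div_iff₀' hpi] at hst
  refine le_trans (mul_le_mul_of_nonneg_left ?_ hpi.le) hst
  have p1 := pd_gam s t J (b := 1) (c := 2) (by decide) hJ' hh fun e => φ (t e) - φ (s e)
  have p2 := pd_gam s t J (b := 0) (c := 1) (by decide) hJ' hh fun e => φ (t e) - φ (s e)
  linarith

end Crest.Agent.R167
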