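import Mathlib
import Crest.Prelude.Def_SpinON

/-!
Row 167 (exponential decay in the two-dimensional `O(n)` model): definitions and generic tools.
-/

set_option autoImplicit false
open MeasureTheory

namespace Crest.Agent.R167

/-! ### Integrals over compact spaces -/

section Compact
variable {Ω : Type} [TopologicalSpace Ω] [CompactSpace Ω] [MeasurableSpace Ω] [BorelSpace Ω]
  {μ : Measure Ω} [IsFiniteMeasure μ]

theorem cint {f : Ω → ℝ} (hf : Continuous f) : Integrable f μ :=
  hf.integrable_of_hasCompactSupport (HasCompactSupport.of_compactSpace f)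

theorem cint' {f : Ω → ℂ} (hf : Continuous f) : Integrable f μ :=
  hf.integrable_of_hasCompactSupport (HasCompactSupport.of_compactSpace f)

/-- Parametric integrals of jointly continuous functions are continuous. -/
theorem cont_integral {X : Type} [TopologicalSpace X] [FirstCountableTopology X]
    [LocallyCompactSpace X] [SecondCountableTopologyEither Ω ℝ] {f : X → Ω → ℝ}
    (hf : Continuous fun p : X × Ω => f p.1 p.2) : Continuous fun x => ∫ ω, f x ω ∂μ := by
  have := continuous_parametric_integral_of_continuous (μ := μ) (f := f) hf isCompact_univ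
  simpa using this

/-- Differentiation under the integral sign. -/
theorem hasDerivAt_cint {G G' : ℝ → Ω → ℝ} (hG : ∀ t, Continuous (G t))
    (hG' : Continuous fun p : ℝ × Ω => G' p.1 p.2)
    (hd : ∀ t ω, HasDerivAt (fun t => G t ω) (G' t ω) t) (t₀ : ℝ) :
    HasDerivAt (fun t => ∫ ω, G t ω ∂μ) (∫ ω, G' t₀ ω ∂μ) t₀ := by
  obtain ⟨C, hC⟩ := ((isCompact_closedBall t₀ 1).prod (isCompact_univ (X := Ω))).exists_bound_of_continuousOn
    hG'.continuousOn
  refine (hasDerivAt_integral_of_dominated_loc_of_deriv_le (bound := fun _ => C)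
    (Metric.closedBall_mem_nhds t₀ one_pos)
    (Filter.Eventually.of_forall fun t => (hG t).aestronglyMeasurable) (cint (hG t₀))
    (hG'.comp (Continuous.prodMk_right t₀)).aestronglyMeasurable
    (Filter.Eventually.of_forall fun ω t ht => hC (t, ω) ⟨ht, trivial⟩) (integrable_const C)
    (Filter.Eventually.of_forall fun ω t _ => hd t ω)).2

end Compact

/-! ### Angles and signs -/

noncomputable instance : MeasurableSpace Real.Angle := borel _
instance : BorelSpace Real.Angle := ⟨rfl⟩
instance : CompactSpace Real.Angle :=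
  haveI : Fact (0 < 2 * Real.pi) := ⟨Real.two_pi_pos⟩
  inferInstanceAs (CompactSpace (AddCircle (2 * Real.pi)))

/-- Haar probability measure of a compact group. -/
noncomputable def hm (G : Type) [AddGroup G] [TopologicalSpace G] [IsTopologicalAddGroup G]
    [CompactSpace G] [MeasurableSpace G] [BorelSpace G] : Measure G :=
  Measure.addHaarMeasure ⊤

section hm
variable (G : Type) [AddGroup G] [TopologicalSpace G] [IsTopologicalAddGroup G]
    [CompactSpace G] [MeasurableSpace G] [BorelSpace G]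

instance : (hm G).IsAddHaarMeasure := Measure.isAddHaarMeasure_addHaarMeasure _

instance : IsProbabilityMeasure (hm G) :=
  ⟨by simpa [hm] using Measure.addHaarMeasure_self (K₀ := (⊤ : TopologicalSpace.PositiveCompacts G))⟩

end hm

/-- Ising configurations. -/
abbrev Isg (ι : Type) : Type := ι → ZMod 2
/-- Plane rotor configurations. -/
abbrev Ang (ι : Type) : Type := ι → Real.Angle

/-- Uniform measure on Ising configurations. -/
noncomputable abbrev μI (ι : Type) [Fintype ι] : Measure (Isg ι) := Measure.pi fun _ => hm (ZMod 2)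
/-- Uniform measure on rotor configurations. -/
noncomputable abbrev μA (ι : Type) [Fintype ι] : Measure (Ang ι) := Measure.pi fun _ => hm Real.Angle

/-- The sign `±1`. -/
def sgn (e : ZMod 2) : ℝ := if e = 0 then 1 else -1

@[simp] theorem sgn_zero : sgn 0 = 1 := by simp [sgn]
@[simp] theorem sgn_one : sgn 1 = -1 := by simp [sgn]

theorem zmod2_cases (e : ZMod 2) : e = 0 ∨ e = 1 := by revert e; decide

theorem sgn_add (a b : ZMod 2) : sgn (a + b) = sgn a * sgn b := by
  have h : (1 : ZMod 2) + 1 = 0 := by decide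
  rcases zmod2_cases a with rfl | rfl <;> rcases zmod2_cases b with rfl | rfl <;> simp [h]

theorem sgn_mul_self (a : ZMod 2) : sgn a * sgn a = 1 := by
  rcases zmod2_cases a with rfl | rfl <;> simp

theorem sgn_sq (a : ZMod 2) : sgn a ^ 2 = 1 := by rw [sq, sgn_mul_self]

@[fun_prop] theorem continuous_sgn : Continuous sgn := continuous_of_discreteTopology

attribute [fun_prop] Real.Angle.continuous_cos Real.Angle.continuous_sin Real.Angle.continuous_coe

/-! ### Spheres -/

/-- Euclidean space. -/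
abbrev Euc (n : ℕ) : Type := EuclideanSpace ℝ (Fin n)
/-- The unit sphere. -/
abbrev Sph (n : ℕ) : Type := Metric.sphere (0 : Euc n) 1

/-- The uniform probability measure on the sphere. -/
noncomputable def unif (n : ℕ) : Measure (Sph n) :=
  ((volume : Measure (Euc n)).toSphere Set.univ)⁻¹ • (volume : Measure (Euc n)).toSphere

instance (n : ℕ) [NeZero n] : IsProbabilityMeasure (unif n) := ⟨by
  rw [unif, Measure.smul_apply, smul_eq_mul]
  exact ENNReal.inv_mul_cancel (Measure.measure_univ_ne_zero.2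
    (Measure.toSphere_ne_zero (volume : Measure (Euc n)))) (measure_ne_top _ _)⟩

theorem sph_sum_sq {n : ℕ} (v : Sph n) : ∑ k, (v : Euc n) k ^ 2 = 1 := by
  have h : ‖(v : Euc n)‖ = 1 := by simp
  have := EuclideanSpace.real_norm_sq_eq (v : Euc n)
  rw [h] at this
  linarith

theorem mem_sph {n : ℕ} {v : Euc n} (h : ∑ k, v k ^ 2 = 1) : v ∈ Metric.sphere (0 : Euc n) 1 := by
  rw [mem_sphere_zero_iff_norm, ← sq_eq_sq₀ (norm_nonneg _) zero_le_one,
    EuclideanSpace.real_norm_sq_eq, h, one_pow]

theorem sum_perm (π : Equiv.Perm (Fin 3)) (f : Fin 3 → ℝ) :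
    ∑ k, f k = f (π 0) + f (π 1) + f (π 2) := by
  rw [← Equiv.sum_comp π f, Fin.sum_univ_three]

theorem exists_perm {a b c : Fin 3} (hab : a ≠ b) (hac : a ≠ c) (hbc : b ≠ c) :
    ∃ π : Equiv.Perm (Fin 3), π 0 = a ∧ π 1 = b ∧ π 2 = c := by
  revert a b c; decide

theorem exists_perm' {a b : Fin 3} (hab : a ≠ b) :
    ∃ π : Equiv.Perm (Fin 3), π 0 = a ∧ π 1 = b := by
  revert a b; decide

/-- The vector with coordinates `x, y, z` at the places `π 0, π 1, π 2`. -/
def vec (π : Equiv.Perm (Fin 3)) (x y z : ℝ) : Euc 3 := WithLp.toLp 2 fun k => ![x, y, z] (π.symm k)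

@[simp] theorem vec_0 (π : Equiv.Perm (Fin 3)) (x y z : ℝ) : vec π x y z (π 0) = x := by simp [vec]
@[simp] theorem vec_1 (π : Equiv.Perm (Fin 3)) (x y z : ℝ) : vec π x y z (π 1) = y := by simp [vec]
@[simp] theorem vec_2 (π : Equiv.Perm (Fin 3)) (x y z : ℝ) : vec π x y z (π 2) = z := by simp [vec]

@[fun_prop] theorem continuous_vec {X : Type} [TopologicalSpace X] (π : Equiv.Perm (Fin 3))
    {x y z : X → ℝ} (hx : Continuous x) (hy : Continuous y) (hz : Continuous z) :
    Continuous fun p => vec π (x p) (y p) (z p) := by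
  unfold vec
  refine (PiLp.continuous_toLp 2 _).comp (continuous_pi fun k => ?_)
  generalize π.symm k = j
  fin_cases j <;> simpa

theorem euc3_ext (π : Equiv.Perm (Fin 3)) {v w : Euc 3} (h0 : v (π 0) = w (π 0))
    (h1 : v (π 1) = w (π 1)) (h2 : v (π 2) = w (π 2)) : v = w := by
  ext k
  obtain ⟨j, rfl⟩ := π.surjective k
  fin_cases j <;> assumption

/-- Rotation by `θ` in the plane of the coordinates `π 0, π 1`, and sign change of `π 2`. -/
noncomputable def rot (π : Equiv.Perm (Fin 3)) (e : ZMod 2) (θ : Real.Angle) (v : Sph 3) : Sph 3 :=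
  ⟨vec π (θ.cos * (v : Euc 3) (π 0) - θ.sin * (v : Euc 3) (π 1))
    (θ.sin * (v : Euc 3) (π 0) + θ.cos * (v : Euc 3) (π 1)) (sgn e * (v : Euc 3) (π 2)), mem_sph (by
      have h := sph_sum_sq v
      rw [sum_perm π] at h ⊢
      simp only [vec_0, vec_1, vec_2]
      have h1 := θ.cos_sq_add_sin_sq
      have h2 := sgn_sq e
      linear_combination h + ((v : Euc 3) (π 0) ^ 2 + (v : Euc 3) (π 1) ^ 2) * h1 +
        (v : Euc 3) (π 2) ^ 2 * h2)⟩

@[simp] theorem rot_0 (π : Equiv.Perm (Fin 3)) (e : ZMod 2) (θ : Real.Angle) (v : Sph 3) :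
    (rot π e θ v : Euc 3) (π 0) = θ.cos * (v : Euc 3) (π 0) - θ.sin * (v : Euc 3) (π 1) := vec_0 ..
@[simp] theorem rot_1 (π : Equiv.Perm (Fin 3)) (e : ZMod 2) (θ : Real.Angle) (v : Sph 3) :
    (rot π e θ v : Euc 3) (π 1) = θ.sin * (v : Euc 3) (π 0) + θ.cos * (v : Euc 3) (π 1) := vec_1 ..
@[simp] theorem rot_2 (π : Equiv.Perm (Fin 3)) (e : ZMod 2) (θ : Real.Angle) (v : Sph 3) :
    (rot π e θ v : Euc 3) (π 2) = sgn e * (v : Euc 3) (π 2) := vec_2 ..

@[fun_prop] theorem continuous_rot {X : Type} [TopologicalSpace X] (π : Equiv.Perm (Fin 3))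
    {e : X → ZMod 2} {θ : X → Real.Angle} {v : X → Sph 3} (he : Continuous e) (hθ : Continuous θ)
    (hv : Continuous v) : Continuous fun p => rot π (e p) (θ p) (v p) := by
  refine Continuous.subtype_mk ?_ _
  fun_prop

/-- The radius of the circle of latitude at height `b`. -/
noncomputable def rad (b : unitInterval) : ℝ := √(1 - (b : ℝ) ^ 2)

theorem rad_nonneg (b : unitInterval) : 0 ≤ rad b := Real.sqrt_nonneg _

theorem rad_sq (b : unitInterval) : rad b ^ 2 = 1 - (b : ℝ) ^ 2 :=
  Real.sq_sqrt (by nlinarith [b.2.1, b.2.2])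

theorem rad_anti : Antitone rad := fun a b h =>
  Real.sqrt_le_sqrt (by nlinarith [a.2.1, b.2.1, (show (a : ℝ) ≤ b from h)])

@[simp] theorem rad_one : rad 1 = 0 := by simp [rad]

@[fun_prop] theorem continuous_rad : Continuous rad := by unfold rad; fun_prop

/-- Cylindrical coordinates on the sphere. -/
noncomputable def par (π : Equiv.Perm (Fin 3)) (b : unitInterval) (e : ZMod 2) (θ : Real.Angle) :
    Sph 3 :=
  ⟨vec π (rad b * θ.cos) (rad b * θ.sin) (sgn e * b), mem_sph (by
      rw [sum_perm π]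
      simp only [vec_0, vec_1, vec_2]
      have h1 := θ.cos_sq_add_sin_sq
      have h2 := sgn_sq e
      have h3 := rad_sq b
      linear_combination rad b ^ 2 * h1 + (b : ℝ) ^ 2 * h2 + h3)⟩

@[simp] theorem par_0 (π : Equiv.Perm (Fin 3)) (b : unitInterval) (e : ZMod 2) (θ : Real.Angle) :
    (par π b e θ : Euc 3) (π 0) = rad b * θ.cos := vec_0 ..
@[simp] theorem par_1 (π : Equiv.Perm (Fin 3)) (b : unitInterval) (e : ZMod 2) (θ : Real.Angle) :
    (par π b e θ : Euc 3) (π 1) = rad b * θ.sin := vec_1 ..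
@[simp] theorem par_2 (π : Equiv.Perm (Fin 3)) (b : unitInterval) (e : ZMod 2) (θ : Real.Angle) :
    (par π b e θ : Euc 3) (π 2) = sgn e * b := vec_2 ..

@[fun_prop] theorem continuous_par {X : Type} [TopologicalSpace X] (π : Equiv.Perm (Fin 3))
    {b : X → unitInterval} {e : X → ZMod 2} {θ : X → Real.Angle} (hb : Continuous b)
    (he : Continuous e) (hθ : Continuous θ) : Continuous fun p => par π (b p) (e p) (θ p) := by
  refine Continuous.subtype_mk ?_ _
  fun_prop

/-! ### The `O(3)` model on a finite multigraph with a field along the last coordinate -/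

/-- Spin configurations. -/
abbrev Cfg (ι : Type) : Type := ι → Sph 3

/-- The a priori measure. -/
noncomputable abbrev ref (ι : Type) [Fintype ι] : Measure (Cfg ι) := Measure.pi fun _ => unif 3

/-- Coordinate `k` of the spin at `v`. -/
def crd {ι : Type} (σ : Cfg ι) (v : ι) (k : Fin 3) : ℝ := (σ v : Euc 3) k

@[fun_prop] theorem continuous_crd {X ι : Type} [TopologicalSpace X] {σ : X → Cfg ι}
    (hσ : Continuous σ) (v : ι) (k : Fin 3) : Continuous fun p => crd (σ p) v k := by
  unfold crd; fun_prop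

theorem crd_sum_sq {ι : Type} (σ : Cfg ι) (v : ι) : ∑ k, crd σ v k ^ 2 = 1 := sph_sum_sq (σ v)

theorem abs_crd_le {ι : Type} (σ : Cfg ι) (v : ι) (k : Fin 3) : |crd σ v k| ≤ 1 := by
  rw [← sq_le_one_iff_abs_le_one, ← crd_sum_sq σ v]
  exact Finset.single_le_sum (f := fun k => crd σ v k ^ 2) (fun _ _ => sq_nonneg _)
    (Finset.mem_univ k)

section Model
variable {ι ε : Type} [Fintype ι] [Fintype ε] (s t : ε → ι) (J : ε → ℝ) (h : ι → ℝ)

/-- Minus the energy. -/
def ham (σ : Cfg ι) : ℝ :=
  ∑ e, J e * ∑ k, crd σ (s e) k * crd σ (t e) k + ∑ v, h v * crd σ v 2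

@[fun_prop] theorem continuous_ham {X : Type} [TopologicalSpace X] {σ : X → Cfg ι}
    (hσ : Continuous σ) : Continuous fun p => ham s t J h (σ p) := by
  unfold ham; fun_prop

/-- Unnormalised Gibbs integral. -/
noncomputable def wI (F : Cfg ι → ℝ) : ℝ := ∫ σ, F σ * Real.exp (ham s t J h σ) ∂ref ι

/-- Partition function. -/
noncomputable def Zf : ℝ := ∫ σ, Real.exp (ham s t J h σ) ∂ref ι

/-- Gibbs expectation. -/
noncomputable def Ex (F : Cfg ι → ℝ) : ℝ := wI s t J h F / Zf s t J h

theorem Zf_pos : 0 < Zf s t J h := by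
  unfold Zf
  exact integral_exp_pos (cint (by fun_prop))

theorem wI_one : wI s t J h (fun _ => 1) = Zf s t J h := by simp [wI, Zf]

theorem wI_mono {F G : Cfg ι → ℝ} (hF : Continuous F) (hG : Continuous G) (hFG : ∀ σ, F σ ≤ G σ) :
    wI s t J h F ≤ wI s t J h G :=
  integral_mono (cint (by fun_prop)) (cint (by fun_prop)) fun σ =>
    mul_le_mul_of_nonneg_right (hFG σ) (Real.exp_pos _).le

theorem Ex_mono {F G : Cfg ι → ℝ} (hF : Continuous F) (hG : Continuous G) (hFG : ∀ σ, F σ ≤ G σ) :
    Ex s t J h F ≤ Ex s t J h G :=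
  div_le_div_of_nonneg_right (wI_mono s t J h hF hG hFG) (Zf_pos s t J h).le

theorem Ex_const (c : ℝ) : Ex s t J h (fun _ => c) = c := by
  rw [Ex, wI, integral_const_mul, div_eq_iff (Zf_pos s t J h).ne']; rfl

theorem Ex_add {F G : Cfg ι → ℝ} (hF : Continuous F) (hG : Continuous G) :
    Ex s t J h (fun σ => F σ + G σ) = Ex s t J h F + Ex s t J h G := by
  simp only [Ex, wI, add_mul]
  rw [integral_add (cint (by fun_prop)) (cint (by fun_prop)), add_div]

theorem Ex_sub {F G : Cfg ι → ℝ} (hF : Continuous F) (hG : Continuous G) :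
    Ex s t J h (fun σ => F σ - G σ) = Ex s t J h F - Ex s t J h G := by
  simp only [Ex, wI, sub_mul]
  rw [integral_sub (cint (by fun_prop)) (cint (by fun_prop)), sub_div]

theorem Ex_const_mul (c : ℝ) (F : Cfg ι → ℝ) :
    Ex s t J h (fun σ => c * F σ) = c * Ex s t J h F := by
  simp only [Ex, wI, mul_assoc]
  rw [integral_const_mul, mul_div_assoc]

theorem Ex_sum {κ : Type} (S : Finset κ) {F : κ → Cfg ι → ℝ} (hF : ∀ i, Continuous (F i)) :
    Ex s t J h (fun σ => ∑ i ∈ S, F i σ) = ∑ i ∈ S, Ex s t J h (F i) := by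
  simp only [Ex, wI, Finset.sum_mul]
  rw [integral_finsetSum _ fun i _ => cint (by have := hF i; fun_prop), Finset.sum_div]

/-- The current through the edge `e` for rotations in the plane `b, c`. -/
def cur (b c : Fin 3) (e : ε) (σ : Cfg ι) : ℝ :=
  J e * (crd σ (s e) b * crd σ (t e) c - crd σ (s e) c * crd σ (t e) b)

omit [Fintype ι] [Fintype ε] in
@[fun_prop] theorem continuous_cur {X : Type} [TopologicalSpace X] {σ : X → Cfg ι}
    (hσ : Continuous σ) (b c : Fin 3) (e : ε) : Continuous fun p => cur s t J b c e (σ p) := by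
  unfold cur; fun_prop

/-- Current-current correlations. -/
noncomputable def Gam (b c : Fin 3) (e e' : ε) : ℝ :=
  Ex s t J h fun σ => cur s t J b c e σ * cur s t J b c e' σ

/-- Mean edge energy of one coordinate. -/
noncomputable def uu (a : Fin 3) (e : ε) : ℝ :=
  Ex s t J h fun σ => J e * (crd σ (s e) a * crd σ (t e) a)

/-- The two-point function of the last coordinate. -/
noncomputable def G2 (x y : ι) : ℝ := Ex s t J 0 fun σ => crd σ x 2 * crd σ y 2

end Model

/-! ### Kernels -/

section Kernel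
variable {ι ε : Type} (s t : ε → ι)

/-- The quadratic form of a matrix. -/
def qf [Fintype ε] (Γ : ε → ε → ℝ) (g : ε → ℝ) : ℝ := ∑ e, ∑ e', Γ e e' * (g e * g e')

/-- A kernel on the edges. -/
def kg (K : ι → ι → ℝ) (e : ε) : ℝ := K (s e) (t e)

/-- Mean in the first variable, difference in the second. -/
noncomputable def kN (K : ι → ι → ℝ) (e e' : ε) : ℝ :=
  ((K (s e) (t e') - K (s e) (s e')) + (K (t e) (t e') - K (t e) (s e'))) / 2

/-- Difference in both variables. -/
def kD (K : ι → ι → ℝ) (e e' : ε) : ℝ :=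
  (K (t e) (t e') - K (t e) (s e')) - (K (s e) (t e') - K (s e) (s e'))

end Kernel

/-- A multigraph drawn on the square lattice. -/
structure Emb {ι ε : Type} (s t : ε → ι) where
  /-- position of a vertex -/
  pos : ι → ℤ × ℤ
  /-- direction of an edge -/
  dir : ε → Fin 2
  tgt : ∀ e, pos (t e) = pos (s e) + Crest.ProbabilityR.SpinModel.latticeDir (dir e)
  inj : Function.Injective fun e => (pos (s e), dir e)

/-- Sup-norm distance on the lattice. -/
def sd (x y : ℤ × ℤ) : ℤ := max |x.1 - y.1| |x.2 - y.2|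

end Crest.Agent.R167
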