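import Crest.Agent.R167.Waves

/-!
Row 167: the stiffness of the gradient of a bump function on a large annulus is small.
-/

set_option autoImplicit false
open Crest.ProbabilityR.SpinModel

namespace Crest.Agent.R167

namespace Bump

/-- A smooth bump on the plane with the sup norm. -/
theorem exists_bump {a b : ℝ} (ha : 0 < a) (hab : a < b) :
    ∃ (P : ℝ × ℝ → ℝ) (D : ℝ), 0 < D ∧ (∀ u, 0 ≤ P u ∧ P u ≤ 1) ∧ (∀ u, ‖u‖ ≤ a → P u = 1) ∧
      (∀ u, b ≤ ‖u‖ → P u = 0) ∧ (∀ u v, |P (u + v) - P u| ≤ D * ‖v‖) ∧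
      ∀ u v w, |(P (u + w + v) - P (u + w)) - (P (u + v) - P u)| ≤ D * ‖v‖ * ‖w‖ := by
  let f : ContDiffBump (0 : ℝ × ℝ) := ⟨a, b, ha, hab⟩
  have hf : ContDiff ℝ 2 f := f.contDiff
  obtain ⟨C₁, h1⟩ := hf.lipschitzWith_of_hasCompactSupport f.hasCompactSupport (by norm_num)
  obtain ⟨C₂, h2⟩ := (hf.fderiv_right (m := 1) (by norm_num)).lipschitzWith_of_hasCompactSupport
    (f.hasCompactSupport.fderiv ℝ) (by norm_num)
  have hd : Differentiable ℝ f := hf.differentiable (by norm_num)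
  refine ⟨f, C₁ + C₂ + 1, by positivity, fun u => ⟨f.nonneg, f.le_one⟩,
    fun u hu => f.one_of_mem_closedBall (mem_closedBall_zero_iff.2 hu),
    fun u hu => f.zero_of_le_dist (by rwa [dist_zero_right]), fun u v => ?_, fun u v w => ?_⟩
  · have := h1.dist_le_mul (u + v) u
    rw [Real.dist_eq, dist_self_add_left] at this
    exact this.trans (mul_le_mul_of_nonneg_right (by linarith [C₂.coe_nonneg]) (norm_nonneg _))
  · have hF : ∀ x, HasFDerivAt (fun y => f (y + v) - f y) (fderiv ℝ f (x + v) - fderiv ℝ f x) x :=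
      fun x => ((hasFDerivAt_comp_add_right v).2 (hd (x + v)).hasFDerivAt).sub (hd x).hasFDerivAt
    have := (convex_univ (𝕜 := ℝ) (E := ℝ × ℝ)).norm_image_sub_le_of_norm_hasFDerivWithin_le
      (C := C₂ * ‖v‖) (fun x _ => (hF x).hasFDerivWithinAt) (fun x _ => by
        have := h2.dist_le_mul (x + v) x
        rwa [dist_eq_norm, dist_self_add_left] at this) (Set.mem_univ u) (Set.mem_univ (u + w))
    rw [Real.norm_eq_abs, add_sub_cancel_left] at this
    exact this.trans (by gcongr; linarith [C₁.coe_nonneg])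

/-- Rescaled position. -/
noncomputable def sc (R : ℕ) (x₀ x : ℤ × ℤ) : ℝ × ℝ :=
  (((x.1 - x₀.1 : ℤ) : ℝ) / R, ((x.2 - x₀.2 : ℤ) : ℝ) / R)

/-- Rescaled step. -/
noncomputable def st (R : ℕ) (i : Fin 2) : ℝ × ℝ := sc R 0 (latticeDir i)

theorem sc_add (R : ℕ) (x₀ x : ℤ × ℤ) (i : Fin 2) :
    sc R x₀ (x + latticeDir i) = sc R x₀ x + st R i := by
  ext <;> simp [sc, st] <;> ring

theorem norm_sc (R : ℕ) (x₀ x : ℤ × ℤ) : ‖sc R x₀ x‖ = (sd x x₀ : ℝ) / R := by
  simp only [sc, sd, Prod.norm_mk, Real.norm_eq_abs, abs_div, Nat.abs_cast, Int.cast_max,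
    Int.cast_abs]
  exact max_div_div_right (Nat.cast_nonneg R) _ _

theorem norm_st (R : ℕ) (i : Fin 2) : ‖st R i‖ = 1 / R := by
  rw [st, norm_sc]
  fin_cases i <;> simp [sd, latticeDir]

section stiff
variable {ε : Type} [Fintype ε] {Γ : ε → ε → ℝ} {c : ε → ℝ}

theorem stiff_smul (r : ℝ) (u : ε → ℝ) : stiff Γ c (fun e => r * u e) = r ^ 2 * stiff Γ c u := by
  simp only [stiff, qf, mul_sub, Finset.mul_sum]
  congr 1
  · exact Finset.sum_congr rfl fun _ _ => by ring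
  · exact Finset.sum_congr rfl fun _ _ => Finset.sum_congr rfl fun _ _ => by ring

theorem stiff_par (u v : ε → ℝ) : stiff Γ c (fun e => u e + v e) + stiff Γ c (fun e => u e - v e) =
    2 * stiff Γ c u + 2 * stiff Γ c v := by
  have h1 : ∑ e, c e * (u e + v e) ^ 2 + ∑ e, c e * (u e - v e) ^ 2 =
      2 * ∑ e, c e * u e ^ 2 + 2 * ∑ e, c e * v e ^ 2 := by
    simp only [Finset.mul_sum, ← Finset.sum_add_distrib]
    exact Finset.sum_congr rfl fun _ _ => by ring
  have h2 : qf Γ (fun e => u e + v e) + qf Γ (fun e => u e - v e) = 2 * qf Γ u + 2 * qf Γ v := by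
    simp only [qf, Finset.mul_sum, ← Finset.sum_add_distrib]
    exact Finset.sum_congr rfl fun _ _ => Finset.sum_congr rfl fun _ _ => by ring
  simp only [stiff]
  linarith

end stiff

end Bump

open Bump

theorem bump {β δ : ℝ} (hβ : 0 < β) (hδ : 0 < δ) :
    ∃ L : ℕ, ∀ R : ℕ, L ≤ R → ∀ {ι ε : Type} [Fintype ε] {s t : ε → ι} (E : Emb s t)
      {free : ι → Prop} {Γ : ε → ε → ℝ} {c : ε → ℝ}, WardData s t β free Γ c →
      ∀ x₀ : ℤ × ℤ, (∀ v, (R : ℤ) + 1 < sd (E.pos v) x₀ → sd (E.pos v) x₀ < 2 * R - 1 → free v) →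
        ∃ φ : ι → ℝ, (∀ v, sd (E.pos v) x₀ ≤ R + 1 → φ v = 1) ∧
          (∀ v, 2 * (R : ℤ) - 1 ≤ sd (E.pos v) x₀ → φ v = 0) ∧
          stiff Γ c (fun e => φ (t e) - φ (s e)) ≤ δ := by
  obtain ⟨P, D, hD, -, P1, P0, PL, PS⟩ := exists_bump (a := 1.4) (b := 1.6) (by norm_num)
    (by norm_num)
  obtain ⟨A, DA, hDA, Ab, A1, A0, AL, -⟩ := exists_bump (a := 1.7) (b := 1.8) (by norm_num)
    (by norm_num)
  obtain ⟨B, DB, hDB, Bb, B1, B0, BL, -⟩ := exists_bump (a := 1.2) (b := 1.3) (by norm_num)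
    (by norm_num)
  obtain ⟨N₀, hN⟩ := waves (δ := δ / (256 * D ^ 2)) (D := 2 * (DA + DB + 1)) hβ (by positivity)
    (by positivity)
  refine ⟨max N₀ 10, fun R hR ι ε _ s t E free Γ c W x₀ hfree => ?_⟩
  have hR10 : (10 : ℝ) ≤ R := by exact_mod_cast (le_max_right _ _).trans hR
  have hR0 : (0 : ℝ) < R := by linarith
  have hst : ∀ i, ‖st R i‖ ≤ 0.1 := fun i => by
    rw [norm_st, div_le_iff₀ hR0]; linarith
  -- the rescaled gradient
  set h : Fin 2 → ℝ × ℝ → ℝ := fun i u => R / D * (P (u + st R i) - P u) with hh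
  set ζ : ℝ × ℝ → ℝ := fun u => A u - B u with hζ
  have hsupp : ∀ i u, h i u ≠ 0 → 1.3 ≤ ‖u‖ ∧ ‖u‖ ≤ 1.7 := fun i u hu => by
    by_contra hc
    apply hu
    have := hst i
    rcases not_and_or.1 hc with hc | hc
    · simp only [hh]
      rw [P1 u (by linarith), P1 _ (by linarith [norm_add_le u (st R i)]), sub_self, mul_zero]
    · simp only [hh]
      rw [P0 u (by linarith), P0 _ (by linarith [norm_le_add_norm_add u (st R i)]), sub_self,
        mul_zero]
  have hζ1 : ∀ i u, ζ u * h i u = h i u := fun i u => by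
    by_cases hu : h i u = 0
    · rw [hu, mul_zero]
    · simp only [hζ]
      rw [A1 u (hsupp i u hu).2, B0 u (hsupp i u hu).1, sub_zero, one_mul]
  have hζ0 : ∀ u, ζ u ≠ 0 → 1.2 < ‖u‖ ∧ ‖u‖ < 1.8 := fun u hu => by
    by_contra hc
    apply hu
    simp only [hζ]
    rcases not_and_or.1 hc with hc | hc
    · rw [A1 u (by linarith), B1 u (by linarith), sub_self]
    · rw [A0 u (by linarith), B0 u (by linarith), sub_self]
  have hb : ∀ i u, |h i u| ≤ 1 := fun i u => by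
    simp only [hh]
    rw [abs_mul, abs_of_pos (div_pos hR0 hD)]
    refine (mul_le_mul_of_nonneg_left (PL u _) (div_pos hR0 hD).le).trans_eq ?_
    rw [norm_st]; field_simp
  have hL : ∀ i j u, |h i (u + st R j) - h i u| ≤ 1 / R := fun i j u => by
    simp only [hh]
    rw [← mul_sub, abs_mul, abs_of_pos (div_pos hR0 hD)]
    refine (mul_le_mul_of_nonneg_left (PS u _ _) (div_pos hR0 hD).le).trans_eq ?_
    rw [norm_st, norm_st]; field_simp
  have key : ∀ (i : Fin 2) (σ : ℝ), |σ| = 1 → stiff Γ c (fun e => if E.dir e = i then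
      ((ζ (sc R x₀ (E.pos (s e))) + σ * h i (sc R x₀ (E.pos (s e)))) / 2) ^ 2 else 0) ≤
        δ / (16 * D ^ 2) * R ^ 2 := fun i σ hσ => by
    have hs : ∀ x, (ζ (sc R x₀ x) + σ * h i (sc R x₀ x)) / 2 ≠ 0 →
        (R : ℤ) + 1 < sd x x₀ ∧ sd x x₀ < 2 * R - 1 := fun x hx => by
      have h1 : 1.2 < ‖sc R x₀ x‖ ∧ ‖sc R x₀ x‖ < 1.8 := hζ0 _ fun h0 => hx (by
        rw [← hζ1, h0]; simp)
      rw [norm_sc, lt_div_iff₀ hR0, div_lt_iff₀ hR0] at h1
      exact ⟨by exact_mod_cast (show (R : ℝ) + 1 < sd x x₀ by linarith),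
        by exact_mod_cast (show (sd x x₀ : ℝ) < 2 * R - 1 by linarith)⟩
    refine (hN (4 * R) (by have := (le_max_left _ _).trans hR; omega) E W
      (x₀.1 - 2 * R, x₀.2 - 2 * R) (fun x => (ζ (sc R x₀ x) + σ * h i (sc R x₀ x)) / 2) i
      (fun x => ?_) (fun x j => ?_) (fun x hx => ?_)
      fun v hv => hfree v (hs _ hv).1 (hs _ hv).2).trans_eq (by push_cast; field_simp; norm_num)
    · have h1 : |σ * h i (sc R x₀ x)| ≤ 1 := by rw [abs_mul, hσ, one_mul]; exact hb _ _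
      have := Ab (sc R x₀ x)
      have := Bb (sc R x₀ x)
      rw [abs_le] at h1 ⊢
      simp only [hζ]
      constructor <;> linarith
    · rw [sc_add]
      have h1 : |σ * h i (sc R x₀ x + st R j) - σ * h i (sc R x₀ x)| ≤ 1 / R := by
        rw [← mul_sub, abs_mul, hσ, one_mul]; exact hL _ _ _
      have h2 := AL (sc R x₀ x) (st R j)
      have h3 := BL (sc R x₀ x) (st R j)
      have e : 2 * (DA + DB + 1) / ((4 * R : ℕ) : ℝ) = (DA * (1 / R) + DB * (1 / R) + 1 / R) / 2 := by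
        push_cast; field_simp; norm_num
      rw [norm_st] at h2 h3
      rw [abs_le] at h1 h2 h3 ⊢
      simp only [hζ, e]
      constructor <;> linarith
    · have h1 := (hs x hx).2
      simp only [sd, max_lt_iff, abs_lt] at h1
      push_cast
      omega
  refine ⟨fun v => P (sc R x₀ (E.pos v)), fun v hv => P1 _ ?_, fun v hv => P0 _ ?_, ?_⟩
  · have : (sd (E.pos v) x₀ : ℝ) ≤ R + 1 := by exact_mod_cast hv
    rw [norm_sc, div_le_iff₀ hR0]; linarith
  · have : 2 * (R : ℝ) - 1 ≤ sd (E.pos v) x₀ := by exact_mod_cast hv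
    rw [norm_sc, le_div_iff₀ hR0]; linarith
  set g : Fin 2 → ℝ → ε → ℝ := fun i σ e => if E.dir e = i then
      ((ζ (sc R x₀ (E.pos (s e))) + σ * h i (sc R x₀ (E.pos (s e)))) / 2) ^ 2 else 0 with hg
  have hdec : (fun e => P (sc R x₀ (E.pos (t e))) - P (sc R x₀ (E.pos (s e)))) =
      fun e => D / R * ((g 0 1 e - g 0 (-1) e) + (g 1 1 e - g 1 (-1) e)) := by
    ext e
    have h1 : ∀ i, g i 1 e - g i (-1) e = if E.dir e = i then h i (sc R x₀ (E.pos (s e))) else 0 :=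
      fun i => by
        simp only [hg]
        split_ifs
        · conv_rhs => rw [← hζ1]
          ring
        · ring
    have h2 : (g 0 1 e - g 0 (-1) e) + (g 1 1 e - g 1 (-1) e) =
        h (E.dir e) (sc R x₀ (E.pos (s e))) := by
      rw [h1, h1]
      generalize E.dir e = j
      fin_cases j <;> simp
    rw [h2, E.tgt, sc_add]
    simp only [hh]
    field_simp
  have nn : ∀ u, 0 ≤ stiff Γ c u := fun u => sub_nonneg.2 (W.le u)
  have k1 := stiff_par (Γ := Γ) (c := c) (g 0 1) (g 0 (-1))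
  have k2 := stiff_par (Γ := Γ) (c := c) (g 1 1) (g 1 (-1))
  have k3 := stiff_par (Γ := Γ) (c := c) (fun e => g 0 1 e - g 0 (-1) e)
    fun e => g 1 1 e - g 1 (-1) e
  have k4 : stiff Γ c (fun e => (g 0 1 e - g 0 (-1) e) + (g 1 1 e - g 1 (-1) e)) ≤
      16 * (δ / (16 * D ^ 2) * R ^ 2) := by
    linarith [key 0 1 abs_one, key 0 (-1) (by simp), key 1 1 abs_one, key 1 (-1) (by simp),
      nn fun e => g 0 1 e + g 0 (-1) e, nn fun e => g 1 1 e + g 1 (-1) e,
      nn fun e => (g 0 1 e - g 0 (-1) e) - (g 1 1 e - g 1 (-1) e)]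
  rw [hdec, stiff_smul]
  exact (mul_le_mul_of_nonneg_left k4 (sq_nonneg _)).trans_eq (by field_simp)

end Crest.Agent.R167
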