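import Crest.Agent.R167.FKG
import Crest.Agent.R167.Annulus

/-!
Row 167: fast polynomial decay from nested annuli, then exponential decay from Simon's inequality.
-/

set_option autoImplicit false
open MeasureTheory

namespace Crest.Agent.R167

namespace ChainAux

theorem sd_nonneg (x y : ℤ × ℤ) : 0 ≤ sd x y := le_max_of_le_left (abs_nonneg _)

theorem sd_self (x : ℤ × ℤ) : sd x x = 0 := by simp [sd]

theorem sd_comm (x y : ℤ × ℤ) : sd x y = sd y x := by
  unfold sd; rw [abs_sub_comm x.1, abs_sub_comm x.2]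

theorem sd_tri (x y z : ℤ × ℤ) : sd x z ≤ sd x y + sd y z := by
  unfold sd
  refine max_le ?_ ?_
  · exact (abs_sub_le _ y.1 _).trans (add_le_add (le_max_left _ _) (le_max_left _ _))
  · exact (abs_sub_le _ y.2 _).trans (add_le_add (le_max_right _ _) (le_max_right _ _))

section
variable {ι ε : Type} {s t : ε → ι}

theorem sd_edge (E : Emb s t) (e : ε) : sd (E.pos (t e)) (E.pos (s e)) ≤ 1 := by
  rw [E.tgt e]
  unfold sd Crest.ProbabilityR.SpinModel.latticeDir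
  split_ifs <;> simp

theorem sd_ts (E : Emb s t) (e : ε) (z : ℤ × ℤ) : sd (E.pos (t e)) z ≤ sd (E.pos (s e)) z + 1 := by
  have := sd_tri (E.pos (t e)) (E.pos (s e)) z
  have := sd_edge E e
  omega

theorem sd_st (E : Emb s t) (e : ε) (z : ℤ × ℤ) : sd (E.pos (s e)) z ≤ sd (E.pos (t e)) z + 1 := by
  have := sd_tri (E.pos (s e)) (E.pos (t e)) z
  have := sd_edge E e
  rw [sd_comm] at this
  omega

end

variable {ι ε : Type} [Fintype ι] [Fintype ε] (s t : ε → ι)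

theorem ham_add (J J' : ε → ℝ) (h h' : ι → ℝ) (σ : Cfg ι) :
    ham s t (J + J') (h + h') σ = ham s t J h σ + ham s t J' h' σ := by
  simp only [ham, Pi.add_apply, add_mul, Finset.sum_add_distrib]
  ring

theorem ham_congr {J : ε → ℝ} {h : ι → ℝ} {P : ι → Prop} (hJ : ∀ e, J e ≠ 0 → P (s e) ∧ P (t e))
    (hh : ∀ v, h v ≠ 0 → P v) {σ τ : Cfg ι} (hστ : ∀ v, P v → σ v = τ v) :
    ham s t J h σ = ham s t J h τ := by
  unfold ham
  congr 1
  · refine Finset.sum_congr rfl fun e _ => ?_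
    by_cases he : J e = 0
    · simp [he]
    · simp only [crd, hστ _ (hJ e he).1, hστ _ (hJ e he).2]
  · refine Finset.sum_congr rfl fun v _ => ?_
    by_cases hv : h v = 0
    · simp [hv]
    · simp only [crd, hστ _ (hh v hv)]

theorem wI_factor (A : Finset ι) {JA JO : ε → ℝ} {hA hO : ι → ℝ}
    (hJA : ∀ e, JA e ≠ 0 → s e ∈ A ∧ t e ∈ A) (hhA : ∀ v, hA v ≠ 0 → v ∈ A)
    (hJO : ∀ e, JO e ≠ 0 → s e ∉ A ∧ t e ∉ A) (hhO : ∀ v, hO v ≠ 0 → v ∉ A)
    {F : Cfg ι → ℝ} (cF : Continuous F) (hF : ∀ σ τ, (∀ v, v ∉ A → σ v = τ v) → F σ = F τ) :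
    wI s t (JA + JO) (hA + hO) F = Zf s t JA hA * wI s t JO hO F := by
  classical
  unfold wI Zf
  rw [← indep_mul (unif 3) A (F := fun σ => Real.exp (ham s t JA hA σ))
    (G := fun σ => F σ * Real.exp (ham s t JO hO σ)) (by fun_prop) (by fun_prop)]
  · refine integral_congr_ae (Filter.Eventually.of_forall fun σ => ?_)
    simp only [ham_add, Real.exp_add]
    ring
  · intro a b
    rw [ham_congr s t (P := fun v => v ∈ A) hJA hhA (σ := A.piecewise a b) (τ := a)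
      (fun v hv => Finset.piecewise_eq_of_mem A a b hv)]
  · intro a b
    rw [ham_congr s t (P := fun v => v ∉ A) hJO hhO (σ := A.piecewise a b) (τ := b)
      (fun v hv => Finset.piecewise_eq_of_notMem A a b hv),
      hF (A.piecewise a b) b fun v hv => Finset.piecewise_eq_of_notMem A a b hv]

theorem wI_crd_nonneg {J : ε → ℝ} {h : ι → ℝ} (hJ : ∀ e, 0 ≤ J e) (hh : ∀ v, 0 ≤ h v) (y : ι) :
    0 ≤ wI s t J h fun σ => crd σ y 2 := by
  obtain ⟨ν, hν, H⟩ := FKGAux.exists_wI_rep s t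
  rw [H J h _ (fun b => (b y : ℝ)) (fun e => sgn (e y)) (fun _ => 1)
    (by fun_prop) (fun b e θ => by simp only [FKGAux.crd_cfg_2]; ring)]
  exact integral_nonneg fun b => mul_nonneg (mul_nonneg (b y).2.1
    (FKGAux.II_nonneg s t hJ hh (PosI.spin y) b))
    (FKGAux.XX_nonneg s t hJ (PosA.const zero_le_one) b)

theorem G2_le_one (J : ε → ℝ) (x y : ι) : G2 s t J x y ≤ 1 := by
  refine (Ex_mono s t J 0 (by fun_prop) continuous_const fun σ => ?_).trans_eq (Ex_const s t J 0 1)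
  have h1 := abs_crd_le σ x 2
  have h2 := abs_crd_le σ y 2
  calc _ ≤ |crd σ x 2 * crd σ y 2| := le_abs_self _
    _ ≤ 1 := by rw [abs_mul]; exact mul_le_one₀ h1 (abs_nonneg _) h2

variable {s t}

/-- One annulus gains a factor `δ`. -/
theorem step {β δ : ℝ} (E : Emb s t) {J : ε → ℝ} (hJ : ∀ e, 0 ≤ J e ∧ J e ≤ β)
    (x₀ : ℤ × ℤ) {R : ℕ} (hR : 2 ≤ R) {h : ι → ℝ} (hh : ∀ v, 0 ≤ h v)
    (hs : ∀ v, h v ≠ 0 → sd (E.pos v) x₀ ≤ R + 1) {y : ι} (hy : 2 * (R : ℤ) < sd (E.pos y) x₀)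
    (ann : ∀ {J : ε → ℝ}, (∀ e, 0 ≤ J e ∧ J e ≤ β) → ∀ {h₂ : ι → ℝ},
        (∀ v, 0 ≤ h₂ v) → (∀ v, h₂ v ≠ 0 → 2 * (R : ℤ) - 1 ≤ sd (E.pos v) x₀) →
        Zf s t J (h + h₂) - Zf s t J (h - h₂) ≤ δ * Zf s t J (h + h₂)) :
    ∃ (J' : ε → ℝ) (h' : ι → ℝ), (∀ e, 0 ≤ J' e ∧ J' e ≤ β) ∧ (∀ v, 0 ≤ h' v) ∧
      (∀ v, h' v ≠ 0 → sd (E.pos v) x₀ ≤ 2 * R + 1) ∧
      Ex s t J h (fun σ => crd σ y 2) ≤ δ * Ex s t J' h' fun σ => crd σ y 2 := by
  classical
  set S : Finset ι := Finset.univ.filter fun v => sd (E.pos v) x₀ = 2 * R with hSdef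
  set A : Finset ι := Finset.univ.filter fun v => sd (E.pos v) x₀ < 2 * R with hAdef
  have mS : ∀ v, v ∈ S ↔ sd (E.pos v) x₀ = 2 * R := fun v => by simp [hSdef]
  have mA : ∀ v, v ∈ A ↔ sd (E.pos v) x₀ < 2 * R := fun v => by simp [hAdef]
  have hR' : (2 : ℤ) ≤ R := by exact_mod_cast hR
  obtain ⟨J', h', hJ', hJS, hh', hhS, W⟩ := wiring s t (fun e => (hJ e).1) hh S fun v hv => by
    by_contra hne
    have := hs v hne
    rw [mS] at hv
    omega
  have W0 := W ∅ (Finset.empty_subset _) y (by rw [mS]; omega)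
  simp only [Finset.prod_empty, mul_one, Finset.card_empty, pow_zero, one_mul] at W0
  have hnear : ∀ v, h' v ≠ 0 → 2 * (R : ℤ) - 1 ≤ sd (E.pos v) x₀ ∧ sd (E.pos v) x₀ ≤ 2 * R + 1 := by
    intro v hv
    obtain ⟨-, e, he⟩ := hhS v hv
    have h1 := sd_ts E e x₀
    have h2 := sd_st E e x₀
    rcases he with ⟨rfl, he⟩ | ⟨rfl, he⟩ <;> rw [mS] at he <;> omega
  set JA : ε → ℝ := fun e => if s e ∈ A then J' e else 0 with hJA
  set JO : ε → ℝ := fun e => if s e ∈ A then 0 else J' e with hJO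
  set hA : ι → ℝ := fun v => if v ∈ A then h' v else 0 with hhA
  set hO : ι → ℝ := fun v => if v ∈ A then 0 else h' v with hhO
  have eJ : J' = JA + JO := by
    ext e; simp only [hJA, hJO, Pi.add_apply]; split_ifs <;> simp
  have eh : h' = hA + hO := by
    ext e; simp only [hhA, hhO, Pi.add_apply]; split_ifs <;> simp
  have e1 : h + h' = (h + hA) + hO := by rw [eh, add_assoc]
  have e2 : h - h' = (h - hA) + -hO := by rw [eh]; abel
  have sJA : ∀ e, JA e ≠ 0 → s e ∈ A ∧ t e ∈ A := by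
    intro e he
    simp only [hJA] at he
    split_ifs at he with h1
    · refine ⟨h1, ?_⟩
      have h2 := (hJS e he).2
      have h3 := sd_ts E e x₀
      rw [mS] at h2
      rw [mA] at h1 ⊢
      omega
    · exact absurd rfl he
  have sJO : ∀ e, JO e ≠ 0 → s e ∉ A ∧ t e ∉ A := by
    intro e he
    simp only [hJO] at he
    split_ifs at he with h1
    · exact absurd rfl he
    · refine ⟨h1, ?_⟩
      have h2 := (hJS e he).1
      have h3 := sd_st E e x₀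
      rw [mS] at h2
      rw [mA] at h1 ⊢
      omega
  have shA : ∀ v, hA v ≠ 0 → v ∈ A ∧ h' v ≠ 0 := by
    intro v hv
    simp only [hhA] at hv
    split_ifs at hv with h1
    · exact ⟨h1, hv⟩
    · exact absurd rfl hv
  have shO : ∀ v, hO v ≠ 0 → v ∉ A ∧ h' v ≠ 0 := by
    intro v hv
    simp only [hhO] at hv
    split_ifs at hv with h1
    · exact absurd rfl hv
    · exact ⟨h1, hv⟩
  have sh : ∀ v, h v ≠ 0 → v ∈ A := fun v hv => by
    have := hs v hv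
    rw [mA]; omega
  have sp : ∀ v, (h + hA) v ≠ 0 → v ∈ A := fun v hv => by
    by_contra hn
    have a1 : h v = 0 := by by_contra h1; exact hn (sh v h1)
    have a2 : hA v = 0 := by by_contra h1; exact hn (shA v h1).1
    exact hv (by simp [a1, a2])
  have sm : ∀ v, (h - hA) v ≠ 0 → v ∈ A := fun v hv => by
    by_contra hn
    have a1 : h v = 0 := by by_contra h1; exact hn (sh v h1)
    have a2 : hA v = 0 := by by_contra h1; exact hn (shA v h1).1
    exact hv (by simp [a1, a2])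
  have so : ∀ v, hO v ≠ 0 → v ∉ A := fun v hv => (shO v hv).1
  have so' : ∀ v, (-hO) v ≠ 0 → v ∉ A := fun v hv => so v fun h0 => hv (by simp [h0])
  have hyA : y ∉ A := by rw [mA]; omega
  have cy : ∀ σ τ : Cfg ι, (∀ v, v ∉ A → σ v = τ v) → crd σ y 2 = crd τ y 2 := fun σ τ H => by
    simp only [crd, H y hyA]
  have bA : ∀ e, 0 ≤ JA e ∧ JA e ≤ β := fun e => by
    simp only [hJA]
    split_ifs
    · exact ⟨(hJ' e).1, (hJ' e).2.trans (hJ e).2⟩
    · exact ⟨le_rfl, (hJ e).1.trans (hJ e).2⟩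
  have bO : ∀ e, 0 ≤ JO e ∧ JO e ≤ β := fun e => by
    simp only [hJO]
    split_ifs
    · exact ⟨le_rfl, (hJ e).1.trans (hJ e).2⟩
    · exact ⟨(hJ' e).1, (hJ' e).2.trans (hJ e).2⟩
  have nA : ∀ v, 0 ≤ hA v := fun v => by
    simp only [hhA]
    split_ifs
    exacts [hh' v, le_rfl]
  have nO : ∀ v, 0 ≤ hO v := fun v => by
    simp only [hhO]
    split_ifs
    exacts [le_rfl, hh' v]
  refine ⟨JO, hO, bO, nO, fun v hv => (hnear v (shO v hv).2).2, ?_⟩
  have an := ann bA nA fun v hv => (hnear v (shA v hv).2).1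
  rw [eJ, e1, e2, ← wI_one s t (JA + JO), ← wI_one s t (JA + JO),
    wI_factor s t A sJA sp sJO so continuous_const (fun _ _ _ => rfl),
    wI_factor s t A sJA sm sJO so' continuous_const (fun _ _ _ => rfl),
    wI_factor s t A sJA sp sJO so (by fun_prop) cy,
    wI_factor s t A sJA sm sJO so' (by fun_prop) cy, wI_one, wI_one, Zf_neg, wI_neg_crd] at W0
  have p1 := Zf_pos s t JA (h + hA)
  have p2 := Zf_pos s t JA (h - hA)
  have p3 := Zf_pos s t JO hO
  have p4 := wI_crd_nonneg s t (fun e => (bO e).1) nO y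
  have p5 : 0 ≤ Ex s t J h fun σ => crd σ y 2 :=
    div_nonneg (wI_crd_nonneg s t (fun e => (hJ e).1) hh y) (Zf_pos s t J h).le
  generalize Ex s t J h (fun σ => crd σ y 2) = X at W0 p5 ⊢
  unfold Ex
  generalize wI s t JO hO (fun σ => crd σ y 2) = w at W0 p4 ⊢
  generalize Zf s t JO hO = z at W0 p3 ⊢
  generalize Zf s t JA (h + hA) = a at W0 p1 an
  generalize Zf s t JA (h - hA) = b at W0 p2 an
  rw [← mul_div_assoc, le_div_iff₀ p3]
  have i1 : (a - b) * w ≤ δ * a * w := mul_le_mul_of_nonneg_right an p4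
  have i2 : 0 ≤ X * (b * z) := mul_nonneg p5 (mul_pos p2 p3).le
  have i3 : a * (X * z) ≤ a * (δ * w) := by nlinarith
  exact le_of_mul_le_mul_left i3 p1

end ChainAux

open ChainAux

theorem field_decay {β δ : ℝ} (hβ : 0 < β) (hδ : 0 < δ) :
    ∃ L : ℕ, 1 ≤ L ∧ ∀ {ι ε : Type} [Fintype ι] [Fintype ε] {s t : ε → ι} (E : Emb s t)
      (x₀ : ℤ × ℤ) (y : ι) (k R : ℕ), L ≤ R → ∀ {J : ε → ℝ}, (∀ e, 0 ≤ J e ∧ J e ≤ β) →
        ∀ {h : ι → ℝ}, (∀ v, 0 ≤ h v) → (∀ v, h v ≠ 0 → sd (E.pos v) x₀ ≤ R + 1) →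
        2 ^ k * (R : ℤ) < sd (E.pos y) x₀ → Ex s t J h (fun σ => crd σ y 2) ≤ δ ^ k := by
  obtain ⟨L, hL⟩ := annulus hβ hδ
  refine ⟨max L 2, by omega, fun {ι ε} _ _ s t E x₀ y k => ?_⟩
  induction k with
  | zero =>
    intro R _ J _ h _ _ _
    refine (Ex_mono s t J h (by fun_prop) continuous_const fun σ => ?_).trans_eq
      (Ex_const s t J h _)
    simpa using (le_abs_self _).trans (abs_crd_le σ y 2)
  | succ k ih =>
    intro R hR J hJ h hh hs hy
    have h1 : (1 : ℤ) ≤ 2 ^ k := one_le_pow₀ (by norm_num)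
    have h2 : (0 : ℤ) ≤ R := Int.natCast_nonneg R
    have h3 : 2 * (R : ℤ) < sd (E.pos y) x₀ := by
      rw [pow_succ] at hy
      nlinarith
    obtain ⟨J', h', hJ', hh', hs', H⟩ := step E hJ x₀ (le_of_max_le_right hR) hh hs h3
      fun hJ₂ h₂ hh₂ hs₂ => hL R (le_of_max_le_left hR) E hJ₂ x₀ hh hh₂ hs hs₂
    refine H.trans ?_
    rw [pow_succ']
    refine mul_le_mul_of_nonneg_left (ih (2 * R) (by omega) hJ' hh' (fun v hv => ?_) ?_) hδ.le
    · exact_mod_cast hs' v hv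
    · rw [pow_succ] at hy
      push_cast
      linarith

theorem poly_decay {β δ : ℝ} (hβ : 0 < β) (hδ : 0 < δ) :
    ∃ L : ℕ, 1 ≤ L ∧ ∀ {ι ε : Type} [Fintype ι] [Fintype ε] {s t : ε → ι} (E : Emb s t)
      {J : ε → ℝ}, (∀ e, 0 ≤ J e ∧ J e ≤ β) → ∀ (k : ℕ) (x y : ι),
        2 ^ k * (L : ℤ) < sd (E.pos y) (E.pos x) → G2 s t J x y ≤ δ ^ k := by
  obtain ⟨L, hL1, hL⟩ := field_decay hβ hδ
  refine ⟨L, hL1, fun {ι ε} _ _ s t E J hJ k x y hy => ?_⟩
  classical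
  have hxy : y ∉ ({x} : Finset ι) := by
    rw [Finset.mem_singleton]
    rintro rfl
    rw [sd_self] at hy
    have : (0 : ℤ) ≤ 2 ^ k * (L : ℤ) := by positivity
    omega
  obtain ⟨J', h', hJ', -, hh', hhS, W⟩ := wiring s t (fun e => (hJ e).1) (h := 0)
    (fun _ => le_rfl) {x} fun _ _ => rfl
  have W0 := W {x} (Finset.Subset.refl _) y hxy
  simp only [Finset.prod_singleton, Finset.card_singleton, pow_one, zero_add, zero_sub, Zf_neg,
    wI_neg_crd] at W0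
  have H := hL E (E.pos x) y k L le_rfl (J := J')
    (fun e => ⟨(hJ' e).1, (hJ' e).2.trans (hJ e).2⟩) hh' (fun v hv => ?_) hy
  · refine le_trans ?_ H
    have p := Zf_pos s t J' h'
    have e1 : G2 s t J x y = Ex s t J 0 fun σ => crd σ y 2 * crd σ x 2 := by
      simp only [G2, mul_comm]
    rw [e1, Ex.eq_1 s t J' h', le_div_iff₀ p]
    linarith
  · obtain ⟨-, e, he⟩ := hhS v hv
    have h1 := sd_ts E e (E.pos x)
    have h2 := sd_st E e (E.pos x)
    have h3 := sd_self (E.pos x)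
    have h4 : (0 : ℤ) ≤ L := Int.natCast_nonneg L
    rcases he with ⟨rfl, he⟩ | ⟨rfl, he⟩ <;> rw [Finset.mem_singleton] at he <;> rw [he] at h1 h2 <;>
      omega

namespace ChainAux

variable {ι ε : Type} [Fintype ι] [Fintype ε] {s t : ε → ι}

theorem cur_bound {β : ℝ} {J : ε → ℝ} (hJ : ∀ e, 0 ≤ J e ∧ J e ≤ β) (x y : ι) (e : ε) {a M : ℝ}
    (h1 : G2 s t J x (s e) ≤ a) (h2 : G2 s t J x (t e) ≤ a) (h3 : G2 s t J (s e) y ≤ M)
    (h4 : G2 s t J (t e) y ≤ M) :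
    |Ex s t J 0 fun σ => crd σ x 2 * crd σ y 0 * cur s t J 0 2 e σ| ≤ β * (a * M) := by
  have hJ' := fun e => (hJ e).1
  have e1 : (Ex s t J 0 fun σ => crd σ x 2 * crd σ y 0 * cur s t J 0 2 e σ) =
      J e * ((Ex s t J 0 fun σ => crd σ x 2 * crd σ (t e) 2 * (crd σ (s e) 0 * crd σ y 0)) -
        Ex s t J 0 fun σ => crd σ x 2 * crd σ (s e) 2 * (crd σ (t e) 0 * crd σ y 0)) := by
    rw [← Ex_sub s t J 0 (by fun_prop) (by fun_prop), ← Ex_const_mul]
    congr 1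
    ext σ
    unfold cur
    ring
  have n1 := four_nonneg s t hJ' x (t e) (s e) y
  have n2 := four_nonneg s t hJ' x (s e) (t e) y
  have c1 := neg_corr s t hJ' x (t e) (s e) y
  have c2 := neg_corr s t hJ' x (s e) (t e) y
  rw [Ex_crd_eq_G2, Ex_crd_eq_G2] at c1 c2
  have ha : 0 ≤ a := (G2_nonneg s t hJ' _ _).trans h1
  have d1 := c1.trans (mul_le_mul h2 h3 (G2_nonneg s t hJ' _ _) ha)
  have d2 := c2.trans (mul_le_mul h1 h4 (G2_nonneg s t hJ' _ _) ha)
  rw [e1, abs_mul, abs_of_nonneg (hJ' e)]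
  refine mul_le_mul (hJ e).2 (abs_le.2 ⟨by linarith, by linarith⟩) (abs_nonneg _)
    ((hJ e).1.trans (hJ e).2)

/-- Simon's inequality, in crude form. -/
theorem simon {β : ℝ} (hβ : 0 < β) (E : Emb s t) {J : ε → ℝ} (hJ : ∀ e, 0 ≤ J e ∧ J e ≤ β)
    (x y : ι) (R : ℕ) (hy : (R : ℤ) < sd (E.pos y) (E.pos x)) {a M : ℝ} (ha : 0 ≤ a) (hM : 0 ≤ M)
    (h1 : ∀ u, (R : ℤ) ≤ sd (E.pos u) (E.pos x) → G2 s t J x u ≤ a)
    (h2 : ∀ u, sd (E.pos u) (E.pos x) ≤ R + 1 → G2 s t J u y ≤ M) :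
    G2 s t J x y ≤ 2 * (2 * R + 3) ^ 2 * (β * (a * M)) := by
  classical
  have hc : 0 ≤ β * (a * M) := by positivity
  rw [← Ex_crd_eq_G2 s t J 0, ward_simon s t J
    (fun v => if sd (E.pos v) (E.pos x) ≤ R then 1 else 0) (x := x) (y := y)
    (by simp [sd_self]) (by simp [hy])]
  set B := box ((E.pos x).1 - (R + 1), (E.pos x).2 - (R + 1)) (2 * R + 3) with hB
  have key := edge_sum_le E B (F := fun z _ => if sd z (E.pos x) ≤ R + 1 then β * (a * M) else 0)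
    (fun z _ => by split_ifs; exacts [hc, le_rfl]) (fun z _ hz => by
      split_ifs at hz with h
      · unfold sd at h
        have a1 := abs_le.1 (le_of_max_le_left h)
        have a2 := abs_le.1 (le_of_max_le_right h)
        simp only [hB, box, Finset.mem_product, Finset.mem_Ico]
        push_cast
        omega
      · exact absurd rfl hz)
  refine le_trans (Finset.sum_le_sum fun e _ => ?_) (key.trans ?_)
  · have t1 := sd_ts E e (E.pos x)
    have t2 := sd_st E e (E.pos x)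
    by_cases c1 : sd (E.pos (t e)) (E.pos x) ≤ R <;> by_cases c2 : sd (E.pos (s e)) (E.pos x) ≤ R
    · simp only [c1, c2, if_true, sub_self, zero_mul]
      split_ifs; exacts [hc, le_rfl]
    · have b := cur_bound hJ x y e (h1 _ (by omega)) (h1 _ (by omega)) (h2 _ (by omega))
        (h2 _ (by omega))
      rw [if_pos c1, if_neg c2, if_pos (by omega)]
      have := (abs_le.1 b).2
      linarith
    · have b := cur_bound hJ x y e (h1 _ (by omega)) (h1 _ (by omega)) (h2 _ (by omega))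
        (h2 _ (by omega))
      rw [if_neg c1, if_pos c2, if_pos (by omega)]
      have := (abs_le.1 b).1
      linarith
    · simp only [c1, c2, if_false, sub_self, zero_mul]
      split_ifs; exacts [hc, le_rfl]
  · calc _ ≤ ∑ _j : Fin 2, ∑ _z ∈ B, β * (a * M) :=
          Finset.sum_le_sum fun j _ => Finset.sum_le_sum fun z _ => by
            split_ifs; exacts [le_rfl, hc]
      _ = _ := by
        simp only [Finset.sum_const, hB, card_box, Finset.card_univ, Fintype.card_fin, nsmul_eq_mul]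
        push_cast
        ring

end ChainAux

theorem exp_decay {β : ℝ} (hβ : 0 < β) :
    ∃ R : ℕ, 1 ≤ R ∧ ∀ {ι ε : Type} [Fintype ι] [Fintype ε] {s t : ε → ι} (E : Emb s t)
      {J : ε → ℝ}, (∀ e, 0 ≤ J e ∧ J e ≤ β) → ∀ (k : ℕ) (x y : ι),
        k * (R : ℤ) ≤ sd (E.pos y) (E.pos x) → G2 s t J x y ≤ (1 / 2) ^ k := by
  obtain ⟨L, hL1, hL⟩ := poly_decay (δ := 1 / 8) hβ (by norm_num)
  obtain ⟨j, hj⟩ := exists_pow_lt_of_lt_one
    (show 0 < 1 / (4 * (2 * (L : ℝ) + 5) ^ 2 * β) by positivity) (show (1 / 2 : ℝ) < 1 by norm_num)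
  have hc : 2 * (2 * ((2 ^ j * L + 1 : ℕ) : ℝ) + 3) ^ 2 * (β * (1 / 8) ^ j) ≤ 1 / 2 := by
    rw [lt_div_iff₀ (by positivity)] at hj
    have a1 : (1 : ℝ) ≤ 2 ^ j := one_le_pow₀ (by norm_num)
    have a2 : 2 * ((2 ^ j * L + 1 : ℕ) : ℝ) + 3 ≤ 2 ^ j * (2 * L + 5) := by
      push_cast; nlinarith
    have a3 : (2 * ((2 ^ j * L + 1 : ℕ) : ℝ) + 3) ^ 2 ≤ (2 ^ j * (2 * L + 5)) ^ 2 :=
      pow_le_pow_left₀ (by positivity) a2 2
    have a4 : ((2 : ℝ) ^ j) ^ 2 * (1 / 8) ^ j = (1 / 2) ^ j := by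
      rw [← pow_mul, mul_comm j 2, pow_mul, ← mul_pow]; norm_num
    calc _ ≤ 2 * (2 ^ j * (2 * (L : ℝ) + 5)) ^ 2 * (β * (1 / 8) ^ j) := by gcongr
      _ = (((2 : ℝ) ^ j) ^ 2 * (1 / 8) ^ j) * (4 * (2 * L + 5) ^ 2 * β) / 2 := by ring
      _ ≤ 1 / 2 := by rw [a4]; linarith
  refine ⟨2 ^ j * L + 2, by omega, fun {ι ε} _ _ s t E J hJ k => ?_⟩
  induction k with
  | zero => intro x y _; simpa using G2_le_one s t J x y
  | succ k ih =>
    intro x y hy
    have p0 : (0 : ℤ) ≤ k * ((2 ^ j * L + 2 : ℕ) : ℤ) := by positivity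
    have H := simon hβ E hJ x y (2 ^ j * L + 1) (a := (1 / 8) ^ j) (M := (1 / 2) ^ k)
      (by push_cast at hy p0 ⊢; linarith) (by positivity) (by positivity)
      (fun u hu => hL E hJ j x u (by push_cast at hu; linarith))
      (fun u hu => ih u y (by
        have := sd_tri (E.pos y) (E.pos u) (E.pos x)
        push_cast at hy hu ⊢
        linarith))
    refine H.trans ?_
    have : (0 : ℝ) ≤ (1 / 2) ^ k := by positivity
    calc _ = 2 * (2 * ((2 ^ j * L + 1 : ℕ) : ℝ) + 3) ^ 2 * (β * (1 / 8) ^ j) * (1 / 2) ^ k := by ring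
      _ ≤ 1 / 2 * (1 / 2) ^ k := mul_le_mul_of_nonneg_right hc this
      _ = _ := by ring

end Crest.Agent.R167
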