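import Crest.Agent.R167.Basic

/-!
Row 167: the four functions theorem on a cube, and independence of disjoint blocks.
-/

set_option autoImplicit false
open MeasureTheory

namespace Crest.Agent.R167

namespace FourAux

open scoped ENNReal

theorem real_add_le {a b c d : ℝ} (ha : 0 ≤ a) (hd : 0 ≤ d) (hac : a ≤ c)
    (hbc : b ≤ c) (h : a * b ≤ c * d) : a + b ≤ c + d := by
  rcases (ha.trans hac).eq_or_lt with hc | hc
  · linarith
  · refine le_of_mul_le_mul_left ?_ hc
    nlinarith [mul_nonneg (sub_nonneg.2 hac) (sub_nonneg.2 hbc)]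

theorem enn_add_le {a b c d : ℝ≥0∞} (hac : a ≤ c) (hbc : b ≤ c) (h : a * b ≤ c * d) :
    a + b ≤ c + d := by
  rcases eq_or_ne c ⊤ with rfl | hc
  · simp
  rcases eq_or_ne d ⊤ with rfl | hd
  · simp
  have ha : a ≠ ⊤ := ne_top_of_le_ne_top hc hac
  have hb : b ≠ ⊤ := ne_top_of_le_ne_top hc hbc
  lift a to NNReal using ha
  lift b to NNReal using hb
  lift c to NNReal using hc
  lift d to NNReal using hd
  have h1 : (a : ℝ) ≤ c := by exact_mod_cast hac
  have h2 : (b : ℝ) ≤ c := by exact_mod_cast hbc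
  have h3 : (a : ℝ) * b ≤ c * d := by exact_mod_cast h
  have := real_add_le a.2 d.2 h1 h2 h3
  exact_mod_cast this

theorem one_dim {α : Type} [LinearOrder α] [MeasurableSpace α] (ν : Measure α) [SFinite ν]
    {g₁ g₂ g₃ g₄ : α → ℝ≥0∞} (m₁ : Measurable g₁) (m₂ : Measurable g₂) (m₃ : Measurable g₃)
    (m₄ : Measurable g₄) (h : ∀ s t, g₁ s * g₂ t ≤ g₃ (s ⊓ t) * g₄ (s ⊔ t)) :
    (∫⁻ s, g₁ s ∂ν) * ∫⁻ s, g₂ s ∂ν ≤ (∫⁻ s, g₃ s ∂ν) * ∫⁻ s, g₄ s ∂ν := by
  have key : ∀ s t, s ≤ t → g₁ s * g₂ t + g₂ s * g₁ t ≤ g₃ s * g₄ t + g₄ s * g₃ t := by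
    intro s t hst
    have h1 := h s t
    have h2 := h t s
    have h3 := h s s
    have h4 := h t t
    rw [inf_eq_left.2 hst, sup_eq_right.2 hst] at h1
    rw [inf_eq_right.2 hst, sup_eq_left.2 hst, mul_comm] at h2
    rw [inf_idem, sup_idem] at h3 h4
    refine enn_add_le h1 h2 ?_
    calc g₁ s * g₂ t * (g₂ s * g₁ t) = (g₁ s * g₂ s) * (g₁ t * g₂ t) := by ring
      _ ≤ (g₃ s * g₄ s) * (g₃ t * g₄ t) := mul_le_mul' h3 h4
      _ = _ := by ring
  have key' : ∀ z : α × α,
      g₁ z.1 * g₂ z.2 + g₂ z.1 * g₁ z.2 ≤ g₃ z.1 * g₄ z.2 + g₄ z.1 * g₃ z.2 := by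
    rintro ⟨s, t⟩
    rcases le_total s t with hst | hst
    · exact key s t hst
    · have := key t s hst
      calc g₁ s * g₂ t + g₂ s * g₁ t = g₁ t * g₂ s + g₂ t * g₁ s := by ring
        _ ≤ g₃ t * g₄ s + g₄ t * g₃ s := this
        _ = _ := by ring
  have h1 := lintegral_mono (μ := ν.prod ν) key'
  rw [lintegral_add_left (by fun_prop), lintegral_add_left (by fun_prop),
    lintegral_prod_mul m₁.aemeasurable m₂.aemeasurable,
    lintegral_prod_mul m₂.aemeasurable m₁.aemeasurable,
    lintegral_prod_mul m₃.aemeasurable m₄.aemeasurable,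
    lintegral_prod_mul m₄.aemeasurable m₃.aemeasurable,
    mul_comm (∫⁻ s, g₂ s ∂ν), mul_comm (∫⁻ s, g₄ s ∂ν), ← two_mul, ← two_mul] at h1
  exact (ENNReal.mul_le_mul_iff_right two_ne_zero ENNReal.ofNat_ne_top).1 h1

theorem marg {ι α : Type} [DecidableEq ι] [LinearOrder α] [MeasurableSpace α] (ν : Measure α)
    [SigmaFinite ν] {f₁ f₂ f₃ f₄ : (ι → α) → ℝ≥0∞} (m₁ : Measurable f₁) (m₂ : Measurable f₂)
    (m₃ : Measurable f₃) (m₄ : Measurable f₄)
    (h : ∀ b c, f₁ b * f₂ c ≤ f₃ (b ⊓ c) * f₄ (b ⊔ c)) (S : Finset ι) (b c : ι → α) :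
    lmarginal (fun _ => ν) S f₁ b * lmarginal (fun _ => ν) S f₂ c ≤
      lmarginal (fun _ => ν) S f₃ (b ⊓ c) * lmarginal (fun _ => ν) S f₄ (b ⊔ c) := by
  induction S using Finset.induction_on generalizing b c with
  | empty => simpa using h b c
  | insert i S hi ih =>
    rw [lmarginal_insert f₁ m₁ hi, lmarginal_insert f₂ m₂ hi, lmarginal_insert f₃ m₃ hi,
      lmarginal_insert f₄ m₄ hi]
    refine one_dim ν ((m₁.lmarginal _).comp (measurable_update _))
      ((m₂.lmarginal _).comp (measurable_update _)) ((m₃.lmarginal _).comp (measurable_update _))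
      ((m₄.lmarginal _).comp (measurable_update _)) fun s t => ?_
    have e1 : Function.update (b ⊓ c) i (s ⊓ t) =
        Function.update b i s ⊓ Function.update c i t := by
      funext j
      by_cases hj : j = i
      · subst hj; simp
      · simp [hj]
    have e2 : Function.update (b ⊔ c) i (s ⊔ t) =
        Function.update b i s ⊔ Function.update c i t := by
      funext j
      by_cases hj : j = i
      · subst hj; simp
      · simp [hj]
    rw [e1, e2]
    exact ih _ _

end FourAux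

variable {ι : Type} [Fintype ι]

theorem four_functions (ν : Measure unitInterval) [IsProbabilityMeasure ν]
    {f₁ f₂ f₃ f₄ : (ι → unitInterval) → ℝ} (c₁ : Continuous f₁) (c₂ : Continuous f₂)
    (c₃ : Continuous f₃) (c₄ : Continuous f₄) (h₁ : ∀ b, 0 ≤ f₁ b) (h₂ : ∀ b, 0 ≤ f₂ b)
    (h₃ : ∀ b, 0 ≤ f₃ b) (h₄ : ∀ b, 0 ≤ f₄ b)
    (h : ∀ b c, f₁ b * f₂ c ≤ f₃ (b ⊓ c) * f₄ (b ⊔ c)) :
    (∫ b, f₁ b ∂Measure.pi fun _ => ν) * ∫ b, f₂ b ∂(Measure.pi fun _ => ν) ≤
      (∫ b, f₃ b ∂Measure.pi fun _ => ν) * ∫ b, f₄ b ∂(Measure.pi fun _ => ν) := by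
  classical
  have key := FourAux.marg ν (f₁ := fun b => ENNReal.ofReal (f₁ b))
    (f₂ := fun b => ENNReal.ofReal (f₂ b)) (f₃ := fun b => ENNReal.ofReal (f₃ b))
    (f₄ := fun b => ENNReal.ofReal (f₄ b)) c₁.measurable.ennreal_ofReal
    c₂.measurable.ennreal_ofReal c₃.measurable.ennreal_ofReal c₄.measurable.ennreal_ofReal
    (fun b c => by
      rw [← ENNReal.ofReal_mul (h₁ _), ← ENNReal.ofReal_mul (h₃ _)]
      exact ENNReal.ofReal_le_ofReal (h b c)) Finset.univ 0 0
  simp only [lmarginal_univ] at key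
  rw [← ofReal_integral_eq_lintegral_ofReal (cint c₁) (Filter.Eventually.of_forall h₁),
    ← ofReal_integral_eq_lintegral_ofReal (cint c₂) (Filter.Eventually.of_forall h₂),
    ← ofReal_integral_eq_lintegral_ofReal (cint c₃) (Filter.Eventually.of_forall h₃),
    ← ofReal_integral_eq_lintegral_ofReal (cint c₄) (Filter.Eventually.of_forall h₄),
    ← ENNReal.ofReal_mul (integral_nonneg h₁), ← ENNReal.ofReal_mul (integral_nonneg h₃)] at key
  exact (ENNReal.ofReal_le_ofReal_iff (mul_nonneg (integral_nonneg h₃) (integral_nonneg h₄))).1 key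

variable [DecidableEq ι]

theorem piecewise_mp {α : Type} [MeasurableSpace α] (ν : Measure α) [IsProbabilityMeasure ν]
    (S : Finset ι) :
    MeasurePreserving (fun p : (ι → α) × (ι → α) => S.piecewise p.1 p.2)
      ((Measure.pi fun _ => ν).prod (Measure.pi fun _ => ν)) (Measure.pi fun _ => ν) := by
  have hm : Measurable fun p : (ι → α) × (ι → α) => S.piecewise p.1 p.2 := by
    refine measurable_pi_lambda _ fun i => ?_
    by_cases hi : i ∈ S
    · simp only [Finset.piecewise_eq_of_mem _ _ _ hi]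
      exact (measurable_pi_apply i).comp measurable_fst
    · simp only [Finset.piecewise_eq_of_notMem _ _ _ hi]
      exact (measurable_pi_apply i).comp measurable_snd
  refine ⟨hm, (Measure.pi_eq fun s hs => ?_).symm⟩
  rw [Measure.map_apply hm (MeasurableSet.univ_pi hs)]
  have e : (fun p : (ι → α) × (ι → α) => S.piecewise p.1 p.2) ⁻¹' Set.pi Set.univ s =
      (Set.pi Set.univ fun i => if i ∈ S then s i else Set.univ) ×ˢ
        (Set.pi Set.univ fun i => if i ∈ S then Set.univ else s i) := by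
    ext ⟨a, b⟩
    simp only [Set.mem_preimage, Set.mem_pi, Set.mem_univ, true_imp_iff, Set.mem_prod]
    rw [← forall_and]
    refine forall_congr' fun i => ?_
    by_cases hi : i ∈ S <;> simp [hi]
  rw [e, Measure.prod_prod, Measure.pi_pi, Measure.pi_pi, ← Finset.prod_mul_distrib]
  refine Finset.prod_congr rfl fun i _ => ?_
  by_cases hi : i ∈ S <;> simp [hi]

omit [Fintype ι] in
theorem continuous_piecewise {X α : Type} [TopologicalSpace X] [TopologicalSpace α] (S : Finset ι)
    {a b : X → ι → α} (ha : Continuous a) (hb : Continuous b) :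
    Continuous fun x => S.piecewise (a x) (b x) := by
  refine continuous_pi fun i => ?_
  by_cases hi : i ∈ S
  · simp only [Finset.piecewise_eq_of_mem _ _ _ hi]
    exact (continuous_apply i).comp ha
  · simp only [Finset.piecewise_eq_of_notMem _ _ _ hi]
    exact (continuous_apply i).comp hb

theorem integral_piecewise_prod {α : Type} [TopologicalSpace α] [SecondCountableTopology α]
    [MeasurableSpace α] [BorelSpace α] (ν : Measure α) [IsProbabilityMeasure ν] (S : Finset ι)
    {F : (ι → α) → ℝ} (cF : Continuous F) :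
    ∫ a, F a ∂(Measure.pi fun _ => ν) =
      ∫ p, F (S.piecewise p.1 p.2) ∂((Measure.pi fun _ => ν).prod (Measure.pi fun _ => ν)) := by
  conv_lhs => rw [← (piecewise_mp ν S).map_eq]
  rw [integral_map (piecewise_mp ν S).measurable.aemeasurable cF.aestronglyMeasurable]

theorem indep_mul {α : Type} [TopologicalSpace α] [CompactSpace α] [SecondCountableTopology α]
    [MeasurableSpace α] [BorelSpace α] (ν : Measure α) [IsProbabilityMeasure ν] (S : Finset ι)
    {F G : (ι → α) → ℝ} (cF : Continuous F) (cG : Continuous G)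
    (hF : ∀ a b, F (S.piecewise a b) = F a) (hG : ∀ a b, G (S.piecewise a b) = G b) :
    ∫ a, F a * G a ∂(Measure.pi fun _ => ν) =
      (∫ a, F a ∂Measure.pi fun _ => ν) * ∫ a, G a ∂(Measure.pi fun _ => ν) := by
  rw [integral_piecewise_prod ν S (F := fun a => F a * G a) (cF.mul cG)]
  simp only [hF, hG]
  exact integral_prod_mul F G

/-- The four functions theorem with the coordinates in `S` of the second and fourth function
frozen at the top. -/
theorem four_functions_top (ν : Measure unitInterval) [IsProbabilityMeasure ν] (S : Finset ι)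
    {f₁ f₂ f₃ f₄ : (ι → unitInterval) → ℝ} (c₁ : Continuous f₁) (c₂ : Continuous f₂)
    (c₃ : Continuous f₃) (c₄ : Continuous f₄) (h₁ : ∀ b, 0 ≤ f₁ b) (h₂ : ∀ b, 0 ≤ f₂ b)
    (h₃ : ∀ b, 0 ≤ f₃ b) (h₄ : ∀ b, 0 ≤ f₄ b)
    (h : ∀ b c, f₁ b * f₂ c ≤ f₃ (b ⊓ c) * f₄ (b ⊔ c)) :
    (∫ b, f₁ b ∂Measure.pi fun _ => ν) * ∫ b, f₂ (S.piecewise 1 b) ∂(Measure.pi fun _ => ν) ≤
      (∫ b, f₃ b ∂Measure.pi fun _ => ν) * ∫ b, f₄ (S.piecewise 1 b) ∂(Measure.pi fun _ => ν) := by
  have cp : ∀ a : ι → unitInterval, Continuous fun b : ι → unitInterval => S.piecewise a b :=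
    fun a => continuous_piecewise S continuous_const continuous_id
  have cq : Continuous fun p : (ι → unitInterval) × (ι → unitInterval) => S.piecewise p.1 p.2 :=
    continuous_piecewise S continuous_fst continuous_snd
  have key : ∀ a : ι → unitInterval,
      (∫ b, f₁ (S.piecewise a b) ∂Measure.pi fun _ => ν) *
          ∫ b, f₂ (S.piecewise 1 b) ∂(Measure.pi fun _ => ν) ≤
        (∫ b, f₃ (S.piecewise a b) ∂Measure.pi fun _ => ν) *
          ∫ b, f₄ (S.piecewise 1 b) ∂(Measure.pi fun _ => ν) := by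
    intro a
    refine four_functions ν (c₁.comp (cp a)) (c₂.comp (cp 1)) (c₃.comp (cp a)) (c₄.comp (cp 1))
      (fun b => h₁ _) (fun b => h₂ _) (fun b => h₃ _) (fun b => h₄ _) fun b c => ?_
    have e1 : S.piecewise a (b ⊓ c) = S.piecewise a b ⊓ S.piecewise 1 c := by
      funext i
      by_cases hi : i ∈ S
      · simp only [Finset.piecewise_eq_of_mem _ _ _ hi, Pi.inf_apply, Pi.one_apply]
        exact (inf_eq_left.2 unitInterval.le_one').symm
      · simp only [Finset.piecewise_eq_of_notMem _ _ _ hi, Pi.inf_apply]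
    have e2 : S.piecewise 1 (b ⊔ c) = S.piecewise a b ⊔ S.piecewise 1 c := by
      funext i
      by_cases hi : i ∈ S
      · simp only [Finset.piecewise_eq_of_mem _ _ _ hi, Pi.sup_apply, Pi.one_apply]
        exact (sup_eq_right.2 unitInterval.le_one').symm
      · simp only [Finset.piecewise_eq_of_notMem _ _ _ hi, Pi.sup_apply]
    simp only [e1, e2]
    exact h _ _
  rw [integral_piecewise_prod ν S c₁, integral_piecewise_prod ν S c₃,
    integral_prod (fun p => f₁ (S.piecewise p.1 p.2)) (cint (c₁.comp cq)),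
    integral_prod (fun p => f₃ (S.piecewise p.1 p.2)) (cint (c₃.comp cq)),
    ← integral_mul_const, ← integral_mul_const]
  refine integral_mono (cint ?_) (cint ?_) key
  · exact (cont_integral (f := fun a b => f₁ (S.piecewise a b)) (c₁.comp cq)).mul continuous_const
  · exact (cont_integral (f := fun a b => f₃ (S.piecewise a b)) (c₃.comp cq)).mul continuous_const

end Crest.Agent.R167
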