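import Crest.Agent.R167.Sphere
import Crest.Agent.R167.Cone
import Crest.Agent.R167.Four

/-!
Row 167: correlation inequalities for the `O(3)` model.
-/

set_option autoImplicit false
open MeasureTheory

namespace Crest.Agent.R167

namespace FKGAux

theorem supermod {α : Type} [LinearOrder α] {φ : α → ℝ} (hφ : Monotone φ) (a a' c c' : α) :
    φ a * φ a' + φ c * φ c' ≤ φ (a ⊓ c) * φ (a' ⊓ c') + φ (a ⊔ c) * φ (a' ⊔ c') := by
  rcases le_total a c with h | h <;> rcases le_total a' c' with h' | h'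
  · rw [inf_eq_left.2 h, sup_eq_right.2 h, inf_eq_left.2 h', sup_eq_right.2 h']
  · rw [inf_eq_left.2 h, sup_eq_right.2 h, inf_eq_right.2 h', sup_eq_left.2 h']
    nlinarith [mul_nonneg (sub_nonneg.2 (hφ h)) (sub_nonneg.2 (hφ h'))]
  · rw [inf_eq_right.2 h, sup_eq_left.2 h, inf_eq_left.2 h', sup_eq_right.2 h']
    nlinarith [mul_nonneg (sub_nonneg.2 (hφ h)) (sub_nonneg.2 (hφ h'))]
  · rw [inf_eq_right.2 h, sup_eq_left.2 h, inf_eq_right.2 h', sup_eq_left.2 h', add_comm]

theorem supermod_rad (a a' c c' : unitInterval) :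
    rad a * rad a' + rad c * rad c' ≤
      rad (a ⊔ c) * rad (a' ⊔ c') + rad (a ⊓ c) * rad (a' ⊓ c') := by
  have := supermod (φ := fun b => -rad b) (fun x y h => neg_le_neg (rad_anti h)) a a' c c'
  simp only [neg_mul_neg] at this
  linarith

theorem coe_mono : Monotone fun b : unitInterval => (b : ℝ) := fun _ _ h => h

theorem modular (a c : unitInterval) :
    (a : ℝ) + c = ((a ⊓ c : unitInterval) : ℝ) + ((a ⊔ c : unitInterval) : ℝ) := by
  rcases le_total a c with h | h
  · rw [inf_eq_left.2 h, sup_eq_right.2 h]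
  · rw [inf_eq_right.2 h, sup_eq_left.2 h, add_comm]

theorem angle_cos_sub (a b : Real.Angle) : (a - b).cos = a.cos * b.cos + a.sin * b.sin := by
  rw [sub_eq_add_neg, Real.Angle.cos_add, Real.Angle.cos_neg, Real.Angle.sin_neg]
  ring

variable {ι ε : Type}

theorem PosI.prod_spin (T : Finset ι) : PosI fun e : Isg ι => ∏ x ∈ T, sgn (e x) := by
  classical
  induction T using Finset.induction_on with
  | empty => simpa using PosI.const (ι := ι) zero_le_one
  | insert x T hx ih => simpa [Finset.prod_insert hx] using (PosI.spin x).mul ih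

theorem posI_wall (S : Finset ι) :
    (PosI fun e : Isg ι => ∏ x ∈ S, (1 + sgn (e x)) + ∏ x ∈ S, (1 - sgn (e x))) ∧
      PosI fun e : Isg ι => ∏ x ∈ S, (1 + sgn (e x)) - ∏ x ∈ S, (1 - sgn (e x)) := by
  classical
  induction S using Finset.induction_on with
  | empty =>
    refine ⟨?_, ?_⟩
    · simpa using PosI.const (ι := ι) (c := 1 + 1) (by norm_num)
    · simpa using PosI.const (ι := ι) le_rfl
  | insert x S hx ih =>
    refine ⟨?_, ?_⟩
    · convert ih.1.add ((PosI.spin x).mul ih.2) using 2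
      rw [Finset.prod_insert hx, Finset.prod_insert hx]
      ring
    · convert ih.2.add ((PosI.spin x).mul ih.1) using 2
      rw [Finset.prod_insert hx, Finset.prod_insert hx]
      ring

variable [Fintype ι] [Fintype ε] (s t : ε → ι)

/-- Ising couplings at heights `b`. -/
def KI (J : ε → ℝ) (b : ι → unitInterval) (a : ε) : ℝ := J a * ((b (s a) : ℝ) * b (t a))

/-- Ising fields at heights `b`. -/
def HI (h : ι → ℝ) (b : ι → unitInterval) (v : ι) : ℝ := h v * b v

/-- Rotor couplings at heights `b`. -/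
noncomputable def KX (J : ε → ℝ) (b : ι → unitInterval) (a : ε) : ℝ :=
  J a * (rad (b (s a)) * rad (b (t a)))

/-- Conditional Ising integral. -/
noncomputable def II (J : ε → ℝ) (h : ι → ℝ) (f : Isg ι → ℝ) (b : ι → unitInterval) : ℝ :=
  ∫ e, f e * Real.exp (Uis s t (KI s t J b) (HI h b) e) ∂μI ι

/-- Conditional rotor integral. -/
noncomputable def XX (J : ε → ℝ) (g : Ang ι → ℝ) (b : ι → unitInterval) : ℝ :=
  ∫ θ, g θ * Real.exp (Uxy s t (KX s t J b) θ) ∂μA ι

theorem continuous_II (J : ε → ℝ) (h : ι → ℝ) {f : Isg ι → ℝ} (hf : Continuous f) :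
    Continuous (II s t J h f) := by
  refine cont_integral (f := fun b e => f e * Real.exp (Uis s t (KI s t J b) (HI h b) e)) ?_
  unfold Uis KI HI
  fun_prop

theorem continuous_XX (J : ε → ℝ) {g : Ang ι → ℝ} (hg : Continuous g) :
    Continuous (XX s t J g) := by
  refine cont_integral (f := fun b θ => g θ * Real.exp (Uxy s t (KX s t J b) θ)) ?_
  unfold Uxy KX
  fun_prop

variable {J : ε → ℝ} {h : ι → ℝ}

theorem II_nonneg (hJ : ∀ e, 0 ≤ J e) (hh : ∀ v, 0 ≤ h v) {f : Isg ι → ℝ} (hf : PosI f)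
    (b : ι → unitInterval) : 0 ≤ II s t J h f b :=
  ising_nonneg s t (fun a => mul_nonneg (hJ a) (mul_nonneg (b _).2.1 (b _).2.1))
    (fun v => mul_nonneg (hh v) (b v).2.1) hf

theorem XX_nonneg (hJ : ∀ e, 0 ≤ J e) {g : Ang ι → ℝ} (hg : PosA g)
    (b : ι → unitInterval) : 0 ≤ XX s t J g b :=
  xy_nonneg s t (fun a => mul_nonneg (hJ a) (mul_nonneg (rad_nonneg _) (rad_nonneg _))) hg

theorem II_lattice (hJ : ∀ e, 0 ≤ J e) (hh : ∀ v, 0 ≤ h v) {f g : Isg ι → ℝ} (hf : PosI f)
    (hg : PosI g) (b c : ι → unitInterval) :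
    II s t J h f b * II s t J h g c ≤
      II s t J h (fun _ => 1) (b ⊓ c) * II s t J h (fun e => f e * g e) (b ⊔ c) := by
  unfold II
  simp only [one_mul]
  refine ising_lattice s t (fun a => mul_nonneg (hJ a) (mul_nonneg ((b ⊓ c) _).2.1 ((b ⊓ c) _).2.1))
    (fun a => ?_) (fun a => ?_) (fun a => ?_) (fun v => mul_nonneg (hh v) ((b ⊓ c) v).2.1)
    (fun v => ?_) (fun v => ?_) (fun v => ?_) hf hg
  · exact mul_le_mul_of_nonneg_left (mul_le_mul (coe_mono inf_le_left) (coe_mono inf_le_left)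
      ((b ⊓ c) _).2.1 (b _).2.1) (hJ a)
  · exact mul_le_mul_of_nonneg_left (mul_le_mul (coe_mono inf_le_right) (coe_mono inf_le_right)
      ((b ⊓ c) _).2.1 (c _).2.1) (hJ a)
  · unfold KI
    rw [← mul_add, ← mul_add]
    exact mul_le_mul_of_nonneg_left (supermod coe_mono _ _ _ _) (hJ a)
  · exact mul_le_mul_of_nonneg_left (coe_mono inf_le_left) (hh v)
  · exact mul_le_mul_of_nonneg_left (coe_mono inf_le_right) (hh v)
  · unfold HI
    rw [← mul_add, ← mul_add, modular]
    rfl

theorem XX_lattice (hJ : ∀ e, 0 ≤ J e) {f g : Ang ι → ℝ} (hf : PosA f)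
    (hg : PosA g) (b c : ι → unitInterval) :
    XX s t J f b * XX s t J g c ≤
      XX s t J (fun _ => 1) (b ⊔ c) * XX s t J (fun e => f e * g e) (b ⊓ c) := by
  unfold XX
  simp only [one_mul]
  refine xy_lattice s t (fun a => mul_nonneg (hJ a) (mul_nonneg (rad_nonneg _) (rad_nonneg _)))
    (fun a => ?_) (fun a => ?_) (fun a => ?_) hf hg
  · exact mul_le_mul_of_nonneg_left (mul_le_mul (rad_anti le_sup_left) (rad_anti le_sup_left)
      (rad_nonneg _) (rad_nonneg _)) (hJ a)
  · exact mul_le_mul_of_nonneg_left (mul_le_mul (rad_anti le_sup_right) (rad_anti le_sup_right)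
      (rad_nonneg _) (rad_nonneg _)) (hJ a)
  · unfold KX
    rw [← mul_add, ← mul_add]
    exact mul_le_mul_of_nonneg_left (supermod_rad _ _ _ _) (hJ a)

/-- The configuration with given cylindrical coordinates. -/
noncomputable def cfg (b : ι → unitInterval) (e : Isg ι) (θ : Ang ι) : Cfg ι :=
  fun v => par 1 (b v) (e v) (θ v)

omit [Fintype ι] in
theorem crd_cfg_0 (b : ι → unitInterval) (e : Isg ι) (θ : Ang ι) (v : ι) :
    crd (cfg b e θ) v 0 = rad (b v) * (θ v).cos := par_0 1 _ _ _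

omit [Fintype ι] in
theorem crd_cfg_1 (b : ι → unitInterval) (e : Isg ι) (θ : Ang ι) (v : ι) :
    crd (cfg b e θ) v 1 = rad (b v) * (θ v).sin := par_1 1 _ _ _

omit [Fintype ι] in
theorem crd_cfg_2 (b : ι → unitInterval) (e : Isg ι) (θ : Ang ι) (v : ι) :
    crd (cfg b e θ) v 2 = sgn (e v) * b v := par_2 1 _ _ _

theorem ham_cfg (J : ε → ℝ) (h : ι → ℝ) (b : ι → unitInterval) (e : Isg ι) (θ : Ang ι) :
    ham s t J h (cfg b e θ) = Uis s t (KI s t J b) (HI h b) e + Uxy s t (KX s t J b) θ := by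
  unfold ham Uis Uxy KI HI KX
  rw [add_right_comm, ← Finset.sum_add_distrib]
  congr 1
  · refine Finset.sum_congr rfl fun a _ => ?_
    simp only [Fin.sum_univ_three, crd_cfg_0, crd_cfg_1, crd_cfg_2, angle_cos_sub]
    ring
  · refine Finset.sum_congr rfl fun v _ => ?_
    rw [crd_cfg_2]
    ring

/-- The representation of Gibbs integrals in cylindrical coordinates. -/
theorem exists_wI_rep : ∃ ν : Measure unitInterval, ∃ _ : IsProbabilityMeasure ν,
    ∀ (J : ε → ℝ) (h : ι → ℝ) (F : Cfg ι → ℝ) (p : (ι → unitInterval) → ℝ) (f : Isg ι → ℝ)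
      (g : Ang ι → ℝ), Continuous F → (∀ b e θ, F (cfg b e θ) = p b * f e * g θ) →
      wI s t J h F = ∫ b, p b * II s t J h f b * XX s t J g b ∂(Measure.pi fun _ => ν) := by
  obtain ⟨ν, hν, H⟩ := exists_rep 1
  refine ⟨ν, hν, fun J h F p f g hF hp => ?_⟩
  unfold wI
  rw [H ι (fun σ => F σ * Real.exp (ham s t J h σ)) (by fun_prop)]
  refine integral_congr_ae (Filter.Eventually.of_forall fun b => ?_)
  have e1 : ∀ (e : Isg ι) (θ : Ang ι), F (cfg b e θ) * Real.exp (ham s t J h (cfg b e θ)) =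
      (p b * (f e * Real.exp (Uis s t (KI s t J b) (HI h b) e))) *
        (g θ * Real.exp (Uxy s t (KX s t J b) θ)) := by
    intro e θ
    rw [hp, ham_cfg, Real.exp_add]
    ring
  show ∫ e, ∫ θ, F (cfg b e θ) * Real.exp (ham s t J h (cfg b e θ)) ∂μA ι ∂μI ι = _
  simp only [e1, integral_const_mul, integral_mul_const]
  rfl

section wiring
variable [DecidableEq ι]

/-- Couplings after removing the vertices of `S`. -/
def Jw (J : ε → ℝ) (S : Finset ι) (a : ε) : ℝ := if s a ∈ S ∨ t a ∈ S then 0 else J a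

/-- Field created by the frozen vertices of `S`. -/
def hw (J : ε → ℝ) (S : Finset ι) (v : ι) : ℝ :=
  ∑ a, ((if s a = v ∧ v ∉ S ∧ t a ∈ S then J a else 0) +
    (if t a = v ∧ v ∉ S ∧ s a ∈ S then J a else 0))

/-- Energy of the edges inside `S`. -/
def Cw (J : ε → ℝ) (S : Finset ι) : ℝ := ∑ a, if s a ∈ S ∧ t a ∈ S then J a else 0

omit [Fintype ι] in
theorem hw_of_mem (J : ε → ℝ) {S : Finset ι} {v : ι} (hv : v ∈ S) : hw s t J S v = 0 := by
  simp [hw, hv]

omit [Fintype ι] [Fintype ε] in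
theorem KX_frozen (J : ε → ℝ) (S : Finset ι) (c : ι → unitInterval) :
    KX s t J (S.piecewise 1 c) = KX s t (Jw s t J S) c := by
  funext a
  unfold KX Jw
  by_cases h1 : s a ∈ S <;> by_cases h2 : t a ∈ S <;> simp [h1, h2]

theorem Uis_frozen (J : ε → ℝ) {h : ι → ℝ} {S : Finset ι} (hS : ∀ v ∈ S, h v = 0) {τ : ℝ}
    (hτ : τ * τ = 1) (c : ι → unitInterval) (e : Isg ι) (he : ∀ v ∈ S, sgn (e v) = τ) :
    Uis s t (KI s t J (S.piecewise 1 c)) (HI h (S.piecewise 1 c)) e =
      Cw s t J S + Uis s t (KI s t (Jw s t J S) c) (HI (h + τ • hw s t J S) c) e := by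
  have e1 : ∑ v, HI h (S.piecewise 1 c) v * sgn (e v) = ∑ v, HI h c v * sgn (e v) := by
    refine Finset.sum_congr rfl fun v _ => ?_
    unfold HI
    by_cases hv : v ∈ S
    · simp [hS v hv]
    · simp [hv]
  have e2 : ∑ v, HI (h + τ • hw s t J S) c v * sgn (e v) = ∑ v, HI h c v * sgn (e v) +
      ∑ a, ((if s a ∉ S ∧ t a ∈ S then τ * J a * c (s a) * sgn (e (s a)) else 0) +
        (if t a ∉ S ∧ s a ∈ S then τ * J a * c (t a) * sgn (e (t a)) else 0)) := by
    have e3 : ∀ v, HI (h + τ • hw s t J S) c v * sgn (e v) = HI h c v * sgn (e v) +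
        ∑ a, ((if s a = v then
            (if s a ∉ S ∧ t a ∈ S then τ * J a * c (s a) * sgn (e (s a)) else 0) else 0) +
          (if t a = v then
            (if t a ∉ S ∧ s a ∈ S then τ * J a * c (t a) * sgn (e (t a)) else 0) else 0)) := by
      intro v
      simp only [HI, hw, Pi.add_apply, Pi.smul_apply, smul_eq_mul, add_mul, Finset.mul_sum,
        Finset.sum_mul, mul_add]
      congr 1
      refine Finset.sum_congr rfl fun a _ => ?_
      congr 1
      · by_cases h1 : s a = v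
        · subst h1
          by_cases h2 : s a ∉ S ∧ t a ∈ S <;> simp [h2]
        · simp [h1]
      · by_cases h1 : t a = v
        · subst h1
          by_cases h2 : t a ∉ S ∧ s a ∈ S <;> simp [h2]
        · simp [h1]
    rw [Finset.sum_congr rfl fun v _ => e3 v, Finset.sum_add_distrib, Finset.sum_comm]
    congr 1
    refine Finset.sum_congr rfl fun a _ => ?_
    rw [Finset.sum_add_distrib, Finset.sum_ite_eq, Finset.sum_ite_eq]
    simp
  unfold Uis
  rw [e1, e2, Cw, add_comm (∑ v, HI h c v * sgn (e v)), ← add_assoc, ← add_assoc,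
    ← Finset.sum_add_distrib, ← Finset.sum_add_distrib]
  congr 1
  refine Finset.sum_congr rfl fun a _ => ?_
  unfold KI Jw
  by_cases h1 : s a ∈ S <;> by_cases h2 : t a ∈ S
  · simp [h1, h2, he, hτ]
  · simp [h1, h2, he]
    ring
  · simp [h1, h2, he]
    ring
  · simp [h1, h2]

theorem integral_sgn : ∫ e, sgn e ∂hm (ZMod 2) = 0 := by
  have h1 := integral_add_left_eq_self (μ := hm (ZMod 2)) sgn 1
  simp only [sgn_add, sgn_one, neg_one_mul, integral_neg] at h1
  linarith

omit [Fintype ε] in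
theorem integral_wall (S : Finset ι) (τ : ℝ) :
    ∫ e, ∏ x ∈ S, (1 + τ * sgn (e x)) ∂μI ι = 1 := by
  have e1 : ∀ e : Isg ι, ∏ x ∈ S, (1 + τ * sgn (e x)) =
      ∏ x, (fun (x : ι) (z : ZMod 2) => if x ∈ S then 1 + τ * sgn z else 1) x (e x) := by
    intro e
    simp [Finset.prod_ite_mem]
  simp only [e1]
  rw [integral_fintype_prod_eq_prod
    (fun (x : ι) (z : ZMod 2) => if x ∈ S then 1 + τ * sgn z else 1)]
  refine Finset.prod_eq_one fun x _ => ?_
  by_cases hx : x ∈ S
  · simp only [hx, if_true]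
    rw [integral_add (integrable_const _) (cint (by fun_prop)), integral_const_mul, integral_sgn]
    simp
  · simp [hx]

theorem II_frozen (J : ε → ℝ) {h : ι → ℝ} {S : Finset ι} (hS : ∀ v ∈ S, h v = 0) {τ : ℝ}
    (hτ : τ * τ = 1) (c : ι → unitInterval) {G G' : Isg ι → ℝ}
    (hG' : ∀ a b, G' (S.piecewise a b) = G' b)
    (hG : ∀ e, (∀ v ∈ S, sgn (e v) = τ) → G e = G' e) :
    II s t J h (fun e => G e * ∏ x ∈ S, (1 + τ * sgn (e x))) (S.piecewise 1 c) =
      Real.exp (Cw s t J S) * II s t (Jw s t J S) (h + τ • hw s t J S) G' c := by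
  unfold II
  have e1 : ∀ e : Isg ι, (G e * ∏ x ∈ S, (1 + τ * sgn (e x))) *
      Real.exp (Uis s t (KI s t J (S.piecewise 1 c)) (HI h (S.piecewise 1 c)) e) =
      Real.exp (Cw s t J S) * ((∏ x ∈ S, (1 + τ * sgn (e x))) * (G' e *
        Real.exp (Uis s t (KI s t (Jw s t J S) c) (HI (h + τ • hw s t J S) c) e))) := by
    intro e
    by_cases he : ∀ v ∈ S, sgn (e v) = τ
    · rw [Uis_frozen s t J hS hτ c e he, Real.exp_add, hG e he]
      ring
    · push Not at he
      obtain ⟨v, hv, hne⟩ := he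
      have h0 : 1 + τ * sgn (e v) = 0 := by
        have h1 := sgn_mul_self (e v)
        have h2 : (sgn (e v) - τ) * (1 + τ * sgn (e v)) = 0 := by
          linear_combination τ * h1 - sgn (e v) * hτ
        exact (mul_eq_zero.1 h2).resolve_left (sub_ne_zero.2 hne)
      rw [Finset.prod_eq_zero hv h0]
      simp
  simp only [e1]
  rw [integral_const_mul, indep_mul (hm (ZMod 2)) S continuous_of_discreteTopology
    continuous_of_discreteTopology, integral_wall, one_mul]
  · intro a b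
    exact Finset.prod_congr rfl fun x hx => by rw [Finset.piecewise_eq_of_mem _ _ _ hx]
  · intro a b
    rw [hG']
    congr 2
    unfold Uis
    congr 1
    · refine Finset.sum_congr rfl fun e _ => ?_
      unfold KI Jw
      by_cases h1 : s e ∈ S <;> by_cases h2 : t e ∈ S <;> simp [h1, h2]
    · refine Finset.sum_congr rfl fun v _ => ?_
      unfold HI
      by_cases hv : v ∈ S
      · simp [hS v hv, hw_of_mem s t J hv]
      · simp [hv]

omit [DecidableEq ι] in
theorem II_add (J : ε → ℝ) (h : ι → ℝ) (f g : Isg ι → ℝ) (b : ι → unitInterval) :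
    II s t J h (fun e => f e + g e) b = II s t J h f b + II s t J h g b := by
  unfold II
  simp only [add_mul]
  exact integral_add (cint continuous_of_discreteTopology) (cint continuous_of_discreteTopology)

omit [DecidableEq ι] in
theorem II_const_mul (J : ε → ℝ) (h : ι → ℝ) (r : ℝ) (f : Isg ι → ℝ) (b : ι → unitInterval) :
    II s t J h (fun e => r * f e) b = r * II s t J h f b := by
  unfold II
  simp only [mul_assoc]
  exact integral_const_mul _ _

end wiring

end FKGAux

open FKGAux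

variable {ι ε : Type} [Fintype ι] [Fintype ε] (s t : ε → ι) {J : ε → ℝ}

theorem G2_nonneg (hJ : ∀ e, 0 ≤ J e) (x y : ι) : 0 ≤ G2 s t J x y := by
  obtain ⟨ν, hν, H⟩ := exists_wI_rep s t
  refine div_nonneg ?_ (Zf_pos s t J 0).le
  rw [H J 0 _ (fun b => (b x : ℝ) * b y) (fun e => sgn (e x) * sgn (e y)) (fun _ => 1)
    (by fun_prop) (fun b e θ => by simp only [crd_cfg_2]; ring)]
  exact integral_nonneg fun b => mul_nonneg (mul_nonneg (mul_nonneg (b x).2.1 (b y).2.1)
    (II_nonneg s t hJ (fun _ => le_rfl) ((PosI.spin x).mul (PosI.spin y)) b))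
    (XX_nonneg s t hJ (PosA.const zero_le_one) b)

theorem four_nonneg (hJ : ∀ e, 0 ≤ J e) (x u v y : ι) :
    0 ≤ Ex s t J 0 fun σ => crd σ x 2 * crd σ u 2 * (crd σ v 0 * crd σ y 0) := by
  obtain ⟨ν, hν, H⟩ := exists_wI_rep s t
  refine div_nonneg ?_ (Zf_pos s t J 0).le
  rw [H J 0 _ (fun b => (b x : ℝ) * b u * (rad (b v) * rad (b y)))
    (fun e => sgn (e x) * sgn (e u)) (fun θ => (θ v).cos * (θ y).cos)
    (by fun_prop) (fun b e θ => by simp only [crd_cfg_2, crd_cfg_0]; ring)]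
  exact integral_nonneg fun b => mul_nonneg (mul_nonneg
    (mul_nonneg (mul_nonneg (b x).2.1 (b u).2.1) (mul_nonneg (rad_nonneg _) (rad_nonneg _)))
    (II_nonneg s t hJ (fun _ => le_rfl) ((PosI.spin x).mul (PosI.spin u)) b))
    (XX_nonneg s t hJ ((PosA.cos v).mul (PosA.cos y)) b)

theorem neg_corr (hJ : ∀ e, 0 ≤ J e) (x u v y : ι) :
    (Ex s t J 0 fun σ => crd σ x 2 * crd σ u 2 * (crd σ v 0 * crd σ y 0)) ≤
      (Ex s t J 0 fun σ => crd σ x 2 * crd σ u 2) * Ex s t J 0 fun σ => crd σ v 0 * crd σ y 0 := by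
  obtain ⟨ν, hν, H⟩ := exists_wI_rep s t
  have hZ := Zf_pos s t J 0
  have h0 : ∀ v : ι, 0 ≤ (0 : ι → ℝ) v := fun _ => le_rfl
  have pf : PosI fun e : Isg ι => sgn (e x) * sgn (e u) := (PosI.spin x).mul (PosI.spin u)
  have pg : PosA fun θ : Ang ι => (θ v).cos * (θ y).cos := (PosA.cos v).mul (PosA.cos y)
  have p1 : PosI fun _ : Isg ι => (1 : ℝ) := PosI.const zero_le_one
  have q1 : PosA fun _ : Ang ι => (1 : ℝ) := PosA.const zero_le_one
  have cf := continuous_II s t J 0 pf.continuous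
  have cg := continuous_XX s t J pg.continuous
  have c1 := continuous_II s t J 0 p1.continuous
  have d1 := continuous_XX s t J q1.continuous
  have key : (wI s t J 0 fun σ => crd σ x 2 * crd σ u 2 * (crd σ v 0 * crd σ y 0)) * Zf s t J 0 ≤
      (wI s t J 0 fun σ => crd σ v 0 * crd σ y 0) * wI s t J 0 fun σ => crd σ x 2 * crd σ u 2 := by
    rw [← wI_one, H J 0 _ (fun b => (b x : ℝ) * b u * (rad (b v) * rad (b y)))
      (fun e => sgn (e x) * sgn (e u)) (fun θ => (θ v).cos * (θ y).cos)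
      (by fun_prop) (fun b e θ => by simp only [crd_cfg_2, crd_cfg_0]; ring),
      H J 0 (fun _ => 1) (fun _ => 1) (fun _ => 1) (fun _ => 1) continuous_const
        (fun b e θ => by ring),
      H J 0 (fun σ => crd σ v 0 * crd σ y 0) (fun b => rad (b v) * rad (b y)) (fun _ => 1)
        (fun θ => (θ v).cos * (θ y).cos) (by fun_prop)
        (fun b e θ => by simp only [crd_cfg_0]; ring),
      H J 0 (fun σ => crd σ x 2 * crd σ u 2) (fun b => (b x : ℝ) * b u)
        (fun e => sgn (e x) * sgn (e u)) (fun _ => 1)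
        (by fun_prop) (fun b e θ => by simp only [crd_cfg_2]; ring)]
    have n1 : ∀ b : ι → unitInterval, 0 ≤ (b x : ℝ) * b u := fun b => mul_nonneg (b x).2.1 (b u).2.1
    have n2 : ∀ b : ι → unitInterval, 0 ≤ rad (b v) * rad (b y) :=
      fun b => mul_nonneg (rad_nonneg _) (rad_nonneg _)
    have nf := II_nonneg s t hJ h0 pf
    have ng := XX_nonneg s t hJ pg
    have n3 := II_nonneg s t hJ h0 p1
    have n4 := XX_nonneg s t hJ q1
    refine four_functions ν (by fun_prop) (by fun_prop) (by fun_prop) (by fun_prop)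
      (fun b => mul_nonneg (mul_nonneg (mul_nonneg (n1 b) (n2 b)) (nf b)) (ng b))
      (fun b => mul_nonneg (mul_nonneg zero_le_one (n3 b)) (n4 b))
      (fun b => mul_nonneg (mul_nonneg (n2 b) (n3 b)) (ng b))
      (fun b => mul_nonneg (mul_nonneg (n1 b) (nf b)) (n4 b)) fun b c => ?_
    have i1 := II_lattice s t hJ h0 pf p1 b c
    have i2 := XX_lattice s t hJ pg q1 b c
    simp only [mul_one] at i1 i2
    have i3 : (b x : ℝ) * b u ≤ ((b ⊔ c) x : ℝ) * (b ⊔ c) u :=
      mul_le_mul (coe_mono le_sup_left) (coe_mono le_sup_left) (b u).2.1 ((b ⊔ c) x).2.1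
    have i4 : rad (b v) * rad (b y) ≤ rad ((b ⊓ c) v) * rad ((b ⊓ c) y) :=
      mul_le_mul (rad_anti inf_le_left) (rad_anti inf_le_left) (rad_nonneg _) (rad_nonneg _)
    have i5 := mul_le_mul (mul_le_mul i3 i4 (n2 b) (n1 _))
      (mul_le_mul i1 i2 (mul_nonneg (ng b) (n4 c)) (mul_nonneg (n3 _) (nf _)))
      (mul_nonneg (mul_nonneg (nf b) (n3 c)) (mul_nonneg (ng b) (n4 c)))
      (mul_nonneg (n1 _) (n2 _))
    refine le_of_eq_of_le ?_ (i5.trans_eq ?_) <;> ring
  unfold Ex
  rw [div_mul_div_comm, div_le_div_iff₀ hZ (mul_pos hZ hZ), ← mul_assoc]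
  refine mul_le_mul_of_nonneg_right (key.trans_eq (mul_comm _ _)) hZ.le

/-- Freezing all spins of `S` to a common value `±e₃` increases the correlations of the last
coordinate. -/
theorem wiring (hJ : ∀ e, 0 ≤ J e) {h : ι → ℝ} (hh : ∀ v, 0 ≤ h v) (S : Finset ι)
    (hS : ∀ v ∈ S, h v = 0) :
    ∃ (J' : ε → ℝ) (h' : ι → ℝ), (∀ e, 0 ≤ J' e ∧ J' e ≤ J e) ∧
      (∀ e, J' e ≠ 0 → s e ∉ S ∧ t e ∉ S) ∧ (∀ v, 0 ≤ h' v) ∧
      (∀ v, h' v ≠ 0 → v ∉ S ∧ ∃ e, (s e = v ∧ t e ∈ S) ∨ (t e = v ∧ s e ∈ S)) ∧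
      ∀ T ⊆ S, ∀ y ∉ S,
        Ex s t J h (fun σ => crd σ y 2 * ∏ x ∈ T, crd σ x 2) *
            (Zf s t J' (h + h') + Zf s t J' (h - h')) ≤
          wI s t J' (h + h') (fun σ => crd σ y 2) +
            (-1) ^ T.card * wI s t J' (h - h') fun σ => crd σ y 2 := by
  classical
  refine ⟨Jw s t J S, hw s t J S, fun e => ?_, fun e he => ?_, fun v => ?_, fun v hv => ?_,
    fun T hT y hy => ?_⟩
  · unfold Jw
    split_ifs
    · exact ⟨le_rfl, hJ e⟩
    · exact ⟨hJ e, le_rfl⟩
  · unfold Jw at he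
    split_ifs at he with h1
    · exact absurd rfl he
    · exact not_or.1 h1
  · refine Finset.sum_nonneg fun a _ => add_nonneg ?_ ?_ <;> split_ifs <;> simp [hJ a]
  · obtain ⟨a, -, ha⟩ := Finset.exists_ne_zero_of_sum_ne_zero hv
    by_cases h1 : s a = v ∧ v ∉ S ∧ t a ∈ S
    · exact ⟨h1.2.1, a, Or.inl ⟨h1.1, h1.2.2⟩⟩
    · by_cases h2 : t a = v ∧ v ∉ S ∧ s a ∈ S
      · exact ⟨h2.2.1, a, Or.inr ⟨h2.1, h2.2.2⟩⟩
      · simp [h1, h2] at ha
  obtain ⟨ν, hν, H⟩ := exists_wI_rep s t
  have hZ := Zf_pos s t J h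
  set J' := Jw s t J S with hJ'
  set h' := hw s t J S with hh'
  set f : Isg ι → ℝ := fun e => sgn (e y) * ∏ x ∈ T, sgn (e x) with hf
  set w : Isg ι → ℝ := fun e => ∏ x ∈ S, (1 + sgn (e x)) + ∏ x ∈ S, (1 - sgn (e x)) with hw'
  have pf : PosI f := (PosI.spin y).mul (PosI.prod_spin T)
  have pw : PosI w := (posI_wall S).1
  have pfw : PosI fun e => f e * w e := pf.mul pw
  have p1 : PosI fun _ : Isg ι => (1 : ℝ) := PosI.const zero_le_one
  have q1 : PosA fun _ : Ang ι => (1 : ℝ) := PosA.const zero_le_one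
  have cf := continuous_II s t J h pf.continuous
  have cw := continuous_II s t J h pw.continuous
  have cfw := continuous_II s t J h pfw.continuous
  have c1 := continuous_II s t J h p1.continuous
  have d1 := continuous_XX s t J q1.continuous
  have nf := II_nonneg s t hJ hh pf
  have nw := II_nonneg s t hJ hh pw
  have nfw := II_nonneg s t hJ hh pfw
  have n1 := II_nonneg s t hJ hh p1
  have m1 := XX_nonneg s t hJ q1
  have n2 : ∀ b : ι → unitInterval, 0 ≤ ∏ x ∈ T, (b x : ℝ) :=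
    fun b => Finset.prod_nonneg fun x _ => (b x).2.1
  have n3 : ∀ b : ι → unitInterval, ∏ x ∈ T, (b x : ℝ) ≤ 1 :=
    fun b => Finset.prod_le_one (fun x _ => (b x).2.1) fun x _ => (b x).2.2
  have key := four_functions_top ν S
    (f₁ := fun b => ((b y : ℝ) * ∏ x ∈ T, (b x : ℝ)) * II s t J h f b * XX s t J (fun _ => 1) b)
    (f₂ := fun b => II s t J h w b * XX s t J (fun _ => 1) b)
    (f₃ := fun b => 1 * II s t J h (fun _ => 1) b * XX s t J (fun _ => 1) b)
    (f₄ := fun b => (b y : ℝ) * II s t J h (fun e => f e * w e) b * XX s t J (fun _ => 1) b)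
    (by fun_prop) (by fun_prop) (by fun_prop) (by fun_prop)
    (fun b => mul_nonneg (mul_nonneg (mul_nonneg (b y).2.1 (n2 b)) (nf b)) (m1 b))
    (fun b => mul_nonneg (nw b) (m1 b))
    (fun b => mul_nonneg (mul_nonneg zero_le_one (n1 b)) (m1 b))
    (fun b => mul_nonneg (mul_nonneg (b y).2.1 (nfw b)) (m1 b)) (fun b c => by
      have i1 := II_lattice s t hJ hh pf pw b c
      have i2 := XX_lattice s t hJ q1 q1 b c
      simp only [mul_one] at i2
      have i3 : (b y : ℝ) * ∏ x ∈ T, (b x : ℝ) ≤ ((b ⊔ c) y : ℝ) :=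
        (mul_le_of_le_one_right (b y).2.1 (n3 b)).trans (coe_mono le_sup_left)
      have i5 := mul_le_mul i3
        (mul_le_mul i1 i2 (mul_nonneg (m1 b) (m1 c)) (mul_nonneg (n1 _) (nfw _)))
        (mul_nonneg (mul_nonneg (nf b) (nw c)) (mul_nonneg (m1 b) (m1 c))) ((b ⊔ c) y).2.1
      refine le_of_eq_of_le ?_ (i5.trans_eq ?_) <;> ring)
  rw [← H J h (fun σ => crd σ y 2 * ∏ x ∈ T, crd σ x 2) _ f (fun _ => 1) (by fun_prop)
      (fun b e θ => by simp only [crd_cfg_2, Finset.prod_mul_distrib, hf]; ring),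
    ← H J h (fun _ => 1) (fun _ => 1) (fun _ => 1) (fun _ => 1) continuous_const
      (fun b e θ => by ring), wI_one] at key
  have hp : h + (1 : ℝ) • h' = h + h' := by rw [one_smul]
  have hn : h + (-1 : ℝ) • h' = h - h' := by rw [neg_smul, one_smul, sub_eq_add_neg]
  have hX : ∀ c : ι → unitInterval,
      XX s t J (fun _ => 1) (S.piecewise 1 c) = XX s t J' (fun _ => 1) c := by
    intro c
    unfold XX
    rw [KX_frozen]
  have e2 : ∀ c : ι → unitInterval, II s t J h w (S.piecewise 1 c) = Real.exp (Cw s t J S) *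
      (II s t J' (h + h') (fun _ => 1) c + II s t J' (h - h') (fun _ => 1) c) := by
    intro c
    have a1 := II_frozen s t J hS (τ := 1) (by norm_num) c (G := fun _ => 1) (G' := fun _ => 1)
      (fun _ _ => rfl) (fun _ _ => rfl)
    have a2 := II_frozen s t J hS (τ := -1) (by norm_num) c (G := fun _ => 1) (G' := fun _ => 1)
      (fun _ _ => rfl) (fun _ _ => rfl)
    rw [hp] at a1
    rw [hn] at a2
    rw [mul_add, ← a1, ← a2, ← II_add]
    congr 1
    funext e
    simp [hw', sub_eq_add_neg]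
  have e4 : ∀ c : ι → unitInterval, II s t J h (fun e => f e * w e) (S.piecewise 1 c) =
      Real.exp (Cw s t J S) * (II s t J' (h + h') (fun e => sgn (e y)) c +
        (-1) ^ T.card * II s t J' (h - h') (fun e => sgn (e y)) c) := by
    intro c
    have a0 : ∀ τ : ℝ, τ * τ = 1 →
        II s t J h (fun e => f e * ∏ x ∈ S, (1 + τ * sgn (e x))) (S.piecewise 1 c) =
        Real.exp (Cw s t J S) * (τ ^ T.card * II s t J' (h + τ • h') (fun e => sgn (e y)) c) := by
      intro τ hτ
      rw [← II_const_mul]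
      refine II_frozen s t J hS hτ c (fun a b => ?_) fun e he => ?_
      · rw [Finset.piecewise_eq_of_notMem _ _ _ hy]
      · simp only [hf]
        rw [Finset.prod_congr rfl fun x hx => he x (hT hx), Finset.prod_const, mul_comm]
    have a1 := a0 1 (by norm_num)
    have a2 := a0 (-1) (by norm_num)
    rw [hp, one_pow, one_mul] at a1
    rw [hn] at a2
    rw [mul_add, ← a1, ← a2, ← II_add]
    congr 1
    funext e
    simp [hw', sub_eq_add_neg, mul_add]
  have cI : ∀ (k : ι → ℝ) (g : Isg ι → ℝ), Continuous (II s t J' k g) :=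
    fun k g => continuous_II s t J' k continuous_of_discreteTopology
  have cX := continuous_XX s t J' q1.continuous
  have r1 : ∀ k : ι → ℝ, Zf s t J' k =
      ∫ b, II s t J' k (fun _ => 1) b * XX s t J' (fun _ => 1) b ∂(Measure.pi fun _ => ν) := by
    intro k
    rw [← wI_one, H J' k (fun _ => 1) (fun _ => 1) (fun _ => 1) (fun _ => 1) continuous_const
      (fun b e θ => by ring)]
    simp only [one_mul]
  have r2 : ∀ k : ι → ℝ, wI s t J' k (fun σ => crd σ y 2) =
      ∫ b, (b y : ℝ) * II s t J' k (fun e => sgn (e y)) b * XX s t J' (fun _ => 1) b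
        ∂(Measure.pi fun _ => ν) := by
    intro k
    exact H J' k _ (fun b => (b y : ℝ)) _ _ (by fun_prop)
      (fun b e θ => by simp only [crd_cfg_2]; ring)
  have s2 : ∫ b, II s t J h w (S.piecewise 1 b) * XX s t J (fun _ => 1) (S.piecewise 1 b)
      ∂(Measure.pi fun _ => ν) =
      Real.exp (Cw s t J S) * (Zf s t J' (h + h') + Zf s t J' (h - h')) := by
    have k1 := cI (h + h') fun _ => 1
    have k2 := cI (h - h') fun _ => 1
    rw [r1, r1, ← integral_add (cint (by fun_prop)) (cint (by fun_prop)),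
      ← integral_const_mul]
    refine integral_congr_ae (Filter.Eventually.of_forall fun b => ?_)
    simp only [e2, hX]
    ring
  have s4 : ∫ b, ((S.piecewise 1 b y : unitInterval) : ℝ) *
      II s t J h (fun e => f e * w e) (S.piecewise 1 b) * XX s t J (fun _ => 1) (S.piecewise 1 b)
      ∂(Measure.pi fun _ => ν) =
      Real.exp (Cw s t J S) * (wI s t J' (h + h') (fun σ => crd σ y 2) +
        (-1) ^ T.card * wI s t J' (h - h') fun σ => crd σ y 2) := by
    have k1 := cI (h + h') fun e => sgn (e y)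
    have k2 := cI (h - h') fun e => sgn (e y)
    rw [r2, r2, ← integral_const_mul, ← integral_add (cint (by fun_prop)) (cint (by fun_prop)),
      ← integral_const_mul]
    refine integral_congr_ae (Filter.Eventually.of_forall fun b => ?_)
    simp only [e4, hX, Finset.piecewise_eq_of_notMem _ _ _ hy]
    ring
  rw [s2, s4] at key
  unfold Ex
  rw [div_mul_eq_mul_div, div_le_iff₀ hZ]
  refine le_of_mul_le_mul_left ?_ (Real.exp_pos (Cw s t J S))
  refine le_of_eq_of_le ?_ (key.trans_eq ?_) <;> ring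

end Crest.Agent.R167
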