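import Crest.Agent.R167.Sphere

/-!
Row 167: reduction of the `O(n)` model to the `O(3)` model with random couplings.
-/

set_option autoImplicit false
open MeasureTheory
open Crest.ProbabilityR.SpinModel

namespace Crest.Agent.R167

/-- The lattice edges inside `V`. -/
abbrev Edge (V : Finset (ℤ × ℤ)) : Type := {p : V × Fin 2 // (p.1 : ℤ × ℤ) + latticeDir p.2 ∈ V}

/-- Source of an edge. -/
def src (V : Finset (ℤ × ℤ)) (e : Edge V) : V := e.1.1

/-- Target of an edge. -/
def tgt (V : Finset (ℤ × ℤ)) (e : Edge V) : V := ⟨_, e.2⟩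

/-- The embedding of the graph on `V`. -/
def embV (V : Finset (ℤ × ℤ)) : Emb (src V) (tgt V) where
  pos v := v
  dir e := e.1.2
  tgt _ := rfl
  inj := by
    rintro ⟨⟨u, i⟩, h⟩ ⟨⟨u', i'⟩, h'⟩ hh
    simp only [src, Prod.mk.injEq] at hh
    obtain ⟨h1, rfl⟩ := hh
    obtain rfl : u = u' := Subtype.ext h1
    rfl

namespace ReduceAux

open SphereAux

variable {n : ℕ} (j : Fin 3 ↪ Fin n)

/-- Restriction to three coordinates. -/
def pr : Euc n →ₗ[ℝ] Euc 3 where
  toFun σ := WithLp.toLp 2 fun i => σ (j i)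
  map_add' _ _ := rfl
  map_smul' _ _ := rfl

/-- The adjoint inclusion. -/
noncomputable def inc : Euc 3 →ₗ[ℝ] Euc n := LinearMap.adjoint (pr j)

theorem pr_apply (σ : Euc n) (i : Fin 3) : pr j σ i = σ (j i) := rfl

theorem inner_inc (w : Euc 3) (ξ : Euc n) : inner ℝ (inc j w) ξ = inner ℝ w (pr j ξ) :=
  LinearMap.adjoint_inner_left _ _ _

theorem inner_inc' (w : Euc 3) (ξ : Euc n) : inner ℝ ξ (inc j w) = inner ℝ (pr j ξ) w :=
  LinearMap.adjoint_inner_right _ _ _

theorem pr_inc (w : Euc 3) : pr j (inc j w) = w := by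
  ext i
  have h1 : pr j (EuclideanSpace.single (j i) (1 : ℝ)) = EuclideanSpace.single i 1 := by
    ext i'
    simp [pr_apply]
  have h2 := inner_inc j w (EuclideanSpace.single (j i) 1)
  rw [h1, EuclideanSpace.inner_single_right, EuclideanSpace.inner_single_right] at h2
  simpa [pr_apply] using h2

/-- The part orthogonal to the three coordinates. -/
noncomputable def rs (σ : Euc n) : Euc n := σ - inc j (pr j σ)

theorem pr_rs (σ : Euc n) : pr j (rs j σ) = 0 := by rw [rs, map_sub, pr_inc, sub_self]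

theorem inner_add (σ σ' : Euc n) (w w' : Euc 3) :
    inner ℝ (rs j σ + inc j w) (rs j σ' + inc j w') =
      inner ℝ (rs j σ) (rs j σ') + inner ℝ w w' := by
  rw [inner_add_left, inner_add_right, inner_inc', inner_inc, map_add, pr_rs, pr_rs, pr_inc,
    inner_zero_left, add_zero, zero_add]

theorem rs_add (σ : Euc n) : rs j σ + inc j (pr j σ) = σ := sub_add_cancel _ _

/-- Replace the three coordinates. -/
noncomputable def gl (σ : Euc n) (τ : Euc 3) : Euc n := rs j σ + inc j (‖pr j σ‖ • τ)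

theorem norm_gl (σ : Euc n) (τ : Sph 3) : ‖gl j σ τ‖ = ‖σ‖ := by
  rw [← sq_eq_sq₀ (norm_nonneg _) (norm_nonneg _), ← real_inner_self_eq_norm_sq,
    ← real_inner_self_eq_norm_sq, gl, inner_add]
  conv_rhs => rw [← rs_add j σ, inner_add]
  rw [real_inner_self_eq_norm_sq, real_inner_self_eq_norm_sq, real_inner_self_eq_norm_sq,
    norm_smul]
  simp

theorem norm_pr_le (σ : Sph n) : ‖pr j σ‖ ≤ 1 := by
  have h := inner_add j σ σ (pr j σ) (pr j σ)
  rw [rs_add, real_inner_self_eq_norm_sq, real_inner_self_eq_norm_sq,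
    real_inner_self_eq_norm_sq, mem_sphere_zero_iff_norm.1 σ.2] at h
  nlinarith [norm_nonneg (pr j σ), sq_nonneg ‖rs j σ‖]

theorem gl_apply (σ : Euc n) (τ : Euc 3) (i : Fin 3) : gl j σ τ (j i) = ‖pr j σ‖ * τ i := by
  rw [← pr_apply, gl, map_add, pr_rs, pr_inc, zero_add]
  rfl

@[fun_prop] theorem continuous_pr : Continuous (pr j) := (pr j).continuous_of_finiteDimensional
@[fun_prop] theorem continuous_inc : Continuous (inc j) := (inc j).continuous_of_finiteDimensional
@[fun_prop] theorem continuous_rs : Continuous (rs j) := by unfold rs; fun_prop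

@[fun_prop] theorem continuous_gl {X : Type} [TopologicalSpace X] {σ : X → Euc n} {τ : X → Euc 3}
    (hσ : Continuous σ) (hτ : Continuous τ) : Continuous fun p => gl j (σ p) (τ p) := by
  unfold gl; fun_prop

/-- The gluing map on spheres. -/
noncomputable def glue (p : Sph n × Sph 3) : Sph n :=
  ⟨gl j p.1 p.2, by rw [mem_sphere_zero_iff_norm, norm_gl]; simp⟩

theorem continuous_glue : Continuous (glue j) := Continuous.subtype_mk (by fun_prop) _

theorem psi_eq {m : ℕ} {ξ ξ' : Euc m} (h : ‖ξ‖ = ‖ξ'‖) :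
    ∫ v : Sph m, Complex.exp (inner ℝ (v : Euc m) ξ * Complex.I) ∂unif m =
      ∫ v : Sph m, Complex.exp (inner ℝ (v : Euc m) ξ' * Complex.I) ∂unif m := by
  rw [← mp_integral (unif_mp (Submodule.reflection (ℝ ∙ (ξ - ξ'))ᗮ))
    (F := fun v : Sph m => Complex.exp (inner ℝ (v : Euc m) ξ' * Complex.I)) (by fun_prop)]
  congr 1
  funext v
  have := (Submodule.reflection (ℝ ∙ (ξ - ξ'))ᗮ).inner_map_map (v : Euc m) ξ
  rw [Submodule.reflection_sub h] at this
  rw [← this]

theorem swap_gl (σ ξ : Euc n) :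
    ∫ τ : Sph 3, Complex.exp (inner ℝ (gl j σ τ) ξ * Complex.I) ∂unif 3 =
      ∫ τ : Sph 3, Complex.exp (inner ℝ σ (gl j ξ τ) * Complex.I) ∂unif 3 := by
  have h1 : ∀ τ : Euc 3, inner ℝ (gl j σ τ) ξ =
      inner ℝ (rs j σ) (rs j ξ) + inner ℝ τ (‖pr j σ‖ • pr j ξ) := fun τ => by
    conv_lhs => rw [← rs_add j ξ, gl, inner_add]
    rw [real_inner_smul_left, real_inner_smul_right]
  have h2 : ∀ τ : Euc 3, inner ℝ σ (gl j ξ τ) =
      inner ℝ (rs j σ) (rs j ξ) + inner ℝ τ (‖pr j ξ‖ • pr j σ) := fun τ => by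
    conv_lhs => rw [← rs_add j σ, gl, inner_add]
    rw [real_inner_smul_right, real_inner_smul_right, real_inner_comm τ]
  simp only [h1, h2, Complex.ofReal_add, add_mul, Complex.exp_add, integral_const_mul]
  rw [psi_eq (ξ' := ‖pr j ξ‖ • pr j σ) (by simp [norm_smul, mul_comm])]

theorem glue_mp [NeZero n] :
    MeasurePreserving (glue j) ((unif n).prod (unif 3)) (unif n) := by
  refine ⟨(continuous_glue j).measurable, ?_⟩
  have hm : MeasurableEmbedding (Subtype.val : Sph n → Euc n) :=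
    MeasurableEmbedding.subtype_coe Metric.isClosed_sphere.measurableSet
  apply hm.map_injective
  apply Measure.ext_of_charFun
  funext ξ
  rw [charFun_apply, charFun_apply, hm.integral_map, hm.integral_map,
    integral_map (continuous_glue j).aemeasurable (Continuous.aestronglyMeasurable (by fun_prop))]
  change ∫ p : Sph n × Sph 3, Complex.exp (inner ℝ (gl j p.1 p.2) ξ * Complex.I)
    ∂(unif n).prod (unif 3) = _
  rw [integral_prod _ (cint' (by fun_prop))]
  simp only [swap_gl]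
  rw [integral_integral_swap (cint' (by fun_prop))]
  simp only [fun τ : Sph 3 => psi_eq (norm_gl j ξ τ)]
  simp

theorem interaction_eq (V : Finset (ℤ × ℤ)) (b : ℤ × ℤ → Fin 2 → ℝ) (σ : V → Sph n) :
    interaction n V b σ =
      ∑ e : Edge V, b e.1.1 e.1.2 * inner ℝ (σ (src V e) : Euc n) (σ (tgt V e)) := by
  rw [interaction, ← Fintype.sum_prod_type', ← Fintype.sum_subtype_add_sum_subtype
    (fun p : V × Fin 2 => (p.1 : ℤ × ℤ) + latticeDir p.2 ∈ V),
    Finset.sum_eq_zero (s := (Finset.univ :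
      Finset {p : V × Fin 2 // ¬ (p.1 : ℤ × ℤ) + latticeDir p.2 ∈ V})) fun e _ => dif_neg e.2,
    add_zero]
  exact Finset.sum_congr rfl fun e _ => dif_pos e.2

theorem continuous_interaction (V : Finset (ℤ × ℤ)) (b : ℤ × ℤ → Fin 2 → ℝ) :
    Continuous (interaction n V b) := by
  simp only [funext (interaction_eq V b)]
  fun_prop

theorem interaction_glue (V : Finset (ℤ × ℤ)) (b : ℤ × ℤ → Fin 2 → ℝ) (σ : V → Sph n)
    (τ : Cfg V) : interaction n V b (fun v => glue j (σ v, τ v)) =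
      ∑ e : Edge V, b e.1.1 e.1.2 * inner ℝ (rs j (σ (src V e))) (rs j (σ (tgt V e))) +
      ham (src V) (tgt V)
        (fun e => b e.1.1 e.1.2 * (‖pr j (σ (src V e))‖ * ‖pr j (σ (tgt V e))‖)) 0 τ := by
  rw [interaction_eq, ham]
  simp only [Pi.zero_apply, zero_mul, Finset.sum_const_zero, add_zero, ← Finset.sum_add_distrib]
  refine Finset.sum_congr rfl fun e _ => ?_
  simp only [glue, gl, inner_add, real_inner_smul_left, real_inner_smul_right, crd]
  rw [PiLp.inner_apply (τ (src V e) : Euc 3)]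
  simp only [Real.inner_apply, Fin.sum_univ_three]
  ring

theorem one_coord [NeZero n] (V : Finset (ℤ × ℤ)) (b : ℤ × ℤ → Fin 2 → ℝ) {β : ℝ}
    (hb : ∀ u i, 0 ≤ b u i ∧ b u i ≤ β) (x y : V) {C : ℝ}
    (H : ∀ J : Edge V → ℝ, (∀ e, 0 ≤ J e ∧ J e ≤ β) →
      0 ≤ G2 (src V) (tgt V) J x y ∧ G2 (src V) (tgt V) J x y ≤ C) :
    0 ≤ ∫ σ : V → Sph n, (σ x : Euc n) (j 2) * (σ y : Euc n) (j 2) *
      Real.exp (interaction n V b σ) ∂(Measure.pi fun _ => unif n) ∧
    ∫ σ : V → Sph n, (σ x : Euc n) (j 2) * (σ y : Euc n) (j 2) *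
      Real.exp (interaction n V b σ) ∂(Measure.pi fun _ => unif n) ≤
      C * ∫ σ : V → Sph n, Real.exp (interaction n V b σ) ∂(Measure.pi fun _ => unif n) := by
  have hmp := mp_pi2 (ι := V) (glue_mp j)
  have hI := continuous_interaction (n := n) V b
  have hg := continuous_glue j
  have c1 : Continuous fun σ : V → Sph n => (σ x : Euc n) (j 2) * (σ y : Euc n) (j 2) *
      Real.exp (interaction n V b σ) := by fun_prop
  have c2 : Continuous fun σ : V → Sph n => Real.exp (interaction n V b σ) := by fun_prop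
  have c3 : Continuous fun (p : (V → Sph n) × Cfg V) (v : V) => glue j (p.1 v, p.2 v) := by
    fun_prop
  have i2 : Integrable (fun p : (V → Sph n) × Cfg V =>
      Real.exp (interaction n V b fun v => glue j (p.1 v, p.2 v)))
      ((Measure.pi fun _ => unif n).prod (ref V)) := cint (by fun_prop)
  rw [← mp_integral hmp c1, ← mp_integral hmp c2, integral_prod _ i2,
    integral_prod _ (cint (by fun_prop)), ← integral_const_mul]
  have key : ∀ σ : V → Sph n,
      0 ≤ ∫ τ : Cfg V, (glue j (σ x, τ x) : Euc n) (j 2) * (glue j (σ y, τ y) : Euc n) (j 2) *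
        Real.exp (interaction n V b fun v => glue j (σ v, τ v)) ∂ref V ∧
      ∫ τ : Cfg V, (glue j (σ x, τ x) : Euc n) (j 2) * (glue j (σ y, τ y) : Euc n) (j 2) *
        Real.exp (interaction n V b fun v => glue j (σ v, τ v)) ∂ref V ≤
      C * ∫ τ : Cfg V, Real.exp (interaction n V b fun v => glue j (σ v, τ v)) ∂ref V := by
    intro σ
    simp only [interaction_glue, Real.exp_add]
    generalize hA : Real.exp (∑ e : Edge V, b e.1.1 e.1.2 *
      inner ℝ (rs j (σ (src V e))) (rs j (σ (tgt V e)))) = A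
    have hA0 : 0 < A := hA ▸ Real.exp_pos _
    have hρ : ∀ u v : V, 0 ≤ ‖pr j (σ u)‖ * ‖pr j (σ v)‖ ∧ ‖pr j (σ u)‖ * ‖pr j (σ v)‖ ≤ 1 :=
      fun u v => ⟨by positivity,
        mul_le_one₀ (norm_pr_le j _) (norm_nonneg _) (norm_pr_le j _)⟩
    obtain ⟨h0, h1⟩ := H (fun e => b e.1.1 e.1.2 * (‖pr j (σ (src V e))‖ * ‖pr j (σ (tgt V e))‖))
      fun e => ⟨mul_nonneg (hb _ _).1 (hρ _ _).1,
        (mul_le_of_le_one_right (hb _ _).1 (hρ _ _).2).trans (hb _ _).2⟩
    generalize (fun e : Edge V =>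
      b e.1.1 e.1.2 * (‖pr j (σ (src V e))‖ * ‖pr j (σ (tgt V e))‖)) = J at h0 h1 ⊢
    have hZ := Zf_pos (src V) (tgt V) J 0
    have e1 : ∫ τ : Cfg V, (glue j (σ x, τ x) : Euc n) (j 2) * (glue j (σ y, τ y) : Euc n) (j 2) *
        (A * Real.exp (ham (src V) (tgt V) J 0 τ)) ∂ref V =
        ‖pr j (σ x)‖ * ‖pr j (σ y)‖ * G2 (src V) (tgt V) J x y * (A * Zf (src V) (tgt V) J 0) := by
      rw [G2, Ex, mul_assoc, mul_comm A, ← mul_assoc (_ / _), div_mul_cancel₀ _ hZ.ne', wI,
        ← integral_mul_const, ← integral_const_mul]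
      congr 1
      funext τ
      simp only [glue, gl_apply, crd]
      ring
    rw [e1, integral_const_mul]
    exact ⟨mul_nonneg (mul_nonneg (hρ x y).1 h0) (mul_pos hA0 hZ).le,
      mul_le_mul_of_nonneg_right ((mul_le_of_le_one_left h0 (hρ x y).2).trans h1)
        (mul_pos hA0 hZ).le⟩
  exact ⟨integral_nonneg fun σ => (key σ).1,
    integral_mono_of_nonneg (Filter.Eventually.of_forall fun σ => (key σ).1)
      (i2.integral_prod_left.const_mul C) (Filter.Eventually.of_forall fun σ => (key σ).2)⟩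

theorem referenceLaw_eq [NeZero n] (V : Finset (ℤ × ℤ)) : ∃ c : ℝ, 0 < c ∧
    ∀ F : SpinConfig n V → ℝ, ∫ σ, F σ ∂referenceLaw n V =
      c * ∫ σ, F σ ∂(Measure.pi fun _ => unif n) := by
  have h0 : (volume : Measure (Euc n)).toSphere Set.univ ≠ 0 :=
    Measure.measure_univ_ne_zero.2 (Measure.toSphere_ne_zero _)
  have h1 : (volume : Measure (Euc n)).toSphere Set.univ ≠ ⊤ := measure_ne_top _ _
  have e : referenceLaw n V = ((volume : Measure (Euc n)).toSphere Set.univ ^ Fintype.card V) •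
      Measure.pi fun _ : V => unif n := by
    refine Measure.pi_eq fun s _ => ?_
    rw [Measure.smul_apply, Measure.pi_pi, smul_eq_mul, ← Finset.card_univ, ← Finset.prod_const,
      ← Finset.prod_mul_distrib]
    refine Finset.prod_congr rfl fun v _ => ?_
    rw [unif, Measure.smul_apply, smul_eq_mul, ← mul_assoc, ENNReal.mul_inv_cancel h0 h1, one_mul]
  refine ⟨_, ENNReal.toReal_pos (pow_ne_zero (Fintype.card V) h0) (ENNReal.pow_ne_top h1),
    fun F => ?_⟩
  rw [e, integral_smul_measure, smul_eq_mul]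

end ReduceAux

open ReduceAux in
theorem reduce {n : ℕ} (hn : 3 ≤ n) (V : Finset (ℤ × ℤ)) (b : ℤ × ℤ → Fin 2 → ℝ) {β : ℝ}
    (hb : ∀ u i, 0 ≤ b u i ∧ b u i ≤ β) (x y : V) {C : ℝ}
    (H : ∀ J : Edge V → ℝ, (∀ e, 0 ≤ J e ∧ J e ≤ β) →
      0 ≤ G2 (src V) (tgt V) J x y ∧ G2 (src V) (tgt V) J x y ≤ C) :
    0 ≤ twoPoint n V b x y ∧ twoPoint n V b x y ≤ n * C := by
  have : NeZero n := ⟨by omega⟩
  obtain ⟨c, hc, hF⟩ := referenceLaw_eq (n := n) V
  have hI := continuous_interaction (n := n) V b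
  have hZ : 0 < ∫ σ : V → Sph n, Real.exp (interaction n V b σ) ∂(Measure.pi fun _ => unif n) :=
    integral_exp_pos (cint (by fun_prop))
  have key : ∀ k : Fin n, _ := fun k => by
    have := one_coord ((Fin.castLEEmb hn).setValue 2 k) V b hb x y H
    rw [Function.Embedding.setValue_eq] at this
    exact this
  have e : ∫ σ : V → Sph n, inner ℝ (σ x : Euc n) (σ y) * Real.exp (interaction n V b σ)
      ∂(Measure.pi fun _ => unif n) = ∑ k, ∫ σ : V → Sph n, (σ x : Euc n) k * (σ y : Euc n) k *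
        Real.exp (interaction n V b σ) ∂(Measure.pi fun _ => unif n) := by
    rw [← integral_finsetSum _ fun k _ => cint (by fun_prop)]
    congr 1
    funext σ
    rw [PiLp.inner_apply, Finset.sum_mul]
    refine Finset.sum_congr rfl fun k _ => ?_
    rw [Real.inner_apply]
  rw [twoPoint, partitionFn, hF, hF, mul_div_mul_left _ _ hc.ne', e]
  refine ⟨div_nonneg (Finset.sum_nonneg fun k _ => (key k).1) hZ.le, ?_⟩
  rw [div_le_iff₀ hZ]
  refine (Finset.sum_le_sum fun k _ => (key k).2).trans (le_of_eq ?_)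
  simp [mul_assoc]

end Crest.Agent.R167
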