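import Crest.Agent.R167.Basic

/-!
Row 167: invariance of the uniform measure on the sphere and cylindrical coordinates.
-/

set_option autoImplicit false
open MeasureTheory

namespace Crest.Agent.R167

namespace SphereAux

theorem mp_integral {α β G : Type*} [MeasurableSpace α] [MeasurableSpace β] [TopologicalSpace β]
    [OpensMeasurableSpace β] [NormedAddCommGroup G] [NormedSpace ℝ G]
    [SecondCountableTopology G] {μ : Measure α} {ν : Measure β} {f : α → β}
    (hf : MeasurePreserving f μ ν) {F : β → G} (hF : Continuous F) :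
    ∫ a, F (f a) ∂μ = ∫ b, F b ∂ν := by
  rw [← hf.map_eq, integral_map hf.aemeasurable hF.aestronglyMeasurable]

theorem mp_pi2 {ι α β γ : Type} [Fintype ι] [MeasurableSpace α] [MeasurableSpace β]
    [MeasurableSpace γ] {μ : Measure α} {ν : Measure β} {ρ : Measure γ} [SigmaFinite μ]
    [SigmaFinite ν] [SigmaFinite ρ] {f : α × β → γ} (hf : MeasurePreserving f (μ.prod ν) ρ) :
    MeasurePreserving (fun (p : (ι → α) × (ι → β)) (i : ι) => f (p.1 i, p.2 i))
      ((Measure.pi fun _ => μ).prod (Measure.pi fun _ => ν)) (Measure.pi fun _ => ρ) :=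
  (measurePreserving_pi (fun _ : ι => μ.prod ν) (fun _ => ρ) fun _ => hf).comp
    (measurePreserving_arrowProdEquivProdArrow α β ι (fun _ => μ) (fun _ => ν)).symm

end SphereAux

open SphereAux
open scoped Pointwise

theorem unif_mp {n : ℕ} (T : Euc n ≃ₗᵢ[ℝ] Euc n) :
    MeasurePreserving (fun v : Sph n => (⟨T v, by simp⟩ : Sph n)) (unif n) (unif n) := by
  have hc : Continuous fun v : Sph n => (⟨T v, by simp⟩ : Sph n) :=
    Continuous.subtype_mk (by fun_prop) _
  refine MeasurePreserving.smul_measure ⟨hc.measurable, ?_⟩ _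
  ext s hs
  rw [Measure.map_apply hc.measurable hs, Measure.toSphere_apply' _ hs,
    Measure.toSphere_apply' _ (hc.measurable hs),
    ← T.measurePreserving.measure_preimage_emb T.toHomeomorph.measurableEmbedding
      (Set.Ioo (0 : ℝ) 1 • (Subtype.val '' s))]
  congr 2
  ext x
  simp only [Set.mem_smul, Set.mem_image, Set.mem_preimage]
  constructor
  · rintro ⟨r, hr, _, ⟨v, hv, rfl⟩, rfl⟩
    exact ⟨r, hr, _, ⟨_, hv, rfl⟩, by simp⟩
  · rintro ⟨r, hr, _, ⟨v, hv, rfl⟩, h⟩
    refine ⟨r, hr, _, ⟨⟨T.symm v, by simp⟩, by simpa using hv, rfl⟩, T.injective ?_⟩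
    simpa using h

theorem rot_mp (π : Equiv.Perm (Fin 3)) (e : ZMod 2) (θ : Real.Angle) :
    MeasurePreserving (rot π e θ) (unif 3) (unif 3) := by
  let L : Euc 3 →ₗ[ℝ] Euc 3 :=
    { toFun := fun v => vec π (θ.cos * v (π 0) - θ.sin * v (π 1))
        (θ.sin * v (π 0) + θ.cos * v (π 1)) (sgn e * v (π 2))
      map_add' := fun v w => euc3_ext π (by simp; ring) (by simp; ring) (by simp; ring)
      map_smul' := fun c v => euc3_ext π (by simp; ring) (by simp; ring) (by simp; ring) }
  let L' : Euc 3 →ₗᵢ[ℝ] Euc 3 :=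
    { L with
      norm_map' := fun v => by
        rw [← sq_eq_sq₀ (norm_nonneg _) (norm_nonneg _), EuclideanSpace.real_norm_sq_eq,
          EuclideanSpace.real_norm_sq_eq, sum_perm π, sum_perm π]
        simp only [L, LinearMap.coe_mk, AddHom.coe_mk, vec_0, vec_1, vec_2]
        linear_combination (v (π 0) ^ 2 + v (π 1) ^ 2) * θ.cos_sq_add_sin_sq +
          v (π 2) ^ 2 * sgn_sq e }
  exact unif_mp (L'.toLinearIsometryEquiv rfl)

theorem integral_rot {ι : Type} [Fintype ι] (π : Equiv.Perm (Fin 3)) (e : ι → ZMod 2)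
    (θ : ι → Real.Angle) {F : Cfg ι → ℝ} (hF : Continuous F) :
    ∫ σ, F (fun v => rot π (e v) (θ v) (σ v)) ∂ref ι = ∫ σ, F σ ∂ref ι := by
  exact mp_integral (measurePreserving_pi (fun _ : ι => unif 3) (fun _ => unif 3)
    fun v => rot_mp π (e v) (θ v)) hF

namespace SphereAux

instance : SecondCountableTopology Real.Angle :=
  inferInstanceAs (SecondCountableTopology (AddCircle (2 * Real.pi)))

/-- The height of a point. -/
noncomputable def ht (π : Equiv.Perm (Fin 3)) (v : Sph 3) : unitInterval :=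
  ⟨|(v : Euc 3) (π 2)|, abs_nonneg _, abs_crd_le (fun _ : Unit => v) () (π 2)⟩

theorem continuous_ht (π : Equiv.Perm (Fin 3)) : Continuous (ht π) :=
  Continuous.subtype_mk (by fun_prop) _

theorem rot_par (π : Equiv.Perm (Fin 3)) (b : unitInterval) (e e' : ZMod 2) (θ θ' : Real.Angle) :
    rot π e θ (par π b e' θ') = par π b (e + e') (θ + θ') := by
  refine Subtype.ext (euc3_ext π ?_ ?_ ?_)
  · simp only [rot_0, par_0, par_1, Real.Angle.cos_add]; ring
  · simp only [rot_1, par_0, par_1, Real.Angle.sin_add]; ring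
  · simp only [rot_2, par_2, sgn_add]; ring

theorem exists_par (π : Equiv.Perm (Fin 3)) (v : Sph 3) : ∃ e θ, v = par π (ht π v) e θ := by
  have h := sph_sum_sq v
  rw [sum_perm π] at h
  let z : ℂ := ⟨(v : Euc 3) (π 0), (v : Euc 3) (π 1)⟩
  have hr : rad (ht π v) = ‖z‖ := by
    rw [rad, Complex.norm_eq_sqrt_sq_add_sq]
    congr 1
    simp only [ht, sq_abs, z]
    linarith
  refine ⟨if 0 ≤ (v : Euc 3) (π 2) then 0 else 1, (Complex.arg z : ℝ),
    Subtype.ext (euc3_ext π ?_ ?_ ?_)⟩
  · rw [par_0, hr, Real.Angle.cos_coe, Complex.norm_mul_cos_arg]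
  · rw [par_1, hr, Real.Angle.sin_coe, Complex.norm_mul_sin_arg]
  · rw [par_2]
    split_ifs with h0
    · simp [ht, abs_of_nonneg h0]
    · simp [ht, abs_of_neg (not_le.1 h0)]

theorem par_mp (π : Equiv.Perm (Fin 3)) :
    MeasurePreserving (fun p : unitInterval × ZMod 2 × Real.Angle => par π p.1 p.2.1 p.2.2)
      (((unif 3).map (ht π)).prod ((hm (ZMod 2)).prod (hm Real.Angle))) (unif 3) := by
  have hc : Continuous fun p : unitInterval × ZMod 2 × Real.Angle => par π p.1 p.2.1 p.2.2 := by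
    fun_prop
  have := Measure.isProbabilityMeasure_map (μ := unif 3) (continuous_ht π).aemeasurable
  refine ⟨hc.measurable, ext_of_forall_integral_eq_of_IsFiniteMeasure fun f => ?_⟩
  have hf := f.continuous
  rw [integral_map hc.aemeasurable hf.aestronglyMeasurable,
    integral_prod _ (cint (by fun_prop)), integral_map (continuous_ht π).aemeasurable
      (cont_integral (f := fun b (q : ZMod 2 × Real.Angle) => f (par π b q.1 q.2))
        (by fun_prop)).aestronglyMeasurable]
  have h1 : ∀ v : Sph 3, ∫ q : ZMod 2 × Real.Angle, f (par π (ht π v) q.1 q.2)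
      ∂(hm (ZMod 2)).prod (hm Real.Angle) =
      ∫ q : ZMod 2 × Real.Angle, f (rot π q.1 q.2 v) ∂(hm (ZMod 2)).prod (hm Real.Angle) := by
    intro v
    obtain ⟨e, θ, h⟩ := exists_par π v
    rw [← integral_add_right_eq_self
      (fun q : ZMod 2 × Real.Angle => f (par π (ht π v) q.1 q.2)) (e, θ)]
    congr 1
    funext q
    conv_rhs => rw [h, rot_par]
    rfl
  simp only [h1]
  rw [integral_integral_swap (cint (by fun_prop))]
  simp only [fun q : ZMod 2 × Real.Angle => mp_integral (rot_mp π q.1 q.2) hf]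
  simp

theorem sum_crd_rot {ι : Type} (π : Equiv.Perm (Fin 3)) (e : ZMod 2) (θ : Real.Angle) (σ : Cfg ι)
    (u v : ι) : ∑ k, crd (fun v => rot π e θ (σ v)) u k * crd (fun v => rot π e θ (σ v)) v k =
      ∑ k, crd σ u k * crd σ v k := by
  rw [sum_perm π, sum_perm π]
  simp only [crd, rot_0, rot_1, rot_2]
  linear_combination ((σ u : Euc 3) (π 0) * (σ v : Euc 3) (π 0) +
    (σ u : Euc 3) (π 1) * (σ v : Euc 3) (π 1)) * θ.cos_sq_add_sin_sq +
    (σ u : Euc 3) (π 2) * (σ v : Euc 3) (π 2) * sgn_sq e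

theorem crd_flip {ι : Type} (σ : Cfg ι) (v : ι) :
    crd (fun v => rot 1 1 0 (σ v)) v 2 = -crd σ v 2 := by
  have := rot_2 1 1 0 (σ v)
  rw [sgn_one, neg_one_mul] at this
  exact this

theorem ham_flip {ι ε : Type} [Fintype ι] [Fintype ε] (s t : ε → ι) (J : ε → ℝ) (h : ι → ℝ)
    (σ : Cfg ι) : ham s t J (-h) (fun v => rot 1 1 0 (σ v)) = ham s t J h σ := by
  simp only [ham, sum_crd_rot, crd_flip, Pi.neg_apply, neg_mul_neg]

theorem ham_rot {ι ε : Type} [Fintype ι] [Fintype ε] (s t : ε → ι) (J : ε → ℝ)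
    (π : Equiv.Perm (Fin 3)) (e : ZMod 2) (θ : Real.Angle) (σ : Cfg ι) :
    ham s t J 0 (fun v => rot π e θ (σ v)) = ham s t J 0 σ := by
  simp only [ham, sum_crd_rot, Pi.zero_apply, zero_mul]

end SphereAux

/-- Cylindrical coordinates: height, sign and angle are independent, the last two uniform. -/
theorem exists_rep (π : Equiv.Perm (Fin 3)) :
    ∃ ν : Measure unitInterval, IsProbabilityMeasure ν ∧
      ∀ (ι : Type) [Fintype ι] (F : Cfg ι → ℝ), Continuous F →
        ∫ σ, F σ ∂ref ι = ∫ b : ι → unitInterval, ∫ e : Isg ι, ∫ θ : Ang ι,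
          F (fun v => par π (b v) (e v) (θ v)) ∂μA ι ∂μI ι ∂(Measure.pi fun _ => ν) := by
  have hP := Measure.isProbabilityMeasure_map (μ := unif 3) (continuous_ht π).aemeasurable
  refine ⟨(unif 3).map (ht π), hP, fun ι _ F hF => ?_⟩
  have h1 := (mp_pi2 (ι := ι) (par_mp π)).comp
    ((MeasurePreserving.id (Measure.pi fun _ : ι => (unif 3).map (ht π))).prod
      (mp_pi2 (ι := ι) (MeasurePreserving.id ((hm (ZMod 2)).prod (hm Real.Angle)))))
  have h2 : MeasurePreserving
      (fun (p : (ι → unitInterval) × Isg ι × Ang ι) v => par π (p.1 v) (p.2.1 v) (p.2.2 v))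
      ((Measure.pi fun _ : ι => (unif 3).map (ht π)).prod ((μI ι).prod (μA ι))) (ref ι) := h1
  rw [← mp_integral h2 hF, integral_prod _ (cint (by fun_prop))]
  congr 1
  funext b
  exact integral_prod (fun q : Isg ι × Ang ι => F fun v => par π (b v) (q.1 v) (q.2 v))
    (cint (by fun_prop))

section Model
variable {ι ε : Type} [Fintype ι] [Fintype ε] (s t : ε → ι) (J : ε → ℝ) (h : ι → ℝ)

theorem Zf_neg : Zf s t J (-h) = Zf s t J h := by
  rw [Zf, ← integral_rot 1 (fun _ => 1) (fun _ => 0)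
    (F := fun σ => Real.exp (ham s t J (-h) σ)) (by fun_prop)]
  simp only [ham_flip]
  rfl

theorem wI_neg_crd (y : ι) :
    wI s t J (-h) (fun σ => crd σ y 2) = -wI s t J h (fun σ => crd σ y 2) := by
  rw [wI, ← integral_rot 1 (fun _ => 1) (fun _ => 0)
    (F := fun σ => crd σ y 2 * Real.exp (ham s t J (-h) σ)) (by fun_prop)]
  simp only [ham_flip, crd_flip, neg_mul, integral_neg]
  rfl

theorem Ex_crd_eq_G2 (k : Fin 3) (x y : ι) :
    Ex s t J 0 (fun σ => crd σ x k * crd σ y k) = G2 s t J x y := by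
  by_cases hk : k = 2
  · rw [hk, G2]
  obtain ⟨π, h0, h1⟩ := exists_perm' hk
  have hc : ∀ (σ : Cfg ι) v,
      crd (fun v => rot π 0 ((Real.pi / 2 : ℝ) : Real.Angle) (σ v)) v 2 = crd σ v k := by
    intro σ v
    have := rot_1 π 0 ((Real.pi / 2 : ℝ) : Real.Angle) (σ v)
    rw [h0, h1, Real.Angle.sin_coe, Real.Angle.cos_coe, Real.sin_pi_div_two, Real.cos_pi_div_two,
      one_mul, zero_mul, add_zero] at this
    exact this
  rw [G2, Ex, Ex, wI, wI, ← integral_rot π (fun _ => 0) (fun _ => ((Real.pi / 2 : ℝ) : Real.Angle))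
    (F := fun σ => crd σ x 2 * crd σ y 2 * Real.exp (ham s t J 0 σ)) (by fun_prop)]
  simp only [ham_rot, hc]

end Model

end Crest.Agent.R167
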