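import Crest.Agent.R167.Basic

/-!
Row 167: the Ward inequality tested on a cone of plane waves.
-/

set_option autoImplicit false
open Crest.ProbabilityR.SpinModel

namespace Crest.Agent.R167

/-- What is known about the current correlations `Γ` and the edge energies `c`. -/
structure WardData {ι ε : Type} [Fintype ε] (s t : ε → ι) (β : ℝ) (free : ι → Prop)
    (Γ : ε → ε → ℝ) (c : ε → ℝ) : Prop where
  symm : ∀ e e', Γ e e' = Γ e' e
  nonneg : ∀ g, 0 ≤ qf Γ g
  le : ∀ g, qf Γ g ≤ ∑ e, c e * g e ^ 2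
  bound : ∀ e, c e ≤ β
  ward : ∀ K : ι → ι → ℝ, (∀ x y, K y x = -K x y) → (∀ x y, K x y ≠ 0 → free x) →
    2 * ∑ e, c e * kg s t K e ^ 2 ≤ β ^ 2 * ∑ e, ∑ e', kD s t K e e' ^ 2 +
      ∑ e, ∑ e', Γ e e' * (kN s t K e e' * kN s t K e' e) + qf Γ (kg s t K)

/-- The stiffness form. -/
def stiff {ε : Type} [Fintype ε] (Γ : ε → ε → ℝ) (c : ε → ℝ) (g : ε → ℝ) : ℝ :=
  ∑ e, c e * g e ^ 2 - qf Γ g

/-! ### Linear algebra -/

section Alg
variable {ι ε : Type} [Fintype ε] {s t : ε → ι} {β : ℝ} {free : ι → Prop} {Γ : ε → ε → ℝ}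
  {c : ε → ℝ}

theorem wv_qf_add (hs : ∀ e e', Γ e e' = Γ e' e) (x y : ε → ℝ) (r : ℝ) :
    qf Γ (fun e => x e + r * y e) =
      qf Γ x + 2 * r * ∑ e, ∑ e', Γ e e' * (x e * y e') + r ^ 2 * qf Γ y := by
  have h : ∑ e, ∑ e', Γ e e' * (y e * x e') = ∑ e, ∑ e', Γ e e' * (x e * y e') := by
    rw [Finset.sum_comm]
    exact Finset.sum_congr rfl fun e _ => Finset.sum_congr rfl fun e' _ => by rw [hs, mul_comm (y _)]
  calc _ = qf Γ x + r * ∑ e, ∑ e', Γ e e' * (x e * y e') + r * ∑ e, ∑ e', Γ e e' * (y e * x e') +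
        r ^ 2 * qf Γ y := by
        simp only [qf, Finset.mul_sum, ← Finset.sum_add_distrib]
        exact Finset.sum_congr rfl fun e _ => Finset.sum_congr rfl fun e' _ => by ring
    _ = _ := by rw [h]; ring

theorem WardData.c_nonneg (W : WardData s t β free Γ c) (e : ε) : 0 ≤ c e := by
  classical
  have := (W.nonneg (Pi.single e 1)).trans (W.le _)
  rw [Finset.sum_eq_single e] at this
  · simpa using this
  · intro b _ hb; simp [hb]
  · simp

theorem WardData.bil (W : WardData s t β free Γ c) (x y : ε → ℝ) :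
    |∑ e, ∑ e', Γ e e' * (x e * y e')| ≤ (∑ e, c e * x e ^ 2 + ∑ e, c e * y e ^ 2) / 2 := by
  have h1 := W.nonneg fun e => x e + 1 * y e
  have h2 := W.nonneg fun e => x e + (-1) * y e
  rw [wv_qf_add W.symm] at h1 h2
  have h3 := W.le x
  have h4 := W.le y
  rw [abs_le]
  constructor <;> linarith

theorem WardData.cbil (W : WardData s t β free Γ c) {u v : ε → ℂ} {G : ε → ℝ}
    (hu : ∀ e, ‖u e‖ ≤ G e) (hv : ∀ e, ‖v e‖ ≤ G e) :
    |∑ e, ∑ e', Γ e e' * (u e * v e').re| ≤ ∑ e, c e * G e ^ 2 := by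
  have h1 := W.bil (fun e => (u e).re) fun e => (v e).re
  have h2 := W.bil (fun e => (u e).im) fun e => (v e).im
  have e1 : ∑ e, ∑ e', Γ e e' * (u e * v e').re = ∑ e, ∑ e', Γ e e' * ((u e).re * (v e').re) -
      ∑ e, ∑ e', Γ e e' * ((u e).im * (v e').im) := by
    simp only [← Finset.sum_sub_distrib, Complex.mul_re, mul_sub]
  have e2 : ∀ {w : ε → ℂ}, (∀ e, ‖w e‖ ≤ G e) →
      ∑ e, c e * (w e).re ^ 2 + ∑ e, c e * (w e).im ^ 2 ≤ ∑ e, c e * G e ^ 2 := by
    intro w hw
    rw [← Finset.sum_add_distrib]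
    refine Finset.sum_le_sum fun e _ => ?_
    rw [← mul_add]
    refine mul_le_mul_of_nonneg_left ?_ (W.c_nonneg e)
    have := pow_le_pow_left₀ (norm_nonneg _) (hw e) 2
    rwa [Complex.sq_norm, Complex.normSq_apply, ← sq, ← sq] at this
  have := e2 hu
  have := e2 hv
  rw [e1]
  refine (abs_sub _ _).trans ?_
  linarith

theorem WardData.xx {ν : Type} (W : WardData s t β free Γ c) (S : Finset ν) {w : ν → ℝ}
    (hw : ∀ n ∈ S, 0 ≤ w n) (hw1 : ∑ n ∈ S, w n = 1) {P d : ν → ε → ℂ} {G : ε → ℝ}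
    (hG : ∀ l ∈ S, ∀ m ∈ S, ∀ e, ‖P l e‖ * ‖d m e‖ ≤ G e) :
    ∑ e, ∑ e', Γ e e' * ((∑ n ∈ S, w n * (star (P n e) * d n e').im) *
      ∑ n ∈ S, w n * (star (P n e') * d n e).im) ≤ ∑ e, c e * G e ^ 2 := by
  have key : ∀ l ∈ S, ∀ m ∈ S, ∑ e, ∑ e', Γ e e' *
      ((star (P l e) * d l e').im * (star (P m e') * d m e).im) ≤ ∑ e, c e * G e ^ 2 := by
    intro l hl m hm
    have h1 := W.cbil (u := fun e => star (P l e) * star (d m e)) (v := fun e => d l e * P m e)
      (G := G) (fun e => by simpa using hG l hl m hm e)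
      (fun e => by simpa [mul_comm] using hG m hm l hl e)
    have h2 := W.cbil (u := fun e => star (P l e) * d m e) (v := fun e => d l e * star (P m e))
      (G := G) (fun e => by simpa using hG l hl m hm e)
      (fun e => by simpa [mul_comm] using hG m hm l hl e)
    have e1 : ∑ e, ∑ e', Γ e e' * ((star (P l e) * d l e').im * (star (P m e') * d m e).im) =
        (∑ e, ∑ e', Γ e e' * (star (P l e) * star (d m e) * (d l e' * P m e')).re -
          ∑ e, ∑ e', Γ e e' * (star (P l e) * d m e * (d l e' * star (P m e'))).re) / 2 := by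
      simp only [← Finset.sum_sub_distrib, Finset.sum_div]
      refine Finset.sum_congr rfl fun e _ => Finset.sum_congr rfl fun e' _ => ?_
      simp only [Complex.mul_re, Complex.mul_im, Complex.star_def, Complex.conj_re, Complex.conj_im]
      ring
    rw [e1]
    linarith [le_abs_self (∑ e, ∑ e', Γ e e' * (star (P l e) * star (d m e) * (d l e' * P m e')).re),
      neg_le_abs (∑ e, ∑ e', Γ e e' * (star (P l e) * d m e * (d l e' * star (P m e'))).re)]
  calc _ = ∑ l ∈ S, ∑ m ∈ S, w l * w m * ∑ e, ∑ e', Γ e e' *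
        ((star (P l e) * d l e').im * (star (P m e') * d m e).im) := by
        simp only [Finset.sum_mul_sum]
        simp only [Finset.mul_sum]
        calc _ = ∑ e, ∑ l ∈ S, ∑ e', ∑ m ∈ S, Γ e e' * (w l * (star (P l e) * d l e').im *
              (w m * (star (P m e') * d m e).im)) :=
              Finset.sum_congr rfl fun e _ => Finset.sum_comm
          _ = ∑ l ∈ S, ∑ e, ∑ m ∈ S, ∑ e', Γ e e' * (w l * (star (P l e) * d l e').im *
              (w m * (star (P m e') * d m e).im)) := by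
              rw [Finset.sum_comm]
              exact Finset.sum_congr rfl fun l _ => Finset.sum_congr rfl fun e _ => Finset.sum_comm
          _ = _ := by
              refine Finset.sum_congr rfl fun l _ => ?_
              rw [Finset.sum_comm]
              exact Finset.sum_congr rfl fun m _ => Finset.sum_congr rfl fun e _ =>
                Finset.sum_congr rfl fun e' _ => by ring
    _ ≤ ∑ l ∈ S, ∑ m ∈ S, w l * w m * ∑ e, c e * G e ^ 2 :=
        Finset.sum_le_sum fun l hl => Finset.sum_le_sum fun m hm =>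
          mul_le_mul_of_nonneg_left (key l hl m hm) (mul_nonneg (hw l hl) (hw m hm))
    _ = _ := by
        simp only [← Finset.sum_mul]
        rw [← Finset.sum_mul_sum, hw1]; simp

theorem WardData.stiff_le (W : WardData s t β free Γ c) (g g₀ : ε → ℝ) :
    stiff Γ c g₀ ≤ 2 * stiff Γ c g + 2 * ∑ e, c e * (g₀ e - g e) ^ 2 := by
  have h1 := W.le fun e => g e + (-1) * (g₀ e - g e)
  have h2 := wv_qf_add W.symm g (fun e => g₀ e - g e) 1
  have h3 := W.nonneg fun e => g₀ e - g e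
  rw [wv_qf_add W.symm] at h1
  have h4 : (fun e => g e + 1 * (g₀ e - g e)) = g₀ := funext fun e => by ring
  rw [h4] at h2
  have h5 : ∑ e, c e * g₀ e ^ 2 + ∑ e, c e * (g e + (-1) * (g₀ e - g e)) ^ 2 =
      2 * ∑ e, c e * g e ^ 2 + 2 * ∑ e, c e * (g₀ e - g e) ^ 2 := by
    simp only [Finset.mul_sum, ← Finset.sum_add_distrib]
    exact Finset.sum_congr rfl fun e _ => by ring
  simp only [stiff]
  linarith

end Alg

/-! ### Boxes and plane waves -/

/-- The box of side `N` with corner `x₀`. -/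
noncomputable def box (x₀ : ℤ × ℤ) (N : ℕ) : Finset (ℤ × ℤ) :=
  Finset.Ico x₀.1 (x₀.1 + N) ×ˢ Finset.Ico x₀.2 (x₀.2 + N)

theorem card_box (x₀ : ℤ × ℤ) (N : ℕ) : (box x₀ N).card = N ^ 2 := by
  simp [box, sq]

theorem edge_sum_le {ι ε : Type} [Fintype ε] {s t : ε → ι} (E : Emb s t) (B : Finset (ℤ × ℤ))
    {F : ℤ × ℤ → Fin 2 → ℝ} (hF : ∀ x j, 0 ≤ F x j) (hB : ∀ x j, F x j ≠ 0 → x ∈ B) :
    ∑ e, F (E.pos (s e)) (E.dir e) ≤ ∑ j, ∑ x ∈ B, F x j := by
  classical
  rw [← Finset.sum_image (s := Finset.univ) (g := fun e => (E.pos (s e), E.dir e))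
    (f := fun p => F p.1 p.2) fun a _ b _ h => E.inj h, Finset.sum_comm, ← Finset.sum_product',
    ← Finset.sum_filter_ne_zero]
  refine Finset.sum_le_sum_of_subset_of_nonneg (fun p hp => ?_) fun p _ _ => hF _ _
  rw [Finset.mem_filter] at hp
  exact Finset.mem_product.2 ⟨hB _ _ hp.2, Finset.mem_univ _⟩

/-- The character `x ↦ exp (2 π i u x / N)`. -/
noncomputable def chr (N : ℕ) (u x : ℤ) : ℂ := Complex.exp (Complex.I * (2 * Real.pi / N * u * x : ℝ))

theorem chr_sum {N : ℕ} {u : ℤ} (hu : u ≠ 0) (huN : |u| < N) (z : ℤ) :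
    ∑ x ∈ Finset.Ico z (z + N), chr N u x = 0 := by
  have hN : (0 : ℝ) < N := by exact_mod_cast (abs_nonneg u).trans_lt huN
  have hstep : ∀ x, chr N u (x + 1) = chr N u x * chr N u 1 := fun x => by
    simp only [chr, ← Complex.exp_add]; congr 1; push_cast; ring
  have hper : chr N u (z + N) = chr N u z := by
    simp only [chr]
    rw [Complex.exp_eq_exp_iff_exists_int]
    refine ⟨u, ?_⟩
    have : (N : ℂ) ≠ 0 := by exact_mod_cast hN.ne'
    push_cast; field_simp
  have hne : chr N u 1 ≠ 1 := by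
    intro h
    obtain ⟨k, hk⟩ := Complex.exp_eq_one_iff.1 h
    have h1 : (2 * Real.pi / N * u * (1 : ℤ) : ℝ) = k * (2 * Real.pi) := by
      have := congrArg Complex.im hk
      simpa using this
    have h2 : (u : ℝ) = k * N := by
      have := Real.pi_pos
      field_simp at h1
      push_cast at h1
      linarith
    have h3 : u = k * N := by exact_mod_cast h2
    have h4 : k ≠ 0 := by rintro rfl; simp at h3; exact hu h3
    rw [h3, abs_mul, abs_of_nonneg (by positivity : (0 : ℤ) ≤ N)] at huN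
    have : 1 ≤ |k| := Int.one_le_abs h4
    nlinarith [(by positivity : (0 : ℤ) ≤ N)]
  have tele : ∀ n : ℕ, (∑ x ∈ Finset.Ico z (z + n), chr N u x) * (chr N u 1 - 1) =
      chr N u (z + n) - chr N u z := by
    intro n
    induction n with
    | zero => simp
    | succ n ih =>
      rw [Nat.cast_succ, ← add_assoc, ← Finset.insert_Ico_right_eq_Ico_add_one (by omega),
        Finset.sum_insert (by simp), add_mul, ih, hstep]
      ring
  have := tele N
  rw [hper, sub_self] at this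
  exact (mul_eq_zero.1 this).resolve_right (sub_ne_zero.2 hne)

/-- The plane wave with integer frequency `u`. -/
noncomputable def pw (N : ℕ) (u : Fin 2 → ℤ) (x : ℤ × ℤ) : ℂ := chr N (u 0) x.1 * chr N (u 1) x.2

theorem norm_chr (N : ℕ) (u x : ℤ) : ‖chr N u x‖ = 1 := Complex.norm_exp_I_mul_ofReal _

theorem norm_pw (N : ℕ) (u : Fin 2 → ℤ) (x : ℤ × ℤ) : ‖pw N u x‖ = 1 := by
  simp [pw, norm_chr]

theorem pw_add (N : ℕ) (u : Fin 2 → ℤ) (x : ℤ × ℤ) (j : Fin 2) :
    pw N u (x + latticeDir j) = pw N u x * Complex.exp (Complex.I * (2 * Real.pi / N * u j : ℝ)) := by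
  fin_cases j <;> simp only [pw, chr, latticeDir, ← Complex.exp_add] <;> congr 1 <;> simp <;> ring

theorem chr_mul_star (N : ℕ) (u v x : ℤ) : chr N u x * star (chr N v x) = chr N (u - v) x := by
  simp only [chr, Complex.star_def, ← Complex.exp_conj, ← Complex.exp_add, map_mul, Complex.conj_I,
    Complex.conj_ofReal]
  congr 1; push_cast; ring

theorem pw_orth {N : ℕ} (x₀ : ℤ × ℤ) {u v : Fin 2 → ℤ} (huv : ∀ j, |u j - v j| < N) :
    ∑ x ∈ box x₀ N, pw N u x * star (pw N v x) = if u = v then (N : ℂ) ^ 2 else 0 := by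
  split_ifs with h
  · subst h
    simp only [Complex.star_def, Complex.mul_conj', norm_pw]
    simp [card_box]
  · have e : ∀ x : ℤ × ℤ, pw N u x * star (pw N v x) =
        chr N (u 0 - v 0) x.1 * chr N (u 1 - v 1) x.2 := fun x => by
      rw [← chr_mul_star, ← chr_mul_star, pw, pw, star_mul']; ring
    simp only [e, box]
    rw [Finset.sum_product' (f := fun a b => chr N (u 0 - v 0) a * chr N (u 1 - v 1) b),
      ← Finset.sum_mul_sum]
    by_cases h0 : u 0 = v 0
    · have h1 : u 1 ≠ v 1 := fun h1 => h (funext fun j => by fin_cases j <;> assumption)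
      rw [chr_sum (sub_ne_zero.2 h1) (huv 1), mul_zero]
    · rw [chr_sum (sub_ne_zero.2 h0) (huv 0), zero_mul]

theorem pw_parseval {ν : Type} {N : ℕ} (x₀ : ℤ × ℤ) (S : Finset ν) {u : ν → Fin 2 → ℤ}
    (hinj : ∀ n ∈ S, ∀ m ∈ S, u n = u m → n = m) (hu : ∀ n ∈ S, ∀ m ∈ S, ∀ j, |u n j - u m j| < N)
    (γ : ν → ℂ) :
    ∑ x ∈ box x₀ N, ‖∑ n ∈ S, γ n * pw N (u n) x‖ ^ 2 = N ^ 2 * ∑ n ∈ S, ‖γ n‖ ^ 2 := by
  classical
  have h : ∀ w : ℂ, ((‖w‖ ^ 2 : ℝ) : ℂ) = w * star w := fun w => by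
    rw [Complex.star_def, Complex.mul_conj']; push_cast; rfl
  apply Complex.ofReal_injective
  rw [Complex.ofReal_sum, Complex.ofReal_mul, Complex.ofReal_sum]
  simp only [h, star_sum, Finset.sum_mul_sum]
  rw [Finset.sum_comm, Finset.mul_sum]
  refine Finset.sum_congr rfl fun n hn => ?_
  rw [Finset.sum_comm, Finset.sum_eq_single n]
  · have := pw_orth x₀ (hu n hn n hn)
    rw [if_pos rfl] at this
    push_cast
    rw [← this, Finset.sum_mul]
    exact Finset.sum_congr rfl fun x _ => by rw [star_mul']; ring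
  · intro m hm hmn
    have := pw_orth x₀ (hu n hn m hm)
    rw [if_neg fun hh => hmn (hinj n hn m hm hh).symm] at this
    calc _ = γ n * star (γ m) * ∑ x ∈ box x₀ N, pw N (u n) x * star (pw N (u m) x) := by
          rw [Finset.mul_sum]
          exact Finset.sum_congr rfl fun x _ => by rw [star_mul']; ring
      _ = 0 := by rw [this, mul_zero]
  · intro hh; exact absurd hn hh

/-- The estimate for a given family of frequencies. -/
theorem waves_core {ι ε ν : Type} [Fintype ε] {s t : ε → ι} (E : Emb s t) {β : ℝ} (hβ : 0 < β)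
    {free : ι → Prop} {Γ : ε → ε → ℝ} {c : ε → ℝ} (W : WardData s t β free Γ c) {N : ℕ}
    (x₀ : ℤ × ℤ) (η : ℤ × ℤ → ℝ) (i : Fin 2) {ℓ τ : ℝ} (hτ0 : 0 < τ) (hτ1 : τ ≤ 1 / 5)
    (h1 : ∀ x, |η x| ≤ 1) (h2 : ∀ x j, |η (x + latticeDir j) - η x| ≤ ℓ)
    (h3 : ∀ x, η x ≠ 0 → (x₀.1 < x.1 ∧ x.1 < x₀.1 + N) ∧ (x₀.2 < x.2 ∧ x.2 < x₀.2 + N))
    (h4 : ∀ v, η (E.pos v) ≠ 0 → free v) (S : Finset ν) {u : ν → Fin 2 → ℤ}
    (hinj : ∀ n ∈ S, ∀ m ∈ S, u n = u m → n = m) (hu : ∀ n ∈ S, ∀ m ∈ S, ∀ j, |u n j - u m j| < N)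
    {κ w : ν → ℝ} (hκ : ∀ n, κ n = 2 * Real.pi / N * u n i) (hκ0 : ∀ n ∈ S, 0 < κ n)
    (hκτ : ∀ n ∈ S, κ n ≤ τ) (hℓ : ∀ n ∈ S, ℓ ≤ τ * κ n)
    (hk : ∀ n ∈ S, ∀ j ≠ i, |2 * Real.pi / N * u n j| ≤ τ * κ n)
    (hw : ∀ n ∈ S, 0 ≤ w n) (hw1 : ∑ n ∈ S, w n = 1) :
    stiff Γ c (fun e => if E.dir e = i then η (E.pos (s e)) ^ 2 else 0) ≤
      128 * β ^ 2 * N ^ 4 * ∑ n ∈ S, (w n * κ n) ^ 2 + 116 * β * τ * N ^ 2 := by
  classical
  have hS : S.Nonempty := by
    by_contra h
    rw [Finset.not_nonempty_iff_eq_empty.1 h] at hw1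
    simp at hw1
  have hℓτ : ℓ ≤ τ := by
    obtain ⟨n, hn⟩ := hS
    have := hℓ n hn
    have := hκτ n hn
    nlinarith
  let k : ν → Fin 2 → ℝ := fun n j => 2 * Real.pi / N * u n j
  have hkκ : ∀ n ∈ S, ∀ j, |k n j| ≤ κ n := by
    intro n hn j
    by_cases hj : j = i
    · subst hj; simp only [k]; rw [← hκ, abs_of_pos (hκ0 n hn)]
    · have := hk n hn j hj
      have := hκ0 n hn
      simp only [k]; nlinarith
  let ψ : ν → ℤ × ℤ → ℂ := fun n x => η x * pw N (u n) x
  let K : ι → ι → ℝ := fun v v' =>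
    ∑ n ∈ S, w n / κ n * (star (ψ n (E.pos v)) * ψ n (E.pos v')).im
  let P : ν → ℤ × ℤ → Fin 2 → ℂ := fun n x j => (ψ n x + ψ n (x + latticeDir j)) / 2
  let d : ν → ℤ × ℤ → Fin 2 → ℂ := fun n x j => (ψ n (x + latticeDir j) - ψ n x) / κ n
  let ind : ℤ × ℤ → ℝ := fun x => if x ∈ box x₀ N then 1 else 0
  let g₀ : ℤ × ℤ → Fin 2 → ℝ := fun x j => if j = i then η x ^ 2 else 0
  have hz : ∀ x j, x ∉ box x₀ N → η x = 0 ∧ η (x + latticeDir j) = 0 := by
    intro x j hx
    constructor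
    · by_contra h
      have := h3 x h
      exact hx (by simp only [box, Finset.mem_product, Finset.mem_Ico]; omega)
    · by_contra h
      have := h3 _ h
      refine hx ?_
      simp only [box, Finset.mem_product, Finset.mem_Ico]
      fin_cases j <;> simp [latticeDir] at this <;> omega
  have hd : ∀ n x j, d n x j = (η (x + latticeDir j) *
      ((Complex.exp (Complex.I * k n j) - 1) / κ n) +
        (η (x + latticeDir j) - η x : ℝ) * (1 / κ n)) * pw N (u n) x := by
    intro n x j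
    simp only [d, ψ, pw_add, k]
    push_cast; ring
  have hα : ∀ n ∈ S, ∀ j, ‖(Complex.exp (Complex.I * k n j) - 1) / κ n‖ ≤ |k n j| / κ n := by
    intro n hn j
    rw [norm_div, Complex.norm_real, Real.norm_of_nonneg (hκ0 n hn).le]
    exact div_le_div_of_nonneg_right Real.norm_exp_I_mul_ofReal_sub_one_le (hκ0 n hn).le
  have hdn : ∀ n ∈ S, ∀ x j, ‖d n x j‖ ≤ |η (x + latticeDir j)| * (|k n j| / κ n) + τ := by
    intro n hn x j
    rw [hd, norm_mul, norm_pw, mul_one]
    refine (norm_add_le _ _).trans (add_le_add ?_ ?_)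
    · rw [norm_mul, Complex.norm_real]
      exact mul_le_mul_of_nonneg_left (hα n hn j) (abs_nonneg _)
    · rw [norm_mul, Complex.norm_real, norm_div, Complex.norm_real, norm_one,
        Real.norm_of_nonneg (hκ0 n hn).le, mul_one_div, div_le_iff₀ (hκ0 n hn)]
      exact (h2 x j).trans (hℓ n hn)
  have hq : ∀ n ∈ S, ∀ j, 0 ≤ |k n j| / κ n ∧ |k n j| / κ n ≤ 1 := fun n hn j =>
    ⟨div_nonneg (abs_nonneg _) (hκ0 n hn).le, (div_le_one (hκ0 n hn)).2 (hkκ n hn j)⟩
  have hη' : ∀ x j, |η (x + latticeDir j)| ≤ |η x| + τ := fun x j => by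
    have := abs_sub_abs_le_abs_sub (η (x + latticeDir j)) (η x)
    linarith [h2 x j]
  have hPn : ∀ n x j, ‖P n x j‖ ≤ (|η x| + |η (x + latticeDir j)|) / 2 := by
    intro n x j
    simp only [P, ψ, norm_div, Complex.norm_ofNat]
    refine div_le_div_of_nonneg_right ((norm_add_le _ _).trans ?_) zero_le_two
    simp [norm_pw]
  have hG : ∀ l ∈ S, ∀ m ∈ S, ∀ x j, ‖P l x j‖ * ‖d m x j‖ ≤ g₀ x j + 5 * τ * ind x := by
    intro l hl m hm x j
    by_cases hx : x ∈ box x₀ N
    · simp only [ind, if_pos hx, g₀]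
      have a1 := hPn l x j
      have a2 := hdn m hm x j
      have a3 := hq m hm j
      have a4 := hη' x j
      have a5 := h1 x
      have a6 := h1 (x + latticeDir j)
      have a7 := abs_nonneg (η x)
      have a8 := abs_nonneg (η (x + latticeDir j))
      split_ifs with hj
      · have b1 : ‖P l x j‖ ≤ |η x| + τ := by linarith
        have b2 : ‖d m x j‖ ≤ |η x| + 2 * τ := by nlinarith
        have := mul_le_mul b1 b2 (norm_nonneg _) (by positivity)
        rw [← sq_abs]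
        nlinarith
      · have b1 : ‖P l x j‖ ≤ 1 := by linarith
        have b3 : |k m j| / κ m ≤ τ := (div_le_iff₀ (hκ0 m hm)).2 (hk m hm j hj)
        have b2 : ‖d m x j‖ ≤ 2 * τ := by nlinarith
        have := mul_le_mul b1 b2 (norm_nonneg _) zero_le_one
        linarith
    · have := hPn l x j
      rw [(hz x j hx).1, (hz x j hx).2] at this
      have h0 : ‖P l x j‖ = 0 := le_antisymm (by simpa using this) (norm_nonneg _)
      simp [h0, ind, hx, g₀, (hz x j hx).1]
  have hd2 : ∀ n ∈ S, ∀ x j, ‖d n x j‖ ^ 2 ≤ 4 * ind x := by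
    intro n hn x j
    by_cases hx : x ∈ box x₀ N
    · simp only [ind, if_pos hx]
      have a2 := hdn n hn x j
      have a3 := hq n hn j
      have a6 := h1 (x + latticeDir j)
      have : ‖d n x j‖ ≤ 2 := by nlinarith [abs_nonneg (η (x + latticeDir j))]
      nlinarith [norm_nonneg (d n x j)]
    · simp [d, ψ, (hz x j hx).1, (hz x j hx).2, ind, hx]
  have hind : ∑ e, ind (E.pos (s e)) ≤ 2 * N ^ 2 := by
    refine (edge_sum_le E (box x₀ N) (F := fun x _ => ind x) (fun x _ => ?_) fun x _ h => ?_).trans ?_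
    · simp only [ind]; split_ifs <;> norm_num
    · by_contra hx; exact h (if_neg hx)
    · have : ∑ x ∈ box x₀ N, ind x = N ^ 2 := by
        rw [Finset.sum_congr rfl fun x hx => (if_pos hx : ind x = 1)]
        simp [card_box]
      simp [this]
  have hcind : ∀ r : ℝ, 0 ≤ r → ∑ e, c e * (r * ind (E.pos (s e))) ≤ 2 * β * r * N ^ 2 := by
    intro r hr
    calc _ ≤ ∑ e, β * r * ind (E.pos (s e)) := Finset.sum_le_sum fun e _ => by
          rw [mul_assoc]
          refine mul_le_mul_of_nonneg_right (W.bound e) (mul_nonneg hr ?_)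
          simp only [ind]; split_ifs <;> norm_num
      _ ≤ _ := by
          rw [← Finset.mul_sum]
          nlinarith [mul_le_mul_of_nonneg_left hind (mul_nonneg hβ.le hr)]
  have hbessel : ∀ γ : ν → ℂ, ∑ e, ‖∑ n ∈ S, γ n * d n (E.pos (s e)) (E.dir e)‖ ^ 2 ≤
      8 * N ^ 2 * ∑ n ∈ S, ‖γ n‖ ^ 2 := by
    intro γ
    refine (edge_sum_le E (box x₀ N) (F := fun x j => ‖∑ n ∈ S, γ n * d n x j‖ ^ 2)
      (fun x _ => by positivity) fun x j h => ?_).trans ?_
    · by_contra hx
      exact h (by simp [d, ψ, (hz x j hx).1, (hz x j hx).2])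
    · have hℓ0 : 0 ≤ ℓ := (abs_nonneg _).trans (h2 0 0)
      have : ∀ j, ∑ x ∈ box x₀ N, ‖∑ n ∈ S, γ n * d n x j‖ ^ 2 ≤ 4 * N ^ 2 * ∑ n ∈ S, ‖γ n‖ ^ 2 := by
        intro j
        have p1 := pw_parseval x₀ S hinj hu
          fun n => γ n * ((Complex.exp (Complex.I * k n j) - 1) / κ n)
        have p2 := pw_parseval x₀ S hinj hu fun n => γ n * (ℓ / κ n : ℝ)
        have q1 : ∑ n ∈ S, ‖γ n * ((Complex.exp (Complex.I * k n j) - 1) / κ n)‖ ^ 2 ≤
            ∑ n ∈ S, ‖γ n‖ ^ 2 := Finset.sum_le_sum fun n hn => by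
          rw [norm_mul]
          exact pow_le_pow_left₀ (by positivity)
            (mul_le_of_le_one_right (norm_nonneg _) ((hα n hn j).trans (hq n hn j).2)) 2
        have q2 : ∑ n ∈ S, ‖γ n * (ℓ / κ n : ℝ)‖ ^ 2 ≤ ∑ n ∈ S, ‖γ n‖ ^ 2 :=
          Finset.sum_le_sum fun n hn => by
            rw [norm_mul, Complex.norm_real, Real.norm_of_nonneg (div_nonneg hℓ0 (hκ0 n hn).le)]
            refine pow_le_pow_left₀ (mul_nonneg (norm_nonneg _) (div_nonneg hℓ0 (hκ0 n hn).le))
              (mul_le_of_le_one_right (norm_nonneg _) ((div_le_one (hκ0 n hn)).2 ?_)) 2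
            nlinarith [hℓ n hn, hκ0 n hn]
        have q3 : ∀ x, ‖∑ n ∈ S, γ n * d n x j‖ ^ 2 ≤
            2 * ‖∑ n ∈ S, γ n * ((Complex.exp (Complex.I * k n j) - 1) / κ n) * pw N (u n) x‖ ^ 2 +
            2 * ‖∑ n ∈ S, γ n * (ℓ / κ n : ℝ) * pw N (u n) x‖ ^ 2 := by
          intro x
          have e1 : ∑ n ∈ S, γ n * d n x j = η (x + latticeDir j) *
              ∑ n ∈ S, γ n * ((Complex.exp (Complex.I * k n j) - 1) / κ n) * pw N (u n) x +
              (η (x + latticeDir j) - η x : ℝ) * ∑ n ∈ S, γ n * (1 / κ n) * pw N (u n) x := by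
            simp only [hd, Finset.mul_sum, ← Finset.sum_add_distrib]
            exact Finset.sum_congr rfl fun n _ => by ring
          have e2 : ∑ n ∈ S, γ n * (ℓ / κ n : ℝ) * pw N (u n) x =
              ℓ * ∑ n ∈ S, γ n * (1 / κ n) * pw N (u n) x := by
            rw [Finset.mul_sum]
            exact Finset.sum_congr rfl fun n _ => by push_cast; ring
          rw [e1, e2]
          generalize ∑ n ∈ S, γ n * ((Complex.exp (Complex.I * k n j) - 1) / κ n) * pw N (u n) x = A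
          generalize ∑ n ∈ S, γ n * (1 / κ n) * pw N (u n) x = B
          have r1 : ‖(η (x + latticeDir j) : ℂ) * A + (η (x + latticeDir j) - η x : ℝ) * B‖ ≤
              ‖A‖ + ‖(ℓ : ℂ) * B‖ := by
            refine (norm_add_le _ _).trans (add_le_add ?_ ?_)
            · rw [norm_mul, Complex.norm_real]
              exact mul_le_of_le_one_left (norm_nonneg _) (h1 _)
            · rw [norm_mul, norm_mul, Complex.norm_real, Complex.norm_real,
                Real.norm_of_nonneg hℓ0]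
              exact mul_le_mul_of_nonneg_right (h2 x j) (norm_nonneg _)
          have := pow_le_pow_left₀ (norm_nonneg _) r1 2
          nlinarith [sq_nonneg (‖A‖ - ‖(ℓ : ℂ) * B‖)]
        have q4 := Finset.sum_le_sum fun x (_ : x ∈ box x₀ N) => q3 x
        rw [Finset.sum_add_distrib, ← Finset.mul_sum, ← Finset.mul_sum, p1, p2] at q4
        have hN2 : (0 : ℝ) ≤ N ^ 2 := by positivity
        nlinarith [mul_le_mul_of_nonneg_left q1 hN2, mul_le_mul_of_nonneg_left q2 hN2]
      rw [Fin.sum_univ_two]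
      linarith [this 0, this 1]
  have hKN : ∀ e e', kN s t K e e' = ∑ n ∈ S, w n *
      (star (P n (E.pos (s e)) (E.dir e)) * d n (E.pos (s e')) (E.dir e')).im := by
    intro e e'
    simp only [kN, K, P, d, ← E.tgt, ← Finset.sum_sub_distrib, ← Finset.sum_add_distrib,
      Finset.sum_div]
    refine Finset.sum_congr rfl fun n _ => ?_
    simp only [Complex.mul_im, Complex.star_def, Complex.conj_re, Complex.conj_im,
      Complex.div_ofReal_re, Complex.div_ofReal_im, Complex.div_ofNat_re, Complex.div_ofNat_im,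
      Complex.add_re, Complex.add_im, Complex.sub_re, Complex.sub_im]
    ring
  have hKD : ∀ e e', kD s t K e e' = (∑ n ∈ S, ((w n * κ n : ℝ) *
      star (d n (E.pos (s e)) (E.dir e))) * d n (E.pos (s e')) (E.dir e')).im := by
    intro e e'
    simp only [kD, K, d, ← E.tgt, ← Finset.sum_sub_distrib, Complex.im_sum]
    refine Finset.sum_congr rfl fun n hn => ?_
    have := (hκ0 n hn).ne'
    simp only [Complex.mul_im, Complex.mul_re, Complex.star_def, Complex.conj_re, Complex.conj_im,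
      Complex.div_ofReal_re, Complex.div_ofReal_im, Complex.ofReal_re, Complex.ofReal_im,
      Complex.sub_re, Complex.sub_im]
    field_simp
    ring
  have hD : ∑ e, ∑ e', kD s t K e e' ^ 2 ≤ 64 * N ^ 4 * ∑ n ∈ S, (w n * κ n) ^ 2 := by
    calc _ ≤ ∑ e, 8 * (N : ℝ) ^ 2 * ∑ n ∈ S, (w n * κ n) ^ 2 * (4 * ind (E.pos (s e))) := by
          refine Finset.sum_le_sum fun e _ => ?_
          refine le_trans (Finset.sum_le_sum fun e' _ => ?_) ((hbessel fun n => (w n * κ n : ℝ) *
            star (d n (E.pos (s e)) (E.dir e))).trans ?_)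
          · rw [hKD, ← sq_abs]
            exact pow_le_pow_left₀ (abs_nonneg _) (Complex.abs_im_le_norm _) 2
          · refine mul_le_mul_of_nonneg_left (Finset.sum_le_sum fun n hn => ?_) (by positivity)
            rw [norm_mul, norm_star, Complex.norm_real, mul_pow, Real.norm_eq_abs, sq_abs]
            exact mul_le_mul_of_nonneg_left (hd2 n hn _ _) (sq_nonneg _)
      _ = 32 * (N : ℝ) ^ 2 * (∑ n ∈ S, (w n * κ n) ^ 2) * ∑ e, ind (E.pos (s e)) := by
          simp only [← Finset.sum_mul]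
          rw [Finset.mul_sum (f := fun e => ind (E.pos (s e)))]
          exact Finset.sum_congr rfl fun e _ => by ring
      _ ≤ 32 * (N : ℝ) ^ 2 * (∑ n ∈ S, (w n * κ n) ^ 2) * (2 * N ^ 2) :=
          mul_le_mul_of_nonneg_left hind
            (mul_nonneg (by positivity) (Finset.sum_nonneg fun _ _ => sq_nonneg _))
      _ = _ := by ring
  have hKg : ∀ e, kg s t K e = η (E.pos (s e)) * η (E.pos (s e) + latticeDir (E.dir e)) *
      ∑ n ∈ S, w n * (Real.sin (k n (E.dir e)) / κ n) := by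
    intro e
    simp only [kg, K, E.tgt, Finset.mul_sum]
    refine Finset.sum_congr rfl fun n _ => ?_
    have : star (ψ n (E.pos (s e))) * ψ n (E.pos (s e) + latticeDir (E.dir e)) =
        (η (E.pos (s e)) * η (E.pos (s e) + latticeDir (E.dir e)) : ℝ) *
          Complex.exp (k n (E.dir e) * Complex.I) := by
      have h := Complex.mul_conj' (pw N (u n) (E.pos (s e)))
      rw [norm_pw] at h
      simp only [ψ, pw_add, star_mul', Complex.star_def, Complex.conj_ofReal, k,
        mul_comm Complex.I]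
      push_cast at h ⊢
      linear_combination (η (E.pos (s e)) * η (E.pos (s e) + latticeDir (E.dir e)) *
        Complex.exp (2 * Real.pi / N * u n (E.dir e) * Complex.I)) * h
    rw [this, Complex.im_ofReal_mul, Complex.exp_ofReal_mul_I_im]
    ring
  have hg : ∀ e, |g₀ (E.pos (s e)) (E.dir e) - kg s t K e| ≤ 2 * τ * ind (E.pos (s e)) := by
    intro e
    rw [hKg]
    generalize E.pos (s e) = x
    generalize E.dir e = j
    by_cases hx : x ∈ box x₀ N
    · simp only [ind, if_pos hx, g₀, mul_one]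
      have a5 := h1 x
      have a6 := h1 (x + latticeDir j)
      split_ifs with hj
      · subst hj
        have hs : ∀ n ∈ S, 1 - τ ≤ Real.sin (k n j) / κ n ∧ Real.sin (k n j) / κ n ≤ 1 := by
          intro n hn
          have e1 : k n j = κ n := (hκ n).symm
          have b0 := hκ0 n hn
          have b1 := hκτ n hn
          rw [e1, le_div_iff₀ b0, div_le_one b0]
          refine ⟨?_, Real.sin_le b0.le⟩
          have := Real.sin_gt_sub_cube b0
          nlinarith [mul_pos b0 b0]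
        have s1 : 1 - τ ≤ ∑ n ∈ S, w n * (Real.sin (k n j) / κ n) := by
          calc 1 - τ = ∑ n ∈ S, w n * (1 - τ) := by rw [← Finset.sum_mul, hw1, one_mul]
            _ ≤ _ := Finset.sum_le_sum fun n hn => mul_le_mul_of_nonneg_left (hs n hn).1 (hw n hn)
        have s2 : ∑ n ∈ S, w n * (Real.sin (k n j) / κ n) ≤ 1 := by
          calc _ ≤ ∑ n ∈ S, w n * 1 :=
              Finset.sum_le_sum fun n hn => mul_le_mul_of_nonneg_left (hs n hn).2 (hw n hn)
            _ = 1 := by simpa using hw1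
        generalize ∑ n ∈ S, w n * (Real.sin (k n j) / κ n) = A at s1 s2
        have e2 : η x ^ 2 - η x * η (x + latticeDir j) * A =
            η x ^ 2 * (1 - A) - η x * (η (x + latticeDir j) - η x) * A := by ring
        have b1 : |η x ^ 2 * (1 - A)| ≤ τ := by
          rw [abs_mul, abs_of_nonneg (by linarith : 0 ≤ 1 - A), abs_pow]
          have : |η x| ^ 2 ≤ 1 := pow_le_one₀ (abs_nonneg _) a5
          nlinarith [sq_nonneg |η x|]
        have b2 : |η x * (η (x + latticeDir j) - η x) * A| ≤ τ := by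
          rw [abs_mul, abs_mul, abs_of_nonneg (by linarith : 0 ≤ A)]
          have : |η x| * |η (x + latticeDir j) - η x| ≤ 1 * τ :=
            mul_le_mul a5 ((h2 x j).trans hℓτ) (abs_nonneg _) zero_le_one
          nlinarith [mul_nonneg (abs_nonneg (η x)) (abs_nonneg (η (x + latticeDir j) - η x))]
        rw [e2]
        exact (abs_sub _ _).trans (by linarith)
      · have s1 : |∑ n ∈ S, w n * (Real.sin (k n j) / κ n)| ≤ τ := by
          refine (Finset.abs_sum_le_sum_abs _ _).trans ?_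
          calc _ ≤ ∑ n ∈ S, w n * τ := Finset.sum_le_sum fun n hn => by
                rw [abs_mul, abs_of_nonneg (hw n hn), abs_div, abs_of_pos (hκ0 n hn)]
                refine mul_le_mul_of_nonneg_left ((div_le_iff₀ (hκ0 n hn)).2 ?_) (hw n hn)
                exact Real.abs_sin_le_abs.trans (hk n hn j hj)
            _ = τ := by rw [← Finset.sum_mul, hw1, one_mul]
        rw [zero_sub, abs_neg, abs_mul, abs_mul]
        have : |η x| * |η (x + latticeDir j)| ≤ 1 := mul_le_one₀ a5 (abs_nonneg _) a6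
        nlinarith [abs_nonneg (∑ n ∈ S, w n * (Real.sin (k n j) / κ n))]
    · simp [ind, hx, g₀, (hz x j hx).1]
  have hward := W.ward K (fun v v' => by
      simp only [K, ← Finset.sum_neg_distrib]
      refine Finset.sum_congr rfl fun n _ => ?_
      simp only [Complex.mul_im, Complex.star_def, Complex.conj_re, Complex.conj_im]
      ring)
    fun v v' h => h4 v fun h0 => h (by simp [K, ψ, h0])
  have hxx := W.xx S hw hw1 (P := fun n e => P n (E.pos (s e)) (E.dir e))
    (d := fun n e => d n (E.pos (s e)) (E.dir e))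
    (G := fun e => g₀ (E.pos (s e)) (E.dir e) + 5 * τ * ind (E.pos (s e)))
    fun l hl m hm e => hG l hl m hm _ _
  simp only [← hKN] at hxx
  have hi : ∀ x, ind x = 0 ∨ ind x = 1 := fun x => by simp only [ind]; split_ifs <;> simp
  have hg0 : ∀ x j, 0 ≤ g₀ x j ∧ g₀ x j ≤ 1 := fun x j => by
    simp only [g₀]
    split_ifs
    · exact ⟨sq_nonneg _, by rw [← sq_abs]; exact pow_le_one₀ (abs_nonneg _) (h1 x)⟩
    · norm_num
  have f1 : ∑ e, c e * (g₀ (E.pos (s e)) (E.dir e) + 5 * τ * ind (E.pos (s e))) ^ 2 ≤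
      ∑ e, c e * kg s t K e ^ 2 + ∑ e, c e * (25 * τ * ind (E.pos (s e))) := by
    rw [← Finset.sum_add_distrib]
    refine Finset.sum_le_sum fun e _ => ?_
    rw [← mul_add]
    refine mul_le_mul_of_nonneg_left ?_ (W.c_nonneg e)
    have a1 := abs_le.1 (hg e)
    have a2 := hg0 (E.pos (s e)) (E.dir e)
    rcases hi (E.pos (s e)) with h | h <;> rw [h] at a1 ⊢
    · have : kg s t K e = g₀ (E.pos (s e)) (E.dir e) := by linarith
      rw [this]; simp
    · nlinarith [sq_nonneg (g₀ (E.pos (s e)) (E.dir e) - kg s t K e)]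
  have f2 : ∑ e, c e * (g₀ (E.pos (s e)) (E.dir e) - kg s t K e) ^ 2 ≤
      ∑ e, c e * (4 * τ * ind (E.pos (s e))) := by
    refine Finset.sum_le_sum fun e _ => mul_le_mul_of_nonneg_left ?_ (W.c_nonneg e)
    have a1 := pow_le_pow_left₀ (abs_nonneg _) (hg e) 2
    rw [sq_abs] at a1
    rcases hi (E.pos (s e)) with h | h <;> rw [h] at a1 ⊢ <;> nlinarith
  have f3 := hcind (25 * τ) (by positivity)
  have f4 := hcind (4 * τ) (by positivity)
  have f5 := W.stiff_le (kg s t K) fun e => g₀ (E.pos (s e)) (E.dir e)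
  have f6 := mul_le_mul_of_nonneg_left hD (sq_nonneg β)
  simp only [stiff] at f5 ⊢
  simp only [g₀] at f1 f2 f5 hxx
  linarith

theorem waves {β δ D : ℝ} (hβ : 0 < β) (hδ : 0 < δ) (hD : 0 < D) :
    ∃ N₀ : ℕ, ∀ N : ℕ, N₀ ≤ N → ∀ {ι ε : Type} [Fintype ε] {s t : ε → ι} (E : Emb s t)
      {free : ι → Prop} {Γ : ε → ε → ℝ} {c : ε → ℝ}, WardData s t β free Γ c →
      ∀ (x₀ : ℤ × ℤ) (η : ℤ × ℤ → ℝ) (i : Fin 2), (∀ x, |η x| ≤ 1) →
        (∀ x j, |η (x + latticeDir j) - η x| ≤ D / N) →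
        (∀ x, η x ≠ 0 → (x₀.1 < x.1 ∧ x.1 < x₀.1 + N) ∧ (x₀.2 < x.2 ∧ x.2 < x₀.2 + N)) →
        (∀ v, η (E.pos v) ≠ 0 → free v) →
        stiff Γ c (fun e => if E.dir e = i then η (E.pos (s e)) ^ 2 else 0) ≤ δ * N ^ 2 := by
  have hπ := Real.pi_gt_three
  obtain ⟨τ, hτ0, hτ1, hτδ⟩ : ∃ τ : ℝ, 0 < τ ∧ τ ≤ 1 / 5 ∧ 116 * β * τ ≤ δ / 2 := by
    refine ⟨min (1 / 5) (δ / (232 * β)), by positivity, min_le_left _ _, ?_⟩
    have := (le_div_iff₀ (by positivity : 0 < 232 * β)).1 (min_le_right (1 / 5) (δ / (232 * β)))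
    linarith
  obtain ⟨T, hT⟩ := exists_nat_ge ((1 + D) / τ)
  rw [div_le_iff₀ hτ0] at hT
  have hT0 : (0 : ℝ) < T := by nlinarith [Nat.cast_nonneg (α := ℝ) T]
  obtain ⟨M, hM⟩ := (Real.tendsto_sum_range_one_div_nat_succ_atTop.eventually_ge_atTop
    (256 * β ^ 2 * (2 * Real.pi * T) ^ 2 / δ)).exists
  set H := ∑ m ∈ Finset.range M, (1 / (m + 1) : ℝ) with hH
  have hH0 : 0 < H := lt_of_lt_of_le (by positivity) hM
  obtain ⟨N₀, hN₀⟩ := exists_nat_ge (2 * Real.pi * T * M / τ + 1)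
  refine ⟨N₀, fun N hN ι ε _ s t E free Γ c W x₀ η i h1 h2 h3 h4 => ?_⟩
  have hNN : (N₀ : ℝ) ≤ N := by exact_mod_cast hN
  have hM0 : (0 : ℝ) ≤ 2 * Real.pi * T * M / τ := by positivity
  have hN0 : (0 : ℝ) < N := by linarith
  have hNτ : 2 * Real.pi * T * M ≤ τ * N := by
    rw [mul_comm τ, ← div_le_iff₀ hτ0]; linarith
  have hTM : (T : ℤ) * M < N := by
    have : (T : ℝ) * M < N := by nlinarith [mul_nonneg hT0.le (Nat.cast_nonneg (α := ℝ) M)]
    exact_mod_cast this
  have hT1 : (1 : ℤ) ≤ T := by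
    have : 0 < T := by exact_mod_cast hT0
    exact_mod_cast this
  let S : Finset (Σ _ : ℕ, ℕ) := (Finset.range M).sigma fun m => Finset.range (m + 1)
  have hS : ∀ n ∈ S, n.1 < M ∧ n.2 < n.1 + 1 := fun n hn => by simpa [S] using hn
  let u : (Σ _ : ℕ, ℕ) → Fin 2 → ℤ := fun n j => if j = i then T * (n.1 + 1) else n.2
  have hu0 : ∀ n ∈ S, ∀ j, 0 ≤ u n j ∧ u n j ≤ T * M := by
    intro n hn j
    obtain ⟨a1, a2⟩ := hS n hn
    have b1 : (n.1 : ℤ) + 1 ≤ M := by exact_mod_cast a1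
    have b2 : (n.2 : ℤ) < n.1 + 1 := by exact_mod_cast a2
    simp only [u]
    split_ifs
    · exact ⟨by positivity, by nlinarith⟩
    · exact ⟨by positivity, by nlinarith⟩
  have key := waves_core E hβ W x₀ η i hτ0 hτ1 h1 h2 h3 h4 S (u := u)
    (fun n _ m _ h => by
      obtain ⟨j, hj⟩ := exists_ne i
      have a1 := congrFun h i
      have a2 := congrFun h j
      simp only [u, if_true, if_neg hj] at a1 a2
      have a3 : (n.1 : ℤ) + 1 = m.1 + 1 := mul_left_cancel₀ (by omega) a1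
      exact Sigma.ext (by omega) (heq_of_eq (by omega)))
    (fun n hn m hm j => by
      have := hu0 n hn j
      have := hu0 m hm j
      rw [abs_lt]; constructor <;> omega)
    (κ := fun n => 2 * Real.pi / N * (T * (n.1 + 1)))
    (w := fun n => 1 / ((n.1 + 1) ^ 2 * H))
    (fun n => by simp [u]) (fun n _ => by positivity)
    (fun n hn => by
      have b1 : (n.1 : ℝ) + 1 ≤ M := by exact_mod_cast (hS n hn).1
      rw [div_mul_eq_mul_div, div_le_iff₀ hN0]
      nlinarith [mul_le_mul_of_nonneg_left b1 (by positivity : (0 : ℝ) ≤ 2 * Real.pi * T)])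
    (fun n _ => by
      rw [div_mul_eq_mul_div, ← mul_div_assoc]
      refine div_le_div_of_nonneg_right ?_ hN0.le
      have b1 : (1 : ℝ) ≤ 2 * Real.pi * (n.1 + 1) := by nlinarith [Nat.cast_nonneg (α := ℝ) n.1]
      nlinarith [mul_le_mul_of_nonneg_left b1 (by positivity : (0 : ℝ) ≤ T * τ)])
    (fun n hn j hj => by
      have b2 : (n.2 : ℝ) ≤ n.1 + 1 := by exact_mod_cast (hS n hn).2.le
      simp only [u, if_neg hj, Int.cast_natCast]
      rw [abs_of_nonneg (by positivity), mul_left_comm]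
      refine mul_le_mul_of_nonneg_left ?_ (by positivity)
      nlinarith [Nat.cast_nonneg (α := ℝ) n.1])
    (fun n _ => by positivity)
    (by
      rw [Finset.sum_sigma]
      simp only [Finset.sum_const, Finset.card_range, nsmul_eq_mul]
      calc _ = ∑ m ∈ Finset.range M, 1 / ((m : ℝ) + 1) / H :=
            Finset.sum_congr rfl fun m _ => by push_cast; field_simp
        _ = 1 := by rw [← Finset.sum_div, ← hH, div_self hH0.ne'])
  have e : ∑ n ∈ S, (1 / (((n.1 : ℝ) + 1) ^ 2 * H) * (2 * Real.pi / N * (T * (n.1 + 1)))) ^ 2 =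
      (2 * Real.pi * T) ^ 2 / (N ^ 2 * H) := by
    rw [Finset.sum_sigma]
    simp only [Finset.sum_const, Finset.card_range, nsmul_eq_mul]
    calc _ = ∑ m ∈ Finset.range M, 1 / ((m : ℝ) + 1) * ((2 * Real.pi * T) ^ 2 / (N ^ 2 * H ^ 2)) :=
          Finset.sum_congr rfl fun m _ => by push_cast; field_simp
      _ = _ := by rw [← Finset.sum_mul, ← hH]; field_simp
  rw [e] at key
  have e2 : 128 * β ^ 2 * (N : ℝ) ^ 4 * ((2 * Real.pi * T) ^ 2 / (N ^ 2 * H)) ≤ δ / 2 * N ^ 2 := by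
    rw [div_le_iff₀ hδ] at hM
    calc _ = 256 * β ^ 2 * (2 * Real.pi * T) ^ 2 * (N ^ 2 / (2 * H)) := by field_simp; ring
      _ ≤ H * δ * (N ^ 2 / (2 * H)) := mul_le_mul_of_nonneg_right hM (by positivity)
      _ = _ := by field_simp
  nlinarith [mul_le_mul_of_nonneg_right hτδ (by positivity : (0 : ℝ) ≤ N ^ 2)]

end Crest.Agent.R167
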